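import Mathlib

/-!
# Computable rational arithmetic (S0170 library)

`Primcodable ℚ` comes from `Denumerable ℚ` (rank of the `Encodable` code among the valid codes).
We prove that the split numerator and the denominator of a rational and the map
`(A, B, d) ↦ (A - B) / d` are computable; all rational operations follow.
-/

set_option autoImplicit false

namespace Crest.Agent.S0170Lib

open Encodable Denumerable

/-- The `Encodable` (not `Denumerable`) code of a rational. -/
def eE (q : ℚ) : ℕ := @encode ℚ Rat.instEncodable q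

lemma eE_eq (q : ℚ) : eE q = Nat.pair (encode q.num) q.den := rfl

lemma encode_int_nonneg (z : ℕ) : encode (Int.ofNat z) = 2 * z := rfl
lemma encode_int_neg (z : ℕ) : encode (Int.negSucc z) = 2 * z + 1 := rfl

/-- absolute value from the code of an integer -/
def absOf (x : ℕ) : ℕ := (x + 1) / 2

lemma absOf_encode (z : ℤ) : absOf (encode z) = z.natAbs := by
  cases z with
  | ofNat n =>
    rw [encode_int_nonneg]; simp [absOf]; omega
  | negSucc n =>
    rw [encode_int_neg]; simp [absOf]; omega

/-- validity of a code -/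
def validCodeC (m : ℕ) : Prop :=
  0 < (Nat.unpair m).2 ∧ Nat.gcd (absOf (Nat.unpair m).1) (Nat.unpair m).2 = 1

instance : DecidablePred validCodeC := fun m => by unfold validCodeC; infer_instance

lemma eE_inj : Function.Injective eE := Encodable.encode_injective

lemma valid_iff_range (m : ℕ) : validCodeC m ↔ m ∈ Set.range eE := by
  constructor
  · rintro ⟨h1, h2⟩
    let z : ℤ := ofNat ℤ (Nat.unpair m).1
    have hz : encode z = (Nat.unpair m).1 := Denumerable.encode_ofNat _
    have hc : z.natAbs.Coprime (Nat.unpair m).2 := by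
      rw [← absOf_encode, hz]; exact h2
    refine ⟨Rat.mk' z (Nat.unpair m).2 (by omega) hc, ?_⟩
    rw [eE_eq]
    show Nat.pair (encode z) (Nat.unpair m).2 = m
    rw [hz]; exact Nat.pair_unpair m
  · rintro ⟨q, rfl⟩
    rw [eE_eq]
    simp only [validCodeC, Nat.unpair_pair]
    refine ⟨q.den_pos, ?_⟩
    rw [absOf_encode]
    exact q.reduced

/-- The rank of a number among valid codes. -/
def rankF : ℕ → ℕ
  | 0 => 0
  | m + 1 => rankF m + if validCodeC m then 1 else 0

lemma rankF_eq_countP (m : ℕ) :
    (List.range m).countP (fun y => @decide (y ∈ Set.range eE) (Encodable.decidableRangeEncode ℚ y))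
      = rankF m := by
  induction m with
  | zero => simp [rankF]
  | succ m ih =>
    rw [List.range_succ, List.countP_append, ih, rankF]
    congr 1
    by_cases h : validCodeC m
    · have h' := (valid_iff_range m).1 h
      simp [h, h']
    · have h' := fun hh => h ((valid_iff_range m).2 hh)
      rw [if_neg h]
      simp only [List.countP_cons, List.countP_nil, zero_add]
      rw [if_neg]
      intro hh
      exact h' (@of_decide_eq_true (m ∈ Set.range eE) (Encodable.decidableRangeEncode ℚ m) hh)

/-- The code of a rational used by `Primcodable ℚ`. -/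
abbrev encD (q : ℚ) : ℕ := @encode ℚ Rat.instDenumerable.toEncodable q

lemma encode_rat (q : ℚ) : encD q = rankF (eE q) := by
  rw [← rankF_eq_countP]
  rfl

lemma rankF_mono {a b : ℕ} (h : a ≤ b) : rankF a ≤ rankF b := by
  induction h with
  | refl => exact le_rfl
  | step _ ih => exact ih.trans (by simp [rankF])

/-- If two valid codes have the same rank they are equal. -/
lemma rank_inj {a b : ℕ} (ha : validCodeC a) (hb : validCodeC b) (h : rankF a = rankF b) : a = b := by
  obtain ⟨q, rfl⟩ := (valid_iff_range a).1 ha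
  obtain ⟨r, rfl⟩ := (valid_iff_range b).1 hb
  rw [← encode_rat, ← encode_rat] at h
  have : q = r := @Encodable.encode_injective ℚ Rat.instDenumerable.toEncodable _ _ h
  rw [this]

/-! ### Primitive recursive pieces -/

lemma primrec_gcdC : Primrec₂ Nat.gcd := by
  have key : ∀ a b : ℕ, Nat.gcd a b = Nat.findGreatest (fun g => a % g = 0 ∧ b % g = 0) (a + b) := by
    intro a b
    symm
    rw [Nat.findGreatest_eq_iff]
    refine ⟨?_, ?_, ?_⟩
    · by_cases ha : a = 0
      · subst ha; simp
      · have := Nat.gcd_le_left b (Nat.pos_of_ne_zero ha); omega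
    · intro _
      exact ⟨Nat.mod_eq_zero_of_dvd (Nat.gcd_dvd_left a b), Nat.mod_eq_zero_of_dvd (Nat.gcd_dvd_right a b)⟩
    · rintro n hn hnk ⟨h1, h2⟩
      have h3 : n ∣ Nat.gcd a b := Nat.dvd_gcd (Nat.dvd_of_mod_eq_zero h1) (Nat.dvd_of_mod_eq_zero h2)
      by_cases hg : Nat.gcd a b = 0
      · rw [hg] at hn
        have : a = 0 ∧ b = 0 := by simpa using hg
        omega
      · have := Nat.le_of_dvd (Nat.pos_of_ne_zero hg) h3
        omega
  have hp : PrimrecRel (fun (x : ℕ × ℕ) (g : ℕ) => x.1 % g = 0 ∧ x.2 % g = 0) := by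
    apply PrimrecPred.and
    · exact Primrec.eq.comp (Primrec.nat_mod.comp (Primrec.fst.comp Primrec.fst) Primrec.snd) (Primrec.const 0)
    · exact Primrec.eq.comp (Primrec.nat_mod.comp (Primrec.snd.comp Primrec.fst) Primrec.snd) (Primrec.const 0)
  have := Primrec.nat_findGreatest (f := fun x : ℕ × ℕ => x.1 + x.2) (Primrec.nat_add.comp Primrec.fst Primrec.snd) hp
  refine this.of_eq ?_
  rintro ⟨a, b⟩
  exact (key a b).symm

lemma primrec_absOf : Primrec absOf :=
  Primrec.nat_div.comp (Primrec.succ) (Primrec.const 2)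

lemma primrecPred_valid : PrimrecPred validCodeC := by
  unfold validCodeC
  apply PrimrecPred.and
  · exact Primrec.nat_lt.comp (Primrec.const 0) (Primrec.snd.comp Primrec.unpair)
  · exact Primrec.eq.comp
      (primrec_gcdC.comp (primrec_absOf.comp (Primrec.fst.comp Primrec.unpair)) (Primrec.snd.comp Primrec.unpair))
      (Primrec.const 1)

lemma primrec_rankF : Primrec rankF := by
  have h : Primrec₂ (fun (m r : ℕ) => r + if validCodeC m then 1 else 0) :=
    Primrec.nat_add.comp Primrec.snd
      (Primrec.ite (primrecPred_valid.comp Primrec.fst) (Primrec.const 1) (Primrec.const 0))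
  refine (Primrec.nat_rec₁ 0 h).of_eq ?_
  intro m
  induction m with
  | zero => rfl
  | succ m ih => simp only [rankF, ← ih]

/-- From rank to code. -/
lemma computable_unrank : Computable (fun k => eE (ofNat ℚ k)) := by
  have hp : Computable₂ (fun (k m : ℕ) => decide (validCodeC m ∧ rankF m = k)) := by
    have : PrimrecRel (fun (k m : ℕ) => validCodeC m ∧ rankF m = k) := by
      apply PrimrecPred.and
      · exact primrecPred_valid.comp Primrec.snd
      · exact Primrec.eq.comp (primrec_rankF.comp Primrec.snd) Primrec.fst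
    exact (PrimrecRel.decide this).to_comp
  let p : ℕ → ℕ →. Bool := fun k => ((fun m => decide (validCodeC m ∧ rankF m = k) : ℕ → Bool) : ℕ →. Bool)
  have h2 : Partrec fun k => Nat.rfind (p k) := Partrec.rfind (p := p) hp.partrec₂
  refine h2.of_eq ?_
  intro k
  show Nat.rfind (p k) = Part.some (eE (ofNat ℚ k))
  rw [Part.eq_some_iff, Nat.mem_rfind]
  have hv : validCodeC (eE (ofNat ℚ k)) := (valid_iff_range _).2 ⟨_, rfl⟩
  have hr : rankF (eE (ofNat ℚ k)) = k := by
    rw [← encode_rat]; exact @Denumerable.encode_ofNat ℚ _ k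
  constructor
  · show true ∈ Part.some (decide (validCodeC (eE (ofNat ℚ k)) ∧ rankF (eE (ofNat ℚ k)) = k))
    rw [decide_eq_true (⟨hv, hr⟩ : validCodeC (eE (ofNat ℚ k)) ∧ rankF (eE (ofNat ℚ k)) = k)]
    exact Part.mem_some _
  · intro m hm
    have hne : ¬ (validCodeC m ∧ rankF m = k) := by
      rintro ⟨h1, h2⟩
      have := rank_inj h1 hv (h2.trans hr.symm)
      omega
    show false ∈ Part.some (decide (validCodeC m ∧ rankF m = k))
    rw [decide_eq_false hne]
    exact Part.mem_some _

lemma computable_eE : Computable eE := by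
  refine (computable_unrank.comp (Computable.encode (α := ℚ))).of_eq ?_
  intro q
  have : ofNat ℚ (@encode ℚ (Primcodable.ofDenumerable ℚ).toEncodable q) = q := @Denumerable.ofNat_encode ℚ _ q
  rw [this]

/-! ### The three components and `mk` -/

/-- positive part of the numerator -/
def ratA (q : ℚ) : ℕ := q.num.toNat
/-- negative part of the numerator -/
def ratB (q : ℚ) : ℕ := (-q.num).toNat

lemma ratA_sub_ratB (q : ℚ) : (ratA q : ℤ) - ratB q = q.num := by
  simp only [ratA, ratB]
  omega

lemma rat_eq (q : ℚ) : q = ((ratA q : ℚ) - ratB q) / q.den := by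
  have h : ((ratA q : ℚ) - ratB q) = (q.num : ℚ) := by
    have := ratA_sub_ratB q
    exact_mod_cast this
  rw [h]
  exact (Rat.num_div_den q).symm

def codeA (x : ℕ) : ℕ := if x % 2 = 0 then x / 2 else 0
def codeB (x : ℕ) : ℕ := if x % 2 = 0 then 0 else (x + 1) / 2

lemma codeA_encode (z : ℤ) : codeA (encode z) = z.toNat := by
  cases z with
  | ofNat n => rw [encode_int_nonneg]; simp [codeA]
  | negSucc n => rw [encode_int_neg]; simp [codeA]

lemma codeB_encode (z : ℤ) : codeB (encode z) = (-z).toNat := by
  cases z with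
  | ofNat n => rw [encode_int_nonneg]; simp [codeB]
  | negSucc n => rw [encode_int_neg]; simp [codeB]; omega

lemma primrec_codeA : Primrec codeA :=
  Primrec.ite (Primrec.eq.comp (Primrec.nat_mod.comp Primrec.id (Primrec.const 2)) (Primrec.const 0))
    (Primrec.nat_div.comp Primrec.id (Primrec.const 2)) (Primrec.const 0)

lemma primrec_codeB : Primrec codeB :=
  Primrec.ite (Primrec.eq.comp (Primrec.nat_mod.comp Primrec.id (Primrec.const 2)) (Primrec.const 0))
    (Primrec.const 0) (Primrec.nat_div.comp Primrec.succ (Primrec.const 2))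

lemma computable_ratA : Computable ratA := by
  refine ((primrec_codeA.comp (Primrec.fst.comp Primrec.unpair)).to_comp.comp computable_eE).of_eq ?_
  intro q
  simp only [eE_eq, Nat.unpair_pair]
  exact codeA_encode _

lemma computable_ratB : Computable ratB := by
  refine ((primrec_codeB.comp (Primrec.fst.comp Primrec.unpair)).to_comp.comp computable_eE).of_eq ?_
  intro q
  simp only [eE_eq, Nat.unpair_pair]
  exact codeB_encode _

lemma computable_den : Computable (fun q : ℚ => q.den) := by
  refine ((Primrec.snd.comp Primrec.unpair).to_comp.comp computable_eE).of_eq ?_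
  intro q
  simp only [eE_eq, Nat.unpair_pair]

/-- The rational `(A - B) / d`. -/
def mkQ (y : ℕ × ℕ × ℕ) : ℚ := ((y.1 : ℚ) - y.2.1) / y.2.2

/-- the code of `mkQ` -/
def mkCode (y : ℕ × ℕ × ℕ) : ℕ :=
  if y.2.2 = 0 ∨ y.1 = y.2.1 then Nat.pair 0 1
  else
    let a := (y.1 - y.2.1) + (y.2.1 - y.1)
    let g := Nat.gcd a y.2.2
    Nat.pair (if y.2.1 < y.1 then 2 * (a / g) else 2 * (a / g - 1) + 1) (y.2.2 / g)

lemma eE_mkQ (y : ℕ × ℕ × ℕ) : eE (mkQ y) = mkCode y := by
  obtain ⟨A, B, d⟩ := y
  simp only [mkCode, mkQ]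
  by_cases h : d = 0 ∨ A = B
  · rw [if_pos h]
    have : ((A : ℚ) - B) / d = 0 := by
      rcases h with h | h
      · subst h; simp
      · subst h; simp
    rw [this, eE_eq]
    rfl
  · rw [if_neg h]
    push Not at h
    obtain ⟨hd, hAB⟩ := h
    set a := (A - B) + (B - A) with ha
    have ha0 : 0 < a := by omega
    set g := Nat.gcd a d with hg
    have hg0 : 0 < g := Nat.gcd_pos_of_pos_left _ ha0
    have hga : g ∣ a := Nat.gcd_dvd_left _ _
    have hgd : g ∣ d := Nat.gcd_dvd_right _ _
    have hco : Nat.Coprime (a / g) (d / g) := Nat.coprime_div_gcd_div_gcd hg0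
    have hd0 : 0 < d / g := Nat.div_pos (Nat.le_of_dvd (Nat.pos_of_ne_zero hd) hgd) hg0
    have ha1 : 0 < a / g := Nat.div_pos (Nat.le_of_dvd ha0 hga) hg0
    have h1 : (a : ℚ) = ((a / g : ℕ) : ℚ) * g := by
      have := Nat.div_mul_cancel hga
      exact_mod_cast this.symm
    have h2 : (d : ℚ) = ((d / g : ℕ) : ℚ) * g := by
      have := Nat.div_mul_cancel hgd
      exact_mod_cast this.symm
    generalize a / g = a' at *
    generalize d / g = d' at *
    -- the signed reduced numerator
    let z : ℤ := if B < A then (a' : ℤ) else -(a' : ℤ)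
    have hzabs : z.natAbs = a' := by
      by_cases hlt : B < A <;> simp [z, hlt]
    have hq : ((A : ℚ) - B) / d = ((z : ℤ) : ℚ) / ((d' : ℤ) : ℚ) := by
      have h3 : (g : ℚ) ≠ 0 := by positivity
      have h4 : (d' : ℚ) ≠ 0 := by positivity
      by_cases hlt : B < A
      · have h5 : (A : ℚ) - B = a := by
          have : a = A - B := by omega
          rw [this, Nat.cast_sub hlt.le]
        simp only [z, hlt, if_true, Int.cast_natCast]
        rw [h5, h1, h2]
        field_simp
      · have h5 : (A : ℚ) - B = - (a : ℚ) := by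
          have : a = B - A := by omega
          rw [this, Nat.cast_sub (by omega)]; ring
        simp only [z, hlt, if_false, Int.cast_neg, Int.cast_natCast]
        rw [h5, h1, h2]
        field_simp
    have hnum : (((A : ℚ) - B) / d).num = z := by
      rw [hq]
      apply Rat.num_div_eq_of_coprime
      · exact_mod_cast hd0
      · simpa [hzabs] using hco
    have hden : (((A : ℚ) - B) / d).den = d' := by
      have : ((((A : ℚ) - B) / d).den : ℤ) = (d' : ℤ) := by
        rw [hq]
        apply Rat.den_div_eq_of_coprime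
        · exact_mod_cast hd0
        · simpa [hzabs] using hco
      exact_mod_cast this
    rw [eE_eq, hnum, hden]
    congr 1
    by_cases hlt : B < A
    · simp only [z, hlt, if_true]
      exact encode_int_nonneg a'
    · simp only [z, hlt, if_false]
      obtain ⟨k, hk⟩ : ∃ k, a' = k + 1 := ⟨a' - 1, by omega⟩
      rw [hk]
      have : (-(((k + 1 : ℕ) : ℤ))) = Int.negSucc k := rfl
      rw [this, encode_int_neg]
      simp

lemma primrec_mkCode : Primrec mkCode := by
  have hA : Primrec (fun y : ℕ × ℕ × ℕ => y.1) := Primrec.fst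
  have hB : Primrec (fun y : ℕ × ℕ × ℕ => y.2.1) := Primrec.fst.comp Primrec.snd
  have hd : Primrec (fun y : ℕ × ℕ × ℕ => y.2.2) := Primrec.snd.comp Primrec.snd
  have ha : Primrec (fun y : ℕ × ℕ × ℕ => (y.1 - y.2.1) + (y.2.1 - y.1)) :=
    Primrec.nat_add.comp (Primrec.nat_sub.comp hA hB) (Primrec.nat_sub.comp hB hA)
  have hg : Primrec (fun y : ℕ × ℕ × ℕ => Nat.gcd ((y.1 - y.2.1) + (y.2.1 - y.1)) y.2.2) :=
    primrec_gcdC.comp ha hd
  have hq : Primrec (fun y : ℕ × ℕ × ℕ => ((y.1 - y.2.1) + (y.2.1 - y.1)) / Nat.gcd ((y.1 - y.2.1) + (y.2.1 - y.1)) y.2.2) :=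
    Primrec.nat_div.comp ha hg
  unfold mkCode
  simp only
  refine Primrec.ite ?_ (Primrec.const _) ?_
  · apply PrimrecPred.or
    · exact Primrec.eq.comp hd (Primrec.const 0)
    · exact Primrec.eq.comp hA hB
  · refine Primrec₂.natPair.comp ?_ (Primrec.nat_div.comp hd hg)
    refine Primrec.ite (Primrec.nat_lt.comp hB hA) (Primrec.nat_mul.comp (Primrec.const 2) hq) ?_
    exact Primrec.succ.comp (Primrec.nat_mul.comp (Primrec.const 2) (Primrec.nat_sub.comp hq (Primrec.const 1)))

lemma computable_mkQ : Computable mkQ := by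
  rw [← Computable.encode_iff]
  refine ((primrec_rankF.comp primrec_mkCode).to_comp).of_eq ?_
  intro y
  have := encode_rat (mkQ y)
  rw [eE_mkQ] at this
  exact this.symm

/-! ### Operations -/

section ops

variable {α : Type*} [Primcodable α]

lemma cnat_add {f g : α → ℕ} (hf : Computable f) (hg : Computable g) :
    Computable fun a => f a + g a :=
  Primrec.nat_add.to_comp.comp hf hg

lemma cnat_mul {f g : α → ℕ} (hf : Computable f) (hg : Computable g) :
    Computable fun a => f a * g a :=
  Primrec.nat_mul.to_comp.comp hf hg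

lemma mkQ_apply (x y z : ℕ) : mkQ (x, y, z) = ((x : ℚ) - y) / z := rfl

lemma cmkQ {f g h : α → ℕ} (hf : Computable f) (hg : Computable g) (hh : Computable h) :
    Computable fun a => ((f a : ℚ) - g a) / h a :=
  (computable_mkQ.comp (hf.pair (hg.pair hh))).of_eq fun a => mkQ_apply _ _ _

lemma den_ne (q : ℚ) : (q.den : ℚ) ≠ 0 := by
  have := q.den_pos; positivity

theorem cq_add {f g : α → ℚ} (hf : Computable f) (hg : Computable g) :
    Computable fun a => f a + g a := by
  have hA1 := computable_ratA.comp hf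
  have hB1 := computable_ratB.comp hf
  have hD1 := computable_den.comp hf
  have hA2 := computable_ratA.comp hg
  have hB2 := computable_ratB.comp hg
  have hD2 := computable_den.comp hg
  refine (cmkQ (cnat_add (cnat_mul hA1 hD2) (cnat_mul hA2 hD1))
    (cnat_add (cnat_mul hB1 hD2) (cnat_mul hB2 hD1)) (cnat_mul hD1 hD2)).of_eq ?_
  intro a
  conv_rhs => rw [rat_eq (f a), rat_eq (g a)]
  have h1 := den_ne (f a)
  have h2 := den_ne (g a)
  push_cast
  field_simp
  ring

theorem cq_mul {f g : α → ℚ} (hf : Computable f) (hg : Computable g) :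
    Computable fun a => f a * g a := by
  have hA1 := computable_ratA.comp hf
  have hB1 := computable_ratB.comp hf
  have hD1 := computable_den.comp hf
  have hA2 := computable_ratA.comp hg
  have hB2 := computable_ratB.comp hg
  have hD2 := computable_den.comp hg
  refine (cmkQ (cnat_add (cnat_mul hA1 hA2) (cnat_mul hB1 hB2))
    (cnat_add (cnat_mul hA1 hB2) (cnat_mul hB1 hA2)) (cnat_mul hD1 hD2)).of_eq ?_
  intro a
  conv_rhs => rw [rat_eq (f a), rat_eq (g a)]
  have h1 := den_ne (f a)
  have h2 := den_ne (g a)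
  push_cast
  field_simp
  ring

theorem cq_neg {f : α → ℚ} (hf : Computable f) : Computable fun a => - f a := by
  have hA1 := computable_ratA.comp hf
  have hB1 := computable_ratB.comp hf
  have hD1 := computable_den.comp hf
  refine (cmkQ hB1 hA1 hD1).of_eq ?_
  intro a
  conv_rhs => rw [rat_eq (f a)]
  ring

theorem cq_sub {f g : α → ℚ} (hf : Computable f) (hg : Computable g) :
    Computable fun a => f a - g a :=
  (cq_add hf (cq_neg hg)).of_eq fun a => (sub_eq_add_neg _ _).symm

theorem cq_nat {f : α → ℕ} (hf : Computable f) : Computable fun a => (f a : ℚ) := by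
  refine (cmkQ hf (Computable.const 0) (Computable.const 1)).of_eq ?_
  intro a
  simp

theorem cq_inv {f : α → ℚ} (hf : Computable f) : Computable fun a => (f a)⁻¹ := by
  have hA := computable_ratA.comp hf
  have hB := computable_ratB.comp hf
  have hD := computable_den.comp hf
  -- `D * min 1 A`, `D * min 1 B`, `A + B`
  have hm : Primrec (fun n : ℕ => min 1 n) := Primrec.nat_min.comp (Primrec.const 1) Primrec.id
  refine (cmkQ (cnat_mul hD (hm.to_comp.comp hA)) (cnat_mul hD (hm.to_comp.comp hB))
    (cnat_add hA hB)).of_eq ?_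
  intro a
  have hq := rat_eq (f a)
  have hnum := ratA_sub_ratB (f a)
  have hone : ratA (f a) = 0 ∨ ratB (f a) = 0 := by
    simp only [ratA, ratB]; omega
  set q := f a with hqdef
  set A := ratA q
  set B := ratB q
  have hD0 := den_ne q
  rcases hone with h | h
  · rw [h] at hq ⊢
    by_cases hB0 : B = 0
    · rw [hB0] at hq ⊢
      simp only [Nat.cast_zero, sub_self, zero_div] at hq
      simp [hq]
    · have : min 1 B = 1 := by omega
      rw [this]
      conv_rhs => rw [hq]
      have hB' : (B : ℚ) ≠ 0 := by exact_mod_cast hB0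
      simp only [Nat.min_zero, mul_zero, Nat.cast_zero, mul_one, zero_add, zero_sub]
      field_simp
  · rw [h] at hq ⊢
    by_cases hA0 : A = 0
    · rw [hA0] at hq ⊢
      simp only [Nat.cast_zero, sub_self, zero_div] at hq
      simp [hq]
    · have : min 1 A = 1 := by omega
      rw [this]
      conv_rhs => rw [hq]
      have hA' : (A : ℚ) ≠ 0 := by exact_mod_cast hA0
      simp only [Nat.min_zero, mul_zero, Nat.cast_zero, mul_one, add_zero, sub_zero]
      field_simp

theorem cq_div {f g : α → ℚ} (hf : Computable f) (hg : Computable g) :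
    Computable fun a => f a / g a :=
  (cq_mul hf (cq_inv hg)).of_eq fun a => (div_eq_mul_inv _ _).symm

lemma le_iff_aux (A1 B1 D1 A2 B2 D2 : ℕ) (hD1 : 0 < D1) (hD2 : 0 < D2) :
    ((A1 : ℚ) - B1) / D1 ≤ ((A2 : ℚ) - B2) / D2 ↔ A1 * D2 + B2 * D1 ≤ A2 * D1 + B1 * D2 := by
  have hd1 : (0 : ℚ) < D1 := by exact_mod_cast hD1
  have hd2 : (0 : ℚ) < D2 := by exact_mod_cast hD2
  rw [div_le_div_iff₀ hd1 hd2]
  constructor
  · intro h
    have h' : ((A1 * D2 + B2 * D1 : ℕ) : ℚ) ≤ ((A2 * D1 + B1 * D2 : ℕ) : ℚ) := by
      push_cast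
      nlinarith [h]
    exact_mod_cast h'
  · intro h
    have h' : ((A1 * D2 + B2 * D1 : ℕ) : ℚ) ≤ ((A2 * D1 + B1 * D2 : ℕ) : ℚ) := by
      exact_mod_cast h
    push_cast at h'
    nlinarith [h']

/-- Decidability of `≤` on rationals is computable. -/
theorem cq_le {f g : α → ℚ} (hf : Computable f) (hg : Computable g) :
    Computable fun a => decide (f a ≤ g a) := by
  have hA1 := computable_ratA.comp hf
  have hB1 := computable_ratB.comp hf
  have hD1 := computable_den.comp hf
  have hA2 := computable_ratA.comp hg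
  have hB2 := computable_ratB.comp hg
  have hD2 := computable_den.comp hg
  have hle : Computable₂ (fun x y : ℕ => decide (x ≤ y)) :=
    (PrimrecRel.decide Primrec.nat_le).to_comp
  refine (hle.comp (cnat_add (cnat_mul hA1 hD2) (cnat_mul hB2 hD1))
    (cnat_add (cnat_mul hA2 hD1) (cnat_mul hB1 hD2))).of_eq ?_
  intro a
  have h1 := rat_eq (f a)
  have h2 := rat_eq (g a)
  apply decide_eq_decide.2
  have key := le_iff_aux (ratA (f a)) (ratB (f a)) (f a).den (ratA (g a)) (ratB (g a)) (g a).den
    (f a).den_pos (g a).den_pos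
  rw [← h1, ← h2] at key
  exact key.symm

end ops

end Crest.Agent.S0170Lib
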