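import Mathlib

/-!
# A two-branch well-founded recursion scheme is computable (S0170 library)

Uses Kleene's second recursion theorem `Nat.Partrec.Code.fixed_point₂`.
-/

set_option autoImplicit false

namespace Crest.Agent.S0170Lib

open Encodable Denumerable Nat.Partrec

theorem computable_of_rec {α β : Type} [Primcodable α] [Denumerable β]
    (f : α → β) (isBase : α → Bool) (base : α → β) (next₁ next₂ : α → α)
    (comb : α × β × β → β)
    (hB : Computable isBase) (hb : Computable base)
    (h1 : Computable next₁) (h2 : Computable next₂) (hc : Computable comb)
    (m : α → ℕ)
    (hbase : ∀ a, isBase a = true → f a = base a)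
    (hstep : ∀ a, isBase a = false → f a = comb (a, f (next₁ a), f (next₂ a)))
    (hm₁ : ∀ a, isBase a = false → m (next₁ a) < m a)
    (hm₂ : ∀ a, isBase a = false → m (next₂ a) < m a) :
    Computable f := by
  -- the one-step functional
  let G : Code × α →. ℕ := fun ca =>
    cond (isBase ca.2) (Part.some (encode (base ca.2)))
      ((Code.eval ca.1 (encode (next₁ ca.2))).bind fun u =>
        (Code.eval ca.1 (encode (next₂ ca.2))).bind fun v =>
          Part.some (encode (comb (ca.2, ofNat β u, ofNat β v))))
  have hG : Partrec G := by
    refine Partrec.cond (hB.comp Computable.snd)
      ((Computable.encode.comp (hb.comp Computable.snd)).partrec) ?_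
    refine Partrec.bind (f := fun ca : Code × α => Code.eval ca.1 (encode (next₁ ca.2))) ?_ ?_
    · exact Code.eval_part.comp Computable.fst (Computable.encode.comp (h1.comp Computable.snd))
    · refine Partrec.bind
        (f := fun y : (Code × α) × ℕ => Code.eval y.1.1 (encode (next₂ y.1.2))) ?_ ?_
      · exact Code.eval_part.comp (Computable.fst.comp Computable.fst)
          (Computable.encode.comp (h2.comp (Computable.snd.comp Computable.fst)))
      · refine Computable.partrec (f := fun z : ((Code × α) × ℕ) × ℕ =>
          encode (comb (z.1.1.2, ofNat β z.1.2, ofNat β z.2))) ?_
        refine Computable.encode.comp (hc.comp ?_)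
        refine (Computable.snd.comp (Computable.fst.comp Computable.fst)).pair ?_
        refine ((Computable.ofNat β).comp (Computable.snd.comp Computable.fst)).pair ?_
        exact (Computable.ofNat β).comp Computable.snd
  let F : Code → ℕ →. ℕ := fun c x => ((decode (α := α) x : Option α) : Part α).bind fun a => G (c, a)
  have hF : Partrec₂ F := by
    refine Partrec.bind (f := fun y : Code × ℕ => ((decode (α := α) y.2 : Option α) : Part α)) ?_ ?_
    · exact Computable.ofOption (Computable.decode.comp Computable.snd)
    · exact hG.comp ((Computable.fst.comp Computable.fst).pair Computable.snd)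
  obtain ⟨c, hc'⟩ := Code.fixed_point₂ hF
  have key : ∀ n a, m a ≤ n → Code.eval c (encode a) = Part.some (encode (f a)) := by
    intro n
    induction n with
    | zero =>
      intro a ha
      have hba : isBase a = true := by
        by_contra h
        have h' : isBase a = false := by simpa using h
        have := hm₁ a h'
        omega
      rw [hc']
      simp [F, G, encodek, hba, hbase a hba]
    | succ n ih =>
      intro a ha
      rw [hc']
      by_cases hba : isBase a = true
      · simp [F, G, encodek, hba, hbase a hba]
      · have h' : isBase a = false := by simpa using hba
        have e1 := ih (next₁ a) (by have := hm₁ a h'; omega)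
        have e2 := ih (next₂ a) (by have := hm₂ a h'; omega)
        simp [F, G, encodek, h', e1, e2, hstep a h']
  rw [← Computable.encode_iff]
  refine (Code.eval_part.comp (Computable.const c) Computable.encode).of_eq ?_
  intro a
  exact key (m a) a le_rfl

end Crest.Agent.S0170Lib
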