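import Mathlib
import Crest.Prelude.Def_BoxFlow
import Crest.Agent.S0170Lib.RatComp
import Crest.Agent.S0170Lib.RecComp

/-!
# Finite differences: values plus global bounds give `Effective` (S0170 library)
-/

set_option autoImplicit false

open scoped ContDiff
open Crest.AnalysisR.BoxFlow

namespace Crest.Agent.S0170Lib

/-- Smoothness of all mixed derivatives. -/
lemma contDiff_mixedDeriv (ds : List (Fin 4)) {U : Field} (hU : ContDiff ℝ ∞ U) :
    ContDiff ℝ ∞ (mixedDeriv ds U) := by
  induction ds with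
  | nil => exact hU
  | cons d ds ih =>
    show ContDiff ℝ ∞ (fun p => fderiv ℝ (mixedDeriv ds U) p (direction d))
    have h1 : ContDiff ℝ ∞ (fderiv ℝ (mixedDeriv ds U)) :=
      ih.fderiv_right (by simp)
    exact h1.clm_apply contDiff_const

lemma mixedDeriv_append (ds l : List (Fin 4)) (U : Field) :
    mixedDeriv ds (mixedDeriv l U) = mixedDeriv (ds ++ l) U := by
  induction ds with
  | nil => rfl
  | cons d ds ih =>
    funext p
    simp only [List.cons_append, mixedDeriv, ih]

/-- A second-order Taylor estimate for finite differences. -/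
lemma fd_estimate {Z : Field} (hZ : ContDiff ℝ ∞ Z) (v : ℝ × (Fin 3 → ℝ)) (j : Fin 3) (C : ℝ)
    (hC : ∀ p, |fderiv ℝ (fun p => fderiv ℝ Z p v) p v j| ≤ C) (p : ℝ × (Fin 3 → ℝ)) {h : ℝ}
    (hh : 0 < h) :
    |fderiv ℝ Z p v j - (Z (p + h • v) j - Z p j) / h| ≤ h * C := by
  have hC0 : 0 ≤ C := (abs_nonneg _).trans (hC p)
  -- first derivative along the line
  have hZd : Differentiable ℝ Z := hZ.differentiable (by simp)
  have hZ1 : ContDiff ℝ ∞ (fun p => fderiv ℝ Z p v) :=
    (hZ.fderiv_right (m := ∞) (by simp)).clm_apply contDiff_const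
  have hZ1d : Differentiable ℝ (fun p => fderiv ℝ Z p v) := hZ1.differentiable (by simp)
  have hline : ∀ τ : ℝ, HasDerivAt (fun τ : ℝ => p + τ • v) v τ := by
    intro τ
    simpa using ((hasDerivAt_id τ).smul_const v).const_add p
  have hφ : ∀ τ : ℝ, HasDerivAt (fun τ : ℝ => Z (p + τ • v) j) (fderiv ℝ Z (p + τ • v) v j) τ := by
    intro τ
    have h1 := ((hZd (p + τ • v)).hasFDerivAt).comp_hasDerivAt τ (hline τ)
    exact (hasDerivAt_pi.1 h1) j
  have hψ : ∀ τ : ℝ, HasDerivAt (fun τ : ℝ => fderiv ℝ Z (p + τ • v) v j)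
      (fderiv ℝ (fun p => fderiv ℝ Z p v) (p + τ • v) v j) τ := by
    intro τ
    have h1 := ((hZ1d (p + τ • v)).hasFDerivAt).comp_hasDerivAt τ (hline τ)
    exact (hasDerivAt_pi.1 h1) j
  -- `ψ` is `C`-Lipschitz
  have hψL : ∀ τ ∈ Set.Icc (0 : ℝ) h,
      |fderiv ℝ Z (p + τ • v) v j - fderiv ℝ Z p v j| ≤ C * h := by
    intro τ hτ
    have := Convex.norm_image_sub_le_of_norm_hasDerivWithin_le
      (f := fun τ : ℝ => fderiv ℝ Z (p + τ • v) v j)
      (f' := fun τ : ℝ => fderiv ℝ (fun p => fderiv ℝ Z p v) (p + τ • v) v j)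
      (s := Set.Icc (0 : ℝ) h) (x := 0) (y := τ) (C := C)
      (fun x _ => (hψ x).hasDerivWithinAt)
      (fun x _ => by simpa using hC (p + x • v))
      (convex_Icc _ _) (Set.left_mem_Icc.2 hh.le) hτ
    simp only [zero_smul, add_zero, sub_zero, Real.norm_eq_abs] at this
    rw [abs_of_nonneg hτ.1] at this
    exact this.trans (mul_le_mul_of_nonneg_left hτ.2 hC0)
  -- apply the mean value inequality to `χ τ = φ τ - τ * ψ 0`
  have hχ := Convex.norm_image_sub_le_of_norm_hasDerivWithin_le
      (f := fun τ : ℝ => Z (p + τ • v) j - τ * fderiv ℝ Z p v j)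
      (f' := fun τ : ℝ => fderiv ℝ Z (p + τ • v) v j - fderiv ℝ Z p v j)
      (s := Set.Icc (0 : ℝ) h) (x := 0) (y := h) (C := C * h)
      (fun x _ => by
        have := (hφ x).sub ((hasDerivAt_id x).mul_const (fderiv ℝ Z p v j))
        simp only [id, one_mul] at this
        exact this.hasDerivWithinAt)
      (fun x hx => by simpa using hψL x hx)
      (convex_Icc _ _) (Set.left_mem_Icc.2 hh.le) (Set.right_mem_Icc.2 hh.le)
  simp only [zero_smul, add_zero, zero_mul, sub_zero, Real.norm_eq_abs] at hχ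
  rw [abs_of_pos hh] at hχ
  have hne : h ≠ 0 := hh.ne'
  have e : fderiv ℝ Z p v j - (Z (p + h • v) j - Z p j) / h
      = -((Z (p + h • v) j - h * fderiv ℝ Z p v j - Z p j) / h) := by
    field_simp
    ring
  rw [e, abs_neg, abs_div, abs_of_pos hh, div_le_iff₀ hh]
  calc _ ≤ C * h * h := hχ
    _ = h * C * h := by ring

/-! ### Vectors -/

section vec
variable {α : Type*} [Primcodable α]

lemma computable_fin3 {f : α → Fin 3 → ℚ} (h : ∀ j, Computable fun a => f a j) : Computable f := by
  have h1 := Computable.vector_ofFn (f := fun i a => f a i) h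
  rw [← Computable.encode_iff]
  rw [← Computable.encode_iff] at h1
  exact h1.of_eq fun a => rfl

lemma computable_app {f : α → Fin 3 → ℚ} (hf : Computable f) (j : Fin 3) :
    Computable fun a => f a j :=
  (Computable.fin_app (σ := ℚ) (n := 3)).comp hf (Computable.const j)

lemma computable_qconst (q : ℚ) : Computable (fun _ : α => q) := Computable.const q

/-- Conditional on a rational -/
lemma computable_ite_q {c : α → Prop} [DecidablePred c] {f g : α → ℚ}
    (hc : Computable fun a => decide (c a)) (hf : Computable f) (hg : Computable g) :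
    Computable fun a => if c a then f a else g a := by
  refine (Computable.cond hc hf hg).of_eq ?_
  intro a
  by_cases h : c a <;> simp [h]

end vec

/-! ### Shifts at rational points -/

/-- Add `1 / N` to coordinate `d` of a rational space-time point. -/
def shiftQ (d : Fin 4) (N : ℕ) (p : ℚ × (Fin 3 → ℚ)) : ℚ × (Fin 3 → ℚ) :=
  (p.1 + (if d = 0 then 1 / (N : ℚ) else 0), fun j => p.2 j + (if d = j.succ then 1 / (N : ℚ) else 0))

/-- Coercion of a rational space-time point. -/
def toReal (p : ℚ × (Fin 3 → ℚ)) : ℝ × (Fin 3 → ℝ) := ((p.1 : ℝ), ratPoint p.2)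

lemma toReal_shiftQ (d : Fin 4) (N : ℕ) (p : ℚ × (Fin 3 → ℚ)) :
    toReal (shiftQ d N p) = toReal p + ((1 / (N : ℝ)) • direction d) := by
  have hd : ∀ d : Fin 4, direction d = ((if d = 0 then 1 else 0 : ℝ),
      fun j : Fin 3 => (if d = j.succ then 1 else 0 : ℝ)) := by
    intro d
    fin_cases d
    · ext j <;> simp [direction, Fin.succ_ne_zero, eq_comm]
    all_goals
      ext j
      · simp [direction]
      · fin_cases j <;> simp [direction, Pi.single_apply, Fin.ext_iff]
  rw [hd]
  ext j
  · simp only [toReal, shiftQ, Prod.fst_add, Prod.smul_fst, smul_eq_mul]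
    by_cases h : d = 0 <;> simp [h]
  · simp only [toReal, shiftQ, Prod.snd_add, Prod.smul_snd, ratPoint, Pi.add_apply, Pi.smul_apply, smul_eq_mul]
    by_cases h : d = j.succ <;> simp [h]

/-- The finite-difference approximation. -/
def fdN (bound : List (Fin 4) → ℕ) (d : Fin 4) (ds : List (Fin 4)) (n : ℕ) : ℕ :=
  2 * (n + 1) * (bound (d :: d :: ds) + 1)

def fdE (bound : List (Fin 4) → ℕ) (base : (ℚ × (Fin 3 → ℚ)) × ℕ → ℚ) :
    List (Fin 4) → ℚ × (Fin 3 → ℚ) → ℕ → ℚ
  | [], p, n => base (p, n)
  | d :: ds, p, n =>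
    (fdE bound base ds (shiftQ d (fdN bound d ds n) p) (4 * (n + 1) * fdN bound d ds n)
      - fdE bound base ds p (4 * (n + 1) * fdN bound d ds n)) * (fdN bound d ds n : ℚ)

theorem fdE_spec {W : Field} (hW : ContDiff ℝ ∞ W) (j : Fin 3)
    (bound : List (Fin 4) → ℕ) (base : (ℚ × (Fin 3 → ℚ)) × ℕ → ℚ)
    (hbase : ∀ p n, |W (toReal p) j - (base (p, n) : ℝ)| ≤ 1 / ((n : ℝ) + 1))
    (hbound : ∀ ds p, |mixedDeriv ds W p j| ≤ (bound ds : ℝ)) :
    ∀ (ds : List (Fin 4)) (p : ℚ × (Fin 3 → ℚ)) (n : ℕ),
      |mixedDeriv ds W (toReal p) j - (fdE bound base ds p n : ℝ)| ≤ 1 / ((n : ℝ) + 1) := by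
  intro ds
  induction ds with
  | nil => intro p n; exact hbase p n
  | cons d ds ih =>
    intro p n
    simp only [fdE]
    set N := fdN bound d ds n with hN
    set n' := 4 * (n + 1) * N with hn'
    have hNpos : (0 : ℝ) < N := by
      have : 0 < N := by simp [hN, fdN]
      exact_mod_cast this
    have hn1 : (0 : ℝ) < (n : ℝ) + 1 := by positivity
    set Z := mixedDeriv ds W with hZ
    have hZs : ContDiff ℝ ∞ Z := contDiff_mixedDeriv ds hW
    have hC : ∀ q, |fderiv ℝ (fun p => fderiv ℝ Z p (direction d)) q (direction d) j|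
        ≤ (bound (d :: d :: ds) : ℝ) := fun q => hbound (d :: d :: ds) q
    have hfd := fd_estimate hZs (direction d) j _ hC (toReal p) (h := 1 / (N : ℝ)) (by positivity)
    rw [← toReal_shiftQ] at hfd
    have e1 := ih (shiftQ d N p) n'
    have e2 := ih p n'
    set a := (fdE bound base ds (shiftQ d N p) n' : ℝ)
    set b := (fdE bound base ds p n' : ℝ)
    have hcast : ((((fdE bound base ds (shiftQ d N p) n' - fdE bound base ds p n') * (N : ℚ) : ℚ)) : ℝ)
        = (a - b) * N := by
      push_cast; rfl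
    rw [hcast]
    show |fderiv ℝ Z (toReal p) (direction d) j - (a - b) * N| ≤ _
    set D := fderiv ℝ Z (toReal p) (direction d) j
    set za := Z (toReal (shiftQ d N p)) j
    set zb := Z (toReal p) j
    have hCN : (1 / (N : ℝ)) * (bound (d :: d :: ds) : ℝ) ≤ 1 / (2 * ((n : ℝ) + 1)) := by
      have : (N : ℝ) = 2 * ((n : ℝ) + 1) * ((bound (d :: d :: ds) : ℝ) + 1) := by
        simp [hN, fdN]
      rw [this]
      have hb0 : (0 : ℝ) ≤ (bound (d :: d :: ds) : ℝ) := by positivity
      rw [div_mul_eq_mul_div, one_mul, div_le_div_iff₀ (by positivity) (by positivity)]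
      nlinarith
    have hn'1 : (1 : ℝ) / ((n' : ℝ) + 1) * N ≤ 1 / (4 * ((n : ℝ) + 1)) := by
      have hn'c : (n' : ℝ) = 4 * ((n : ℝ) + 1) * N := by simp [hn']
      rw [hn'c, div_mul_eq_mul_div, one_mul, div_le_div_iff₀ (by positivity) (by positivity)]
      nlinarith
    have h1 : |D - (za - zb) / (1 / (N : ℝ))| ≤ 1 / (2 * ((n : ℝ) + 1)) := hfd.trans hCN
    have h2 : (za - zb) / (1 / (N : ℝ)) = (za - zb) * N := by field_simp
    rw [h2] at h1
    have h3 : |(za - zb) * N - (a - b) * N| ≤ 2 * (1 / (4 * ((n : ℝ) + 1))) := by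
      have : (za - zb) * N - (a - b) * N = ((za - a) - (zb - b)) * N := by ring
      rw [this, abs_mul, abs_of_pos hNpos]
      have h4 : |(za - a) - (zb - b)| ≤ 2 * (1 / ((n' : ℝ) + 1)) := by
        have := abs_sub (za - a) (zb - b)
        linarith
      calc _ ≤ 2 * (1 / ((n' : ℝ) + 1)) * N := mul_le_mul_of_nonneg_right h4 hNpos.le
        _ = 2 * (1 / ((n' : ℝ) + 1) * N) := by ring
        _ ≤ _ := by gcongr
    have e : 1 / ((n : ℝ) + 1) = 1 / (2 * ((n : ℝ) + 1)) + 2 * (1 / (4 * ((n : ℝ) + 1))) := by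
      field_simp; norm_num
    rw [e]
    calc |D - (a - b) * N| = |(D - (za - zb) * N) + ((za - zb) * N - (a - b) * N)| := by ring_nf
      _ ≤ _ := abs_add_le _ _ |>.trans (add_le_add h1 h3)

/-! ### Computability of the recursion -/

section comp

variable {α : Type} [Primcodable α]

lemma computable_shiftQ {d : α → Fin 4} {N : α → ℕ} {p : α → ℚ × (Fin 3 → ℚ)}
    (hd : Computable d) (hN : Computable N) (hp : Computable p) :
    Computable fun a => shiftQ (d a) (N a) (p a) := by
  have hinv : Computable fun a => 1 / (N a : ℚ) := cq_div (computable_qconst 1) (cq_nat hN)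
  have hdec : ∀ e : Fin 4, Computable fun a => decide (d a = e) := by
    intro e
    have h1 : Primrec (fun x : Fin 4 => decide (x = e)) := Primrec.dom_finite _
    exact h1.to_comp.comp hd
  refine Computable.pair ?_ ?_
  · refine cq_add (Computable.fst.comp hp) ?_
    exact computable_ite_q (hdec 0) hinv (computable_qconst 0)
  · refine computable_fin3 fun j => ?_
    refine cq_add (computable_app (Computable.snd.comp hp) j) ?_
    exact computable_ite_q (hdec j.succ) hinv (computable_qconst 0)

theorem computable_fdE (bound : List (Fin 4) → ℕ) (base : (ℚ × (Fin 3 → ℚ)) × ℕ → ℚ)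
    (hbound : Computable bound) (hbase : Computable base) :
    Computable fun x : List (Fin 4) × (ℚ × (Fin 3 → ℚ)) × ℕ => fdE bound base x.1 x.2.1 x.2.2 := by
  -- auxiliary data
  let dF : List (Fin 4) × (ℚ × (Fin 3 → ℚ)) × ℕ → Fin 4 := fun x => x.1.headI
  let tF : List (Fin 4) × (ℚ × (Fin 3 → ℚ)) × ℕ → List (Fin 4) := fun x => x.1.tail
  let pF : List (Fin 4) × (ℚ × (Fin 3 → ℚ)) × ℕ → ℚ × (Fin 3 → ℚ) := fun x => x.2.1
  let nF : List (Fin 4) × (ℚ × (Fin 3 → ℚ)) × ℕ → ℕ := fun x => x.2.2
  let NF : List (Fin 4) × (ℚ × (Fin 3 → ℚ)) × ℕ → ℕ := fun x => fdN bound (dF x) (tF x) (nF x)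
  let n'F : List (Fin 4) × (ℚ × (Fin 3 → ℚ)) × ℕ → ℕ := fun x => 4 * (nF x + 1) * NF x
  have hl : Computable (fun x : List (Fin 4) × (ℚ × (Fin 3 → ℚ)) × ℕ => x.1) := Computable.fst
  have hd : Computable dF := Primrec.list_headI.to_comp.comp hl
  have ht : Computable tF := Primrec.list_tail.to_comp.comp hl
  have hp : Computable pF := Computable.fst.comp Computable.snd
  have hn : Computable nF := Computable.snd.comp Computable.snd
  have hcons : Computable₂ (@List.cons (Fin 4)) := Primrec.list_cons.to_comp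
  have hN : Computable NF := by
    have h1 : Computable fun x => bound (dF x :: dF x :: tF x) :=
      hbound.comp (hcons.comp hd (hcons.comp hd ht))
    have h2 : Computable fun x => 2 * (nF x + 1) * (bound (dF x :: dF x :: tF x) + 1) :=
      cnat_mul (cnat_mul (Computable.const 2) (cnat_add hn (Computable.const 1)))
        (cnat_add h1 (Computable.const 1))
    exact h2
  have hn' : Computable n'F :=
    cnat_mul (cnat_mul (Computable.const 4) (cnat_add hn (Computable.const 1))) hN
  refine computable_of_rec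
    (f := fun x : List (Fin 4) × (ℚ × (Fin 3 → ℚ)) × ℕ => fdE bound base x.1 x.2.1 x.2.2)
    (isBase := fun x => x.1.isEmpty)
    (base := fun x => base (x.2.1, x.2.2))
    (next₁ := fun x => (tF x, shiftQ (dF x) (NF x) (pF x), n'F x))
    (next₂ := fun x => (tF x, pF x, n'F x))
    (comb := fun y => (y.2.1 - y.2.2) * (NF y.1 : ℚ))
    ?_ ?_ ?_ ?_ ?_ (fun x => x.1.length) ?_ ?_ ?_ ?_
  · have : Primrec (fun l : List (Fin 4) => l.isEmpty) := by
      refine (Primrec.list_casesOn (h := fun _ _ => false) (g := fun _ => true) Primrec.id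
        (Primrec.const true) (Primrec.const false).to₂).of_eq ?_
      intro l; cases l <;> rfl
    exact this.to_comp.comp hl
  · exact hbase.comp (hp.pair hn)
  · exact ht.pair ((computable_shiftQ hd hN hp).pair hn')
  · exact ht.pair (hp.pair hn')
  · refine cq_mul (cq_sub (Computable.fst.comp Computable.snd)
      (Computable.snd.comp Computable.snd)) (cq_nat (hN.comp Computable.fst))
  · intro x hx
    rcases x with ⟨l, p, n⟩
    cases l with
    | nil => rfl
    | cons d ds => simp at hx
  · intro x hx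
    rcases x with ⟨l, p, n⟩
    cases l with
    | nil => simp at hx
    | cons d ds => rfl
  · intro x hx
    rcases x with ⟨l, p, n⟩
    cases l with
    | nil => simp at hx
    | cons d ds => simp [tF]
  · intro x hx
    rcases x with ⟨l, p, n⟩
    cases l with
    | nil => simp at hx
    | cons d ds => simp [tF]

end comp

/-- **Main lemma**: a smooth field with computable approximate values at rational points and
computable global bounds on all its mixed derivatives is effective.  -/
theorem effective_of_values {W : Field} (hW : ContDiff ℝ ∞ W)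
    (base : Fin 3 → (ℚ × (Fin 3 → ℚ)) × ℕ → ℚ)
    (hbaseC : ∀ j, Computable (base j))
    (bound : List (Fin 4) → ℕ) (hboundC : Computable bound)
    (hbase : ∀ j p n, |W (toReal p) j - (base j (p, n) : ℝ)| ≤ 1 / ((n : ℝ) + 1))
    (hbound : ∀ ds p j, |mixedDeriv ds W p j| ≤ (bound ds : ℝ)) :
    Effective W := by
  refine ⟨fun x j => fdE bound (base j) x.1 x.2.1 x.2.2, bound, ?_, hboundC, ?_, hbound⟩
  · exact computable_fin3 fun j => computable_fdE bound (base j) hboundC (hbaseC j)
  · intro ds t q n j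
    exact fdE_spec hW j bound (base j) (hbase j) (fun ds p => hbound ds p j) ds (t, q) n

end Crest.Agent.S0170Lib
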