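/-
S0170 library: common definitions (helper34).

BLUEPRINT of S0170 (see also Plan.lean etc.):
* `EffFun g`: g smooth, all derivatives computably approximable at rationals, computably bounded.
* `CompConst c`: the real constant c is computably approximable.
* `tensorField`: c * g₀(t) g₁(x₀) g₂(x₁) g₃(x₂) • e_j, Effective by closure lemmas.
* Step fields: curl of F₀(x₀)F₁(x₁)F₂(x₂) e_{j₃} times a time profile.
* `Good`: a field carries each box to its target along every solution starting near it.
* Plan: Reach relation on configurations of rational boxes, generated by single box moves.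
-/
import Crest.Prelude.Def_BoxFlow

set_option autoImplicit false

open scoped ContDiff
open Crest.AnalysisR.BoxFlow

namespace Crest.Agent.S0170Lib

/-- Effective univariate smooth function with all derivatives bounded. -/
structure EffFun (g : ℝ → ℝ) : Prop where
  smooth : ContDiff ℝ ∞ g
  approx : ∃ A : ℕ × ℚ × ℕ → ℚ, Computable A ∧ ∀ (m : ℕ) (q : ℚ) (n : ℕ),
    |iteratedDeriv m g (q : ℝ) - (A (m, q, n) : ℝ)| ≤ 1 / ((n : ℝ) + 1)
  bound : ∃ B : ℕ → ℕ, Computable B ∧ ∀ (m : ℕ) (x : ℝ), |iteratedDeriv m g x| ≤ (B m : ℝ)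

/-- A computably approximable real constant. -/
def CompConst (c : ℝ) : Prop :=
  ∃ A : ℕ → ℚ, Computable A ∧ ∀ n : ℕ, |c - (A n : ℝ)| ≤ 1 / ((n : ℝ) + 1)

/-- The elementary tensor field `c * g₀(t) * g₁(x₀) * g₂(x₁) * g₃(x₂)` in the direction `e_j`. -/
noncomputable def tensorField (c : ℝ) (g : Fin 4 → ℝ → ℝ) (j : Fin 3) : Field :=
  fun p => Pi.single j (c * (g 0 p.1 * g 1 (p.2 0) * g 2 (p.2 1) * g 3 (p.2 2)))

/-- A rational box: centre and half-widths. -/
structure RBox where
  c : Fin 3 → ℚ
  h : Fin 3 → ℚ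

/-- The closed set of the box. -/
def RBox.toSet (B : RBox) : Set (Fin 3 → ℝ) := box B.c B.h

/-- The affine map carrying a box onto another one, coordinatewise and orientation preserving. -/
noncomputable def aff (B B' : RBox) (x : Fin 3 → ℝ) : Fin 3 → ℝ :=
  fun j => (B'.c j : ℝ) + ((B'.h j / B.h j : ℚ) : ℝ) * (x j - (B.c j : ℝ))

/-- `Good U t₀ t₁ c c'`: along every solution of the ODE of `U` on `[t₀, t₁]` which starts near box
`c i` at time `t₀`, the end point is the affine image of the start point, for every `i`. -/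
def Good {ι : Type*} (U : Field) (t₀ t₁ : ℝ) (c c' : ι → RBox) : Prop :=
  ∀ i, ∃ O : Set (Fin 3 → ℝ), IsOpen O ∧ (c i).toSet ⊆ O ∧
    ∀ y : ℝ → Fin 3 → ℝ, (∀ t ∈ Set.Icc t₀ t₁, HasDerivAt y (U (t, y t)) t) → y t₀ ∈ O →
      y t₁ = aff (c i) (c' i) (y t₀)

/-- The box translated along axis `j` by `d`. -/
def RBox.translate (B : RBox) (j : Fin 3) (d : ℚ) : RBox :=
  ⟨Function.update B.c j (B.c j + d), B.h⟩

/-- The box scaled by `r` along axis `j₁` and by `1/r` along axis `j₂`, keeping its centre. -/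
def RBox.scale (B : RBox) (j₁ j₂ : Fin 3) (r : ℚ) : RBox :=
  ⟨B.c, Function.update (Function.update B.h j₁ (r * B.h j₁)) j₂ (B.h j₂ / r)⟩

/-- The smallest box containing the two boxes. -/
def RBox.hull (B B' : RBox) : RBox where
  c l := (max (B.c l + B.h l) (B'.c l + B'.h l) + min (B.c l - B.h l) (B'.c l - B'.h l)) / 2
  h l := (max (B.c l + B.h l) (B'.c l + B'.h l) - min (B.c l - B.h l) (B'.c l - B'.h l)) / 2

/-- Two boxes are separated along some coordinate. -/
def RBox.Sep (B B' : RBox) : Prop := ∃ l, B.h l + B'.h l < |B.c l - B'.c l|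

/-- One elementary move of one box. -/
inductive Elem : RBox → RBox → Prop
  | trans (B : RBox) (j : Fin 3) (d : ℚ) : Elem B (B.translate j d)
  | scale (B : RBox) (j₁ j₂ : Fin 3) (r : ℚ) (hne : j₁ ≠ j₂) (hr : 0 < r) :
      Elem B (B.scale j₁ j₂ r)

/-- One step of a plan: one box moves, its swept hull stays separated from all the other boxes. -/
def Step {n : ℕ} (c c' : Fin n → RBox) : Prop :=
  ∃ (i : Fin n) (B' : RBox), c' = Function.update c i B' ∧ Elem (c i) B' ∧
    ∀ j, j ≠ i → (RBox.hull (c i) B').Sep (c j)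

/-- Reachability by a sequence of steps. -/
def Reach {n : ℕ} : (Fin n → RBox) → (Fin n → RBox) → Prop := Relation.ReflTransGen Step

/-- The canonical configuration: box `i` is centred at `(0, 3 i, 0)` with half-widths `(v i, 1, 1)`. -/
def canon {n : ℕ} (v : Fin n → ℚ) : Fin n → RBox := fun i =>
  ⟨![0, 3 * (i.val : ℚ), 0], ![v i, 1, 1]⟩

/-- The properties of a field supported in the time interval `(t₀, t₁)`. -/
structure FieldOK (U : Field) (t₀ t₁ : ℝ) : Prop where
  smooth : ContDiff ℝ ∞ U
  compact : HasCompactSupport U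
  eff : Effective U
  div : ∀ p, spaceDiv U p = 0
  time : ∀ p : ℝ × (Fin 3 → ℝ), p.1 ∉ Set.Ioo t₀ t₁ → U p = 0

end Crest.Agent.S0170Lib
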