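/-
S0170 library: numerical differentiation by forward differences (helper34).
-/
import Mathlib

set_option autoImplicit false

open scoped fwdDiff ContDiff
open Finset

namespace Crest.Agent.S0170Lib

theorem hasDerivAt_iteratedDeriv {f : ℝ → ℝ} (hf : ContDiff ℝ ∞ f) (k : ℕ) (x : ℝ) :
    HasDerivAt (iteratedDeriv k f) (iteratedDeriv (k + 1) f x) x := by
  have h1 : Differentiable ℝ (iteratedDeriv k f) :=
    (hf.of_le (by exact_mod_cast le_top : ((k + 1 : ℕ) : WithTop ℕ∞) ≤ ∞)).differentiable_iteratedDeriv k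
      (by exact_mod_cast Nat.lt_succ_self k)
  have := (h1 x).hasDerivAt
  rwa [← iteratedDeriv_succ] at this

theorem contDiff_iteratedDeriv_infty {f : ℝ → ℝ} (hf : ContDiff ℝ ∞ f) (k : ℕ) :
    ContDiff ℝ ∞ (iteratedDeriv k f) := by
  induction k with
  | zero => simpa [iteratedDeriv_zero] using hf
  | succ k ih =>
    rw [iteratedDeriv_succ]
    exact ((contDiff_infty_iff_deriv.mp ih).2)

theorem mvt_bound {G G' : ℝ → ℝ} (hG : ∀ x, HasDerivAt G (G' x) x) {C : ℝ}
    (hC : ∀ x, |G' x| ≤ C) (x h : ℝ) (hh : 0 ≤ h) : |G (x + h) - G x| ≤ C * h := by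
  have := Convex.norm_image_sub_le_of_norm_hasDerivWithin_le (f := G) (f' := G') (s := Set.univ)
    (C := C) (fun y _ => (hG y).hasDerivWithinAt) (fun y _ => by simpa using hC y) convex_univ
    (Set.mem_univ x) (Set.mem_univ (x + h))
  simpa [abs_of_nonneg hh] using this

theorem taylor_bound {G G' G'' : ℝ → ℝ} (hG : ∀ x, HasDerivAt G (G' x) x)
    (hG' : ∀ x, HasDerivAt G' (G'' x) x) {C : ℝ}
    (hC : ∀ x, |G'' x| ≤ C) (x h : ℝ) (hh : 0 ≤ h) :
    |G (x + h) - G x - h * G' x| ≤ C * h ^ 2 := by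
  have hC0 : 0 ≤ C := (abs_nonneg _).trans (hC 0)
  -- apply the mean value inequality to `y ↦ G y - y * G' x` on `[x, x + h]`
  have key := Convex.norm_image_sub_le_of_norm_hasDerivWithin_le
    (f := fun y => G y - y * G' x) (f' := fun y => G' y - G' x) (s := Set.Icc x (x + h))
    (C := C * h) (fun y _ => by
      have := (hG y).sub ((hasDerivAt_id y).mul_const (G' x))
      simp only [id, one_mul] at this
      exact this.hasDerivWithinAt)
    (fun y hy => by
      have h1 := mvt_bound hG' hC x (y - x) (by linarith [hy.1])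
      have h2 : x + (y - x) = y := by ring
      rw [h2] at h1
      rw [Real.norm_eq_abs]
      calc |G' y - G' x| ≤ C * (y - x) := h1
        _ ≤ C * h := by
          apply mul_le_mul_of_nonneg_left _ hC0
          linarith [hy.2])
    (convex_Icc _ _) (Set.left_mem_Icc.mpr (by linarith)) (Set.right_mem_Icc.mpr (by linarith))
  rw [Real.norm_eq_abs, Real.norm_eq_abs] at key
  have h3 : x + h - x = h := by ring
  rw [h3, abs_of_nonneg hh] at key
  have h4 : G (x + h) - (x + h) * G' x - (G x - x * G' x) = G (x + h) - G x - h * G' x := by ring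
  rw [h4] at key
  calc _ ≤ C * h * h := key
    _ = C * h ^ 2 := by ring

/-- The error of the forward difference of order `m`. -/
theorem fd_error (m : ℕ) : ∀ (f : ℝ → ℝ) (_ : ContDiff ℝ ∞ f) (C : ℝ)
    (_ : ∀ x, |iteratedDeriv (m + 1) f x| ≤ C) (h : ℝ) (_ : 0 ≤ h) (x : ℝ),
    |(fwdDiff h)^[m] f x - h ^ m * iteratedDeriv m f x| ≤ m * h ^ (m + 1) * C := by
  induction m with
  | zero =>
    intro f _ C _ h _ x
    simp
  | succ m ih =>
    intro f hf C hC h hh x
    have hC0 : 0 ≤ C := (abs_nonneg _).trans (hC 0)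
    -- the first difference
    set g : ℝ → ℝ := fun y => f (y + h) - f y with hg
    have hgeq : fwdDiff h f = g := by
      funext y
      simp [hg, fwdDiff]
    have hgsm : ContDiff ℝ ∞ g := by
      apply ContDiff.sub _ hf
      exact hf.comp (contDiff_id.add contDiff_const)
    have hgd : ∀ k y, iteratedDeriv k g y = iteratedDeriv k f (y + h) - iteratedDeriv k f y := by
      intro k y
      have h1 : ContDiffAt ℝ k (fun y => f (y + h)) y :=
        ((hf.comp (contDiff_id.add contDiff_const)).of_le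
          (by exact_mod_cast le_top)).contDiffAt
      have h2 : ContDiffAt ℝ k f y := (hf.of_le (by exact_mod_cast le_top)).contDiffAt
      rw [hg, iteratedDeriv_fun_sub h1 h2, iteratedDeriv_comp_add_const]
    have hbound : ∀ y, |iteratedDeriv (m + 1) g y| ≤ C * h := by
      intro y
      rw [hgd]
      exact mvt_bound (hasDerivAt_iteratedDeriv hf (m + 1)) hC y h hh
    have h1 := ih g hgsm (C * h) hbound h hh x
    have h2 := taylor_bound (hasDerivAt_iteratedDeriv hf m) (hasDerivAt_iteratedDeriv hf (m + 1))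
      hC x h hh
    have h3 : (fwdDiff h)^[m + 1] f x = (fwdDiff h)^[m] g x := by
      rw [Function.iterate_succ_apply, hgeq]
    rw [h3]
    rw [hgd] at h1
    have hpm : 0 ≤ h ^ m := pow_nonneg hh m
    have h4 : h ^ m * |iteratedDeriv m f (x + h) - iteratedDeriv m f x - h * iteratedDeriv (m + 1) f x|
        ≤ h ^ m * (C * h ^ 2) := mul_le_mul_of_nonneg_left h2 hpm
    have h5 : (fwdDiff h)^[m] g x - h ^ (m + 1) * iteratedDeriv (m + 1) f x =
        ((fwdDiff h)^[m] g x - h ^ m * (iteratedDeriv m f (x + h) - iteratedDeriv m f x)) +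
        h ^ m * (iteratedDeriv m f (x + h) - iteratedDeriv m f x - h * iteratedDeriv (m + 1) f x) := by
      ring
    rw [h5]
    refine (abs_add_le _ _).trans ?_
    rw [abs_mul, abs_of_nonneg hpm]
    push_cast
    calc _ ≤ (m : ℝ) * h ^ (m + 1) * (C * h) + h ^ m * (C * h ^ 2) := add_le_add h1 h4
      _ = _ := by ring

/-- The coefficients of the forward difference. -/
def fdCoef (m k : ℕ) : ℚ := (-1 : ℚ) ^ (m - k) * (m.choose k : ℚ)

theorem abs_fdCoef (m k : ℕ) : |fdCoef m k| = (m.choose k : ℚ) := by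
  unfold fdCoef
  rw [abs_mul, abs_pow, abs_neg, abs_one, one_pow, one_mul, abs_of_nonneg (by positivity)]

theorem fd_eq_sum (f : ℝ → ℝ) (m : ℕ) (h x : ℝ) :
    (fwdDiff h)^[m] f x = ∑ k ∈ range (m + 1), ((fdCoef m k : ℚ) : ℝ) * f (x + k * h) := by
  rw [fwdDiff_iter_eq_sum_shift]
  apply Finset.sum_congr rfl
  intro k _
  simp [fdCoef, zsmul_eq_mul]

/-- Numerical differentiation with perturbed values. -/
theorem fd_approx {f : ℝ → ℝ} (hf : ContDiff ℝ ∞ f) (m : ℕ) {C : ℝ}
    (hC : ∀ x, |iteratedDeriv (m + 1) f x| ≤ C) {h : ℝ} (hh : 0 < h) (x : ℝ) (a : ℕ → ℝ) {ε : ℝ}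
    (ha : ∀ k : ℕ, |f (x + (k : ℝ) * h) - a k| ≤ ε) :
    |iteratedDeriv m f x - (∑ k ∈ range (m + 1), ((fdCoef m k : ℚ) : ℝ) * a k) / h ^ m| ≤
      m * h * C + 2 ^ m * ε / h ^ m := by
  have hpm : 0 < h ^ m := pow_pos hh m
  have h1 := fd_error m f hf C hC h hh.le x
  have h2 : |∑ k ∈ range (m + 1), ((fdCoef m k : ℚ) : ℝ) * f (x + k * h) -
      ∑ k ∈ range (m + 1), ((fdCoef m k : ℚ) : ℝ) * a k| ≤ 2 ^ m * ε := by
    rw [← Finset.sum_sub_distrib]
    refine (Finset.abs_sum_le_sum_abs _ _).trans ?_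
    have h3 : ∀ k ∈ range (m + 1), |((fdCoef m k : ℚ) : ℝ) * f (x + k * h) -
        ((fdCoef m k : ℚ) : ℝ) * a k| ≤ (m.choose k : ℝ) * ε := by
      intro k _
      rw [← mul_sub, abs_mul]
      have h4 : |((fdCoef m k : ℚ) : ℝ)| = (m.choose k : ℝ) := by
        have := abs_fdCoef m k
        have h5 : ((|fdCoef m k| : ℚ) : ℝ) = ((m.choose k : ℚ) : ℝ) := by rw [this]
        simpa using h5
      rw [h4]
      exact mul_le_mul_of_nonneg_left (ha k) (by positivity)
    refine (Finset.sum_le_sum h3).trans ?_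
    rw [← Finset.sum_mul]
    have h6 : (∑ k ∈ range (m + 1), (m.choose k : ℝ)) = 2 ^ m := by
      have := Nat.sum_range_choose m
      exact_mod_cast this
    rw [h6]
  rw [fd_eq_sum] at h1
  set S := ∑ k ∈ range (m + 1), ((fdCoef m k : ℚ) : ℝ) * f (x + k * h)
  set T := ∑ k ∈ range (m + 1), ((fdCoef m k : ℚ) : ℝ) * a k
  have h7 : iteratedDeriv m f x - T / h ^ m =
      ((h ^ m * iteratedDeriv m f x - S) + (S - T)) / h ^ m := by
    field_simp
    ring
  rw [h7, abs_div, abs_of_pos hpm]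
  apply (div_le_iff₀ hpm).mpr
  have h8 : |h ^ m * iteratedDeriv m f x - S + (S - T)| ≤ m * h ^ (m + 1) * C + 2 ^ m * ε := by
    refine (abs_add_le _ _).trans (add_le_add ?_ h2)
    rw [abs_sub_comm]
    exact h1
  refine h8.trans (le_of_eq ?_)
  field_simp
  ring

end Crest.Agent.S0170Lib
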