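/-
S0170 library, module A1: the arithmetic of ℚ is primitive recursive for the `Primcodable ℚ`
instance coming from `Denumerable ℚ` (the code of `q` is the rank of the code `⟨num, den⟩` among the
valid codes).
-/
import Mathlib

set_option autoImplicit false

open Encodable

namespace Crest.Agent.S0170Lib

/-- The raw code of a rational. -/
abbrev rawEnc (q : ℚ) : ℕ := @Encodable.encode ℚ Rat.instEncodable q

theorem rawEnc_eq (q : ℚ) : rawEnc q = Nat.pair (encode q.num) q.den := rfl

/-- The code of a rational for the `Primcodable ℚ` instance. -/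
abbrev encQ (q : ℚ) : ℕ := @Encodable.encode ℚ (Primcodable.ofDenumerable ℚ).toEncodable q

theorem primrec_encQ : Primrec encQ := Primrec.encode

/-- Codes of integers. -/
theorem encode_int_natAbs (z : ℤ) : (encode z + 1) / 2 = z.natAbs := by
  change (Equiv.intEquivNat z + 1) / 2 = z.natAbs
  cases z with
  | ofNat n =>
    change (2 * n + 1) / 2 = n
    omega
  | negSucc n =>
    change (2 * n + 1 + 1) / 2 = n + 1
    omega

theorem encode_int_ofNat (n : ℕ) : encode (n : ℤ) = 2 * n := rfl

theorem encode_int_negSucc (n : ℕ) : encode (Int.negSucc n) = 2 * n + 1 := rfl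

theorem int_neg_iff (z : ℤ) : z < 0 ↔ (encode z) % 2 = 1 := by
  cases z with
  | ofNat n =>
    have : encode (Int.ofNat n) = 2 * n := rfl
    rw [this]
    constructor
    · intro h; simp at h; omega
    · intro h; omega
  | negSucc n =>
    have : encode (Int.negSucc n) = 2 * n + 1 := rfl
    rw [this]
    constructor
    · intro _; omega
    · intro _; exact Int.negSucc_lt_zero n

/-- The predicate of the valid raw codes. -/
def validCode (m : ℕ) : Prop :=
  0 < m.unpair.2 ∧ Nat.gcd ((m.unpair.1 + 1) / 2) m.unpair.2 = 1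

instance : DecidablePred validCode := fun m => by
  unfold validCode; infer_instance

theorem rawEnc_valid (q : ℚ) : validCode (rawEnc q) := by
  unfold validCode
  rw [rawEnc_eq, Nat.unpair_pair]
  dsimp only
  rw [encode_int_natAbs]
  exact ⟨q.den_pos, q.reduced⟩

theorem mem_range_rawEnc_iff (m : ℕ) : m ∈ Set.range rawEnc ↔ validCode m := by
  constructor
  · rintro ⟨q, rfl⟩
    exact rawEnc_valid q
  · intro h
    obtain ⟨hd, hg⟩ := h
    let z : ℤ := Denumerable.ofNat ℤ m.unpair.1
    have hz : encode z = m.unpair.1 := Denumerable.encode_ofNat _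
    have hz' : z.natAbs = (m.unpair.1 + 1) / 2 := by
      rw [← hz, encode_int_natAbs]
    refine ⟨⟨z, m.unpair.2, by omega, ?_⟩, ?_⟩
    · rw [hz']; exact hg
    · rw [rawEnc_eq]
      change Nat.pair (encode z) m.unpair.2 = m
      rw [hz, Nat.pair_unpair]

/-- The rank of a raw code. -/
def rankCount (m : ℕ) : ℕ := (List.range m).countP (fun k => decide (validCode k))

theorem encode_eq_rankCount (q : ℚ) : encQ q = rankCount (rawEnc q) := by
  classical
  have h : @Encodable.encode ℚ (Primcodable.ofDenumerable ℚ).toEncodable q =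
      (List.range (rawEnc q)).countP
        (fun m => @decide (m ∈ Set.range rawEnc) (Encodable.decidableRangeEncode ℚ m)) := rfl
  refine h.trans ?_
  unfold rankCount
  apply List.countP_congr
  intro k _
  simp only [decide_eq_true_eq]
  exact mem_range_rawEnc_iff k

theorem rankCount_succ (m : ℕ) :
    rankCount (m + 1) = rankCount m + if validCode m then 1 else 0 := by
  unfold rankCount
  rw [List.range_succ, List.countP_append]
  simp [List.countP_cons]

theorem rankCount_mono {a b : ℕ} (h : a ≤ b) : rankCount a ≤ rankCount b := by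
  induction b, h using Nat.le_induction with
  | base => exact le_rfl
  | succ n _ ih =>
    rw [rankCount_succ]
    omega

theorem rankCount_lt_of_valid {a b : ℕ} (h : a < b) (hv : validCode a) :
    rankCount a < rankCount b := by
  have h1 : rankCount (a + 1) ≤ rankCount b := rankCount_mono h
  rw [rankCount_succ, if_pos hv] at h1
  omega

theorem validCode_pair_one (e : ℕ) : validCode (Nat.pair e 1) := by
  unfold validCode
  rw [Nat.unpair_pair]
  simp

theorem le_rankCount_pair (e : ℕ) : e ≤ rankCount (Nat.pair e 1) := by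
  induction e with
  | zero => exact Nat.zero_le _
  | succ n ih =>
    have h1 : Nat.pair n 1 < Nat.pair (n + 1) 1 := Nat.pair_lt_pair_left 1 (Nat.lt_succ_self n)
    have := rankCount_lt_of_valid h1 (validCode_pair_one n)
    omega

/-- The raw code of rank `n`. -/
def rawOfRank (n : ℕ) : ℕ :=
  Nat.findGreatest (fun m => validCode m ∧ rankCount m = n) (Nat.pair n 1)

theorem rawOfRank_rank {m : ℕ} (hv : validCode m) : rawOfRank (rankCount m) = m := by
  unfold rawOfRank
  have hle : m ≤ Nat.pair (rankCount m) 1 := by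
    by_contra hcon
    push Not at hcon
    have h1 := rankCount_lt_of_valid hcon (validCode_pair_one _)
    have h2 := le_rankCount_pair (rankCount m)
    omega
  rw [Nat.findGreatest_eq_iff]
  refine ⟨hle, fun _ => ⟨hv, rfl⟩, ?_⟩
  rintro k hk _ ⟨hkv, hkr⟩
  have := rankCount_lt_of_valid hk hv
  omega

theorem rawOfRank_encode (q : ℚ) : rawOfRank (encQ q) = rawEnc q := by
  rw [encode_eq_rankCount]
  exact rawOfRank_rank (rawEnc_valid q)

/-! ### Primitive recursiveness -/

theorem primrec_gcd : Primrec₂ Nat.gcd := by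
  have hdvd : PrimrecRel (fun (x : ℕ × ℕ) (d : ℕ) => x.1 % d = 0 ∧ x.2 % d = 0) := by
    refine PrimrecPred.and ?_ ?_
    · exact Primrec.eq.comp (Primrec.nat_mod.comp (Primrec.fst.comp Primrec.fst) Primrec.snd)
        (Primrec.const 0)
    · exact Primrec.eq.comp (Primrec.nat_mod.comp (Primrec.snd.comp Primrec.fst) Primrec.snd)
        (Primrec.const 0)
  have h := Primrec.nat_findGreatest
    (f := fun x : ℕ × ℕ => x.1 + x.2) (Primrec.nat_add.comp Primrec.fst Primrec.snd) hdvd
  refine Primrec₂.mk (h.of_eq ?_)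
  rintro ⟨a, b⟩
  by_cases h0 : a + b = 0
  · have ha : a = 0 := by omega
    have hb : b = 0 := by omega
    subst ha; subst hb
    simp
  · dsimp only
    rw [Nat.findGreatest_eq_iff]
    refine ⟨?_, ?_, ?_⟩
    · have hp : 0 < Nat.gcd a b := Nat.gcd_pos_iff.mpr (by omega)
      by_cases ha : a = 0
      · subst ha; simp
      · have := Nat.gcd_le_left b (Nat.pos_of_ne_zero ha)
        omega
    · intro _
      exact ⟨Nat.mod_eq_zero_of_dvd (Nat.gcd_dvd_left a b),
        Nat.mod_eq_zero_of_dvd (Nat.gcd_dvd_right a b)⟩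
    · intro k hk hle hcon
      obtain ⟨h1, h2⟩ := hcon
      have hd1 : k ∣ a := Nat.dvd_of_mod_eq_zero h1
      have hd2 : k ∣ b := Nat.dvd_of_mod_eq_zero h2
      have := Nat.dvd_gcd hd1 hd2
      have hp : 0 < Nat.gcd a b := Nat.gcd_pos_iff.mpr (by omega)
      have := Nat.le_of_dvd hp this
      omega

theorem primrecPred_validCode : PrimrecPred validCode := by
  refine PrimrecPred.and ?_ ?_
  · exact Primrec.nat_lt.comp (Primrec.const 0)
      (Primrec.snd.comp Primrec.unpair)
  · refine Primrec.eq.comp (primrec_gcd.comp ?_ (Primrec.snd.comp Primrec.unpair)) (Primrec.const 1)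
    exact Primrec.nat_div.comp
      (Primrec.succ.comp (Primrec.fst.comp Primrec.unpair)) (Primrec.const 2)

theorem primrec_rankCount : Primrec rankCount := by
  have h : Primrec fun m : ℕ =>
      ((List.range m).filter (fun k => decide (validCode k))).length := by
    exact Primrec.list_length.comp
      ((Primrec.listFilter (p := validCode) primrecPred_validCode).comp Primrec.list_range)
  refine h.of_eq fun m => ?_
  unfold rankCount
  rw [List.countP_eq_length_filter]

theorem primrec_rawOfRank : Primrec rawOfRank := by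
  have hrel : PrimrecRel (fun (n m : ℕ) => validCode m ∧ rankCount m = n) := by
    refine PrimrecPred.and ?_ ?_
    · exact primrecPred_validCode.comp Primrec.snd
    · exact Primrec.eq.comp (primrec_rankCount.comp Primrec.snd) Primrec.fst
  exact Primrec.nat_findGreatest
    (f := fun n : ℕ => Nat.pair n 1) (Primrec₂.natPair.comp Primrec.id (Primrec.const 1)) hrel

/-- `den` is primitive recursive. -/
theorem primrec_den : Primrec (fun q : ℚ => q.den) := by
  have h : Primrec fun q : ℚ => (rawOfRank (encQ q)).unpair.2 :=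
    Primrec.snd.comp (Primrec.unpair.comp (primrec_rawOfRank.comp primrec_encQ))
  refine h.of_eq fun q => ?_
  rw [rawOfRank_encode, rawEnc_eq, Nat.unpair_pair]

/-- `natAbs num` is primitive recursive. -/
theorem primrec_natAbs_num : Primrec (fun q : ℚ => q.num.natAbs) := by
  have h : Primrec fun q : ℚ => ((rawOfRank (encQ q)).unpair.1 + 1) / 2 :=
    Primrec.nat_div.comp (Primrec.succ.comp (Primrec.fst.comp
      (Primrec.unpair.comp (primrec_rawOfRank.comp primrec_encQ)))) (Primrec.const 2)
  refine h.of_eq fun q => ?_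
  rw [rawOfRank_encode, rawEnc_eq, Nat.unpair_pair]
  exact encode_int_natAbs _

/-- Negativity is primitive recursive. -/
theorem primrecPred_neg : PrimrecPred (fun q : ℚ => q < 0) := by
  have h : PrimrecPred fun q : ℚ => ((rawOfRank (encQ q)).unpair.1) % 2 = 1 :=
    Primrec.eq.comp (Primrec.nat_mod.comp (Primrec.fst.comp
      (Primrec.unpair.comp (primrec_rawOfRank.comp primrec_encQ))) (Primrec.const 2))
      (Primrec.const 1)
  refine h.of_eq fun q => ?_
  rw [rawOfRank_encode, rawEnc_eq, Nat.unpair_pair]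
  dsimp only
  rw [← int_neg_iff, Rat.num_neg]

/-- The rational `(p - n) / d`. -/
def ofPN (p n d : ℕ) : ℚ := ((p : ℚ) - (n : ℚ)) / (d : ℚ)

/-- The numerator code of `ofPN`. -/
def ofPNnumCode (p n d : ℕ) : ℕ :=
  let A := (p - n) + (n - p)
  let g := Nat.gcd A d
  if p < n then 2 * (A / g) - 1 else 2 * (A / g)

theorem ofPN_raw_of_pos (p n d : ℕ) (hd : 0 < d) :
    rawEnc (ofPN p n d) = Nat.pair (ofPNnumCode p n d) (d / Nat.gcd ((p - n) + (n - p)) d) := by
  rw [rawEnc_eq]
  set A := (p - n) + (n - p) with hA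
  set g := Nat.gcd A d with hg
  have hgpos : 0 < g := Nat.gcd_pos_of_pos_right _ hd
  have hgA : g ∣ A := Nat.gcd_dvd_left _ _
  have hgd : g ∣ d := Nat.gcd_dvd_right _ _
  obtain ⟨a', ha'⟩ := hgA
  obtain ⟨d', hd'⟩ := hgd
  have hd'pos : 0 < d' := by
    rcases Nat.eq_zero_or_pos d' with h | h
    · subst h; omega
    · exact h
  have hA' : A / g = a' := by rw [ha']; exact Nat.mul_div_cancel_left _ hgpos
  have hD' : d / g = d' := by rw [hd']; exact Nat.mul_div_cancel_left _ hgpos
  have hcop : Nat.Coprime a' d' := by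
    have := Nat.coprime_div_gcd_div_gcd (m := A) (n := d) hgpos
    rwa [← hg, hA', hD'] at this
  -- the signed numerator
  by_cases hlt : p < n
  · have hAval : A = n - p := by omega
    have hval : ofPN p n d = ((-(a' : ℤ) : ℤ) : ℚ) / ((d' : ℤ) : ℚ) := by
      unfold ofPN
      have hgne : (g : ℚ) ≠ 0 := by exact_mod_cast hgpos.ne'
      have hd'ne : (d' : ℚ) ≠ 0 := by exact_mod_cast hd'pos.ne'
      have h1 : (d : ℚ) = g * d' := by rw [hd']; push_cast; ring
      have h2 : (n : ℚ) - p = g * a' := by
        have : ((n - p : ℕ) : ℚ) = (n : ℚ) - p := by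
          rw [Nat.cast_sub hlt.le]
        rw [← this, ← hAval, ha']; push_cast; ring
      push_cast
      rw [h1]
      field_simp
      linarith
    have hcop' : Nat.Coprime (-(a' : ℤ)).natAbs ((d' : ℤ)).natAbs := by
      simpa using hcop
    have hpos' : (0 : ℤ) < (d' : ℤ) := by exact_mod_cast hd'pos
    have hnum := Rat.num_div_eq_of_coprime hpos' hcop'
    have hden := Rat.den_div_eq_of_coprime hpos' hcop'
    rw [← hval] at hnum hden
    have hden' : (ofPN p n d).den = d' := by exact_mod_cast hden
    rw [hnum, hden', ← hD']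
    congr 1
    unfold ofPNnumCode
    simp only [if_pos hlt]
    rw [← hA, ← hg, hA']
    have ha'pos : 0 < a' := by
      rcases Nat.eq_zero_or_pos a' with h | h
      · subst h; omega
      · exact h
    obtain ⟨b, rfl⟩ : ∃ b, a' = b + 1 := ⟨a' - 1, by omega⟩
    have : (-((b + 1 : ℕ) : ℤ)) = Int.negSucc b := rfl
    rw [this, encode_int_negSucc]
    omega
  · have hAval : A = p - n := by omega
    have hval : ofPN p n d = (((a' : ℕ) : ℤ) : ℚ) / ((d' : ℤ) : ℚ) := by
      unfold ofPN
      have hgne : (g : ℚ) ≠ 0 := by exact_mod_cast hgpos.ne'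
      have hd'ne : (d' : ℚ) ≠ 0 := by exact_mod_cast hd'pos.ne'
      have h1 : (d : ℚ) = g * d' := by rw [hd']; push_cast; ring
      have h2 : (p : ℚ) - n = g * a' := by
        have : ((p - n : ℕ) : ℚ) = (p : ℚ) - n := by
          rw [Nat.cast_sub (by omega)]
        rw [← this, ← hAval, ha']; push_cast; ring
      push_cast
      rw [h1, h2]
      field_simp
    have hcop' : Nat.Coprime ((a' : ℕ) : ℤ).natAbs ((d' : ℤ)).natAbs := by
      simpa using hcop
    have hpos' : (0 : ℤ) < (d' : ℤ) := by exact_mod_cast hd'pos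
    have hnum := Rat.num_div_eq_of_coprime hpos' hcop'
    have hden := Rat.den_div_eq_of_coprime hpos' hcop'
    rw [← hval] at hnum hden
    have hden' : (ofPN p n d).den = d' := by exact_mod_cast hden
    rw [hnum, hden', ← hD']
    congr 1
    unfold ofPNnumCode
    simp only [if_neg hlt]
    rw [← hA, ← hg, hA', encode_int_ofNat]

theorem ofPN_raw_of_zero (p n : ℕ) : rawEnc (ofPN p n 0) = Nat.pair 0 1 := by
  rw [rawEnc_eq]
  have : ofPN p n 0 = 0 := by simp [ofPN]
  rw [this]
  rfl

/-- `ofPN` is primitive recursive. -/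
theorem primrec_ofPN : Primrec (fun x : ℕ × ℕ × ℕ => ofPN x.1 x.2.1 x.2.2) := by
  have hp : Primrec (fun x : ℕ × ℕ × ℕ => x.1) := Primrec.fst
  have hn : Primrec (fun x : ℕ × ℕ × ℕ => x.2.1) := Primrec.fst.comp Primrec.snd
  have hd : Primrec (fun x : ℕ × ℕ × ℕ => x.2.2) := Primrec.snd.comp Primrec.snd
  have hA : Primrec (fun x : ℕ × ℕ × ℕ => (x.1 - x.2.1) + (x.2.1 - x.1)) :=
    Primrec.nat_add.comp (Primrec.nat_sub.comp hp hn) (Primrec.nat_sub.comp hn hp)
  have hg : Primrec (fun x : ℕ × ℕ × ℕ => Nat.gcd ((x.1 - x.2.1) + (x.2.1 - x.1)) x.2.2) :=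
    primrec_gcd.comp hA hd
  have hq : Primrec (fun x : ℕ × ℕ × ℕ => ((x.1 - x.2.1) + (x.2.1 - x.1)) /
      Nat.gcd ((x.1 - x.2.1) + (x.2.1 - x.1)) x.2.2) := Primrec.nat_div.comp hA hg
  have hnum : Primrec (fun x : ℕ × ℕ × ℕ => ofPNnumCode x.1 x.2.1 x.2.2) := by
    unfold ofPNnumCode
    refine Primrec.ite (Primrec.nat_lt.comp hp hn) ?_ ?_
    · exact Primrec.nat_sub.comp (Primrec.nat_mul.comp (Primrec.const 2) hq) (Primrec.const 1)
    · exact Primrec.nat_mul.comp (Primrec.const 2) hq
  have hraw : Primrec (fun x : ℕ × ℕ × ℕ =>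
      if x.2.2 = 0 then Nat.pair 0 1 else
        Nat.pair (ofPNnumCode x.1 x.2.1 x.2.2)
          (x.2.2 / Nat.gcd ((x.1 - x.2.1) + (x.2.1 - x.1)) x.2.2)) := by
    refine Primrec.ite (Primrec.eq.comp hd (Primrec.const 0)) (Primrec.const _) ?_
    exact Primrec₂.natPair.comp hnum (Primrec.nat_div.comp hd hg)
  have henc : Primrec (fun x : ℕ × ℕ × ℕ => encQ (ofPN x.1 x.2.1 x.2.2)) := by
    refine (primrec_rankCount.comp hraw).of_eq ?_
    rintro ⟨p, n, d⟩
    dsimp only
    rw [encode_eq_rankCount]
    congr 1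
    by_cases h : d = 0
    · subst h
      rw [if_pos rfl, ofPN_raw_of_zero]
    · rw [if_neg h, ofPN_raw_of_pos p n d (Nat.pos_of_ne_zero h)]
  exact Primrec.encode_iff.1 henc

/-- The positive part of the numerator. -/
def numP (q : ℚ) : ℕ := if q < 0 then 0 else q.num.natAbs

/-- The negative part of the numerator. -/
def numN (q : ℚ) : ℕ := if q < 0 then q.num.natAbs else 0

theorem primrec_numP : Primrec numP := by
  unfold numP
  exact Primrec.ite primrecPred_neg (Primrec.const 0) primrec_natAbs_num

theorem primrec_numN : Primrec numN := by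
  unfold numN
  exact Primrec.ite primrecPred_neg primrec_natAbs_num (Primrec.const 0)

theorem num_cast_eq (q : ℚ) : (q.num : ℚ) = (numP q : ℚ) - (numN q : ℚ) := by
  unfold numP numN
  by_cases h : q < 0
  · rw [if_pos h, if_pos h]
    have h' : q.num < 0 := Rat.num_neg.2 h
    have : ((q.num.natAbs : ℤ)) = -q.num := by omega
    have h2 : ((q.num.natAbs : ℕ) : ℚ) = -(q.num : ℚ) := by
      rw [← Int.cast_natCast, this, Int.cast_neg]
    rw [h2]; simp
  · rw [if_neg h, if_neg h]
    have h' : 0 ≤ q.num := by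
      rw [Rat.num_nonneg]; exact not_lt.1 h
    have : ((q.num.natAbs : ℤ)) = q.num := by omega
    have h2 : ((q.num.natAbs : ℕ) : ℚ) = (q.num : ℚ) := by
      rw [← Int.cast_natCast, this]
    rw [h2]; simp

theorem q_eq_parts (q : ℚ) : q = ((numP q : ℚ) - (numN q : ℚ)) / (q.den : ℚ) := by
  rw [← num_cast_eq]
  exact (Rat.num_div_den q).symm

/-- Addition is primitive recursive. -/
theorem primrec_add : Primrec₂ ((· + ·) : ℚ → ℚ → ℚ) := by
  have h1P : Primrec (fun x : ℚ × ℚ => numP x.1) := primrec_numP.comp Primrec.fst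
  have h1N : Primrec (fun x : ℚ × ℚ => numN x.1) := primrec_numN.comp Primrec.fst
  have h1D : Primrec (fun x : ℚ × ℚ => x.1.den) := primrec_den.comp Primrec.fst
  have h2P : Primrec (fun x : ℚ × ℚ => numP x.2) := primrec_numP.comp Primrec.snd
  have h2N : Primrec (fun x : ℚ × ℚ => numN x.2) := primrec_numN.comp Primrec.snd
  have h2D : Primrec (fun x : ℚ × ℚ => x.2.den) := primrec_den.comp Primrec.snd
  have h : Primrec (fun x : ℚ × ℚ => ofPN (numP x.1 * x.2.den + numP x.2 * x.1.den)
      (numN x.1 * x.2.den + numN x.2 * x.1.den) (x.1.den * x.2.den)) := by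
    refine primrec_ofPN.comp (Primrec.pair ?_ (Primrec.pair ?_ ?_))
    · exact Primrec.nat_add.comp (Primrec.nat_mul.comp h1P h2D) (Primrec.nat_mul.comp h2P h1D)
    · exact Primrec.nat_add.comp (Primrec.nat_mul.comp h1N h2D) (Primrec.nat_mul.comp h2N h1D)
    · exact Primrec.nat_mul.comp h1D h2D
  refine Primrec₂.mk (h.of_eq ?_)
  rintro ⟨a, b⟩
  dsimp only
  unfold ofPN
  conv_rhs => rw [q_eq_parts a, q_eq_parts b]
  have ha : (a.den : ℚ) ≠ 0 := by exact_mod_cast a.den_ne_zero
  have hb : (b.den : ℚ) ≠ 0 := by exact_mod_cast b.den_ne_zero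
  push_cast
  field_simp
  ring

/-- Multiplication is primitive recursive. -/
theorem primrec_mul : Primrec₂ ((· * ·) : ℚ → ℚ → ℚ) := by
  have h1P : Primrec (fun x : ℚ × ℚ => numP x.1) := primrec_numP.comp Primrec.fst
  have h1N : Primrec (fun x : ℚ × ℚ => numN x.1) := primrec_numN.comp Primrec.fst
  have h1D : Primrec (fun x : ℚ × ℚ => x.1.den) := primrec_den.comp Primrec.fst
  have h2P : Primrec (fun x : ℚ × ℚ => numP x.2) := primrec_numP.comp Primrec.snd
  have h2N : Primrec (fun x : ℚ × ℚ => numN x.2) := primrec_numN.comp Primrec.snd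
  have h2D : Primrec (fun x : ℚ × ℚ => x.2.den) := primrec_den.comp Primrec.snd
  have h : Primrec (fun x : ℚ × ℚ => ofPN (numP x.1 * numP x.2 + numN x.1 * numN x.2)
      (numP x.1 * numN x.2 + numN x.1 * numP x.2) (x.1.den * x.2.den)) := by
    refine primrec_ofPN.comp (Primrec.pair ?_ (Primrec.pair ?_ ?_))
    · exact Primrec.nat_add.comp (Primrec.nat_mul.comp h1P h2P) (Primrec.nat_mul.comp h1N h2N)
    · exact Primrec.nat_add.comp (Primrec.nat_mul.comp h1P h2N) (Primrec.nat_mul.comp h1N h2P)
    · exact Primrec.nat_mul.comp h1D h2D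
  refine Primrec₂.mk (h.of_eq ?_)
  rintro ⟨a, b⟩
  dsimp only
  unfold ofPN
  conv_rhs => rw [q_eq_parts a, q_eq_parts b]
  have ha : (a.den : ℚ) ≠ 0 := by exact_mod_cast a.den_ne_zero
  have hb : (b.den : ℚ) ≠ 0 := by exact_mod_cast b.den_ne_zero
  push_cast
  field_simp
  ring

/-- Negation is primitive recursive. -/
theorem primrec_neg : Primrec (fun q : ℚ => -q) := by
  have h : Primrec (fun q : ℚ => ofPN (numN q) (numP q) q.den) :=
    primrec_ofPN.comp (Primrec.pair primrec_numN (Primrec.pair primrec_numP primrec_den))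
  refine h.of_eq fun q => ?_
  unfold ofPN
  conv_rhs => rw [q_eq_parts q]
  ring

/-- Subtraction is primitive recursive. -/
theorem primrec_sub : Primrec₂ ((· - ·) : ℚ → ℚ → ℚ) := by
  have h : Primrec (fun x : ℚ × ℚ => x.1 + -x.2) :=
    primrec_add.comp Primrec.fst (primrec_neg.comp Primrec.snd)
  exact Primrec₂.mk (h.of_eq fun x => (sub_eq_add_neg x.1 x.2).symm)

/-- Inversion is primitive recursive. -/
theorem primrec_inv : Primrec (fun q : ℚ => q⁻¹) := by
  have h : Primrec (fun q : ℚ => ofPN (if q < 0 then 0 else q.den) (if q < 0 then q.den else 0)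
      q.num.natAbs) := by
    refine primrec_ofPN.comp (Primrec.pair ?_ (Primrec.pair ?_ primrec_natAbs_num))
    · exact Primrec.ite primrecPred_neg (Primrec.const 0) primrec_den
    · exact Primrec.ite primrecPred_neg primrec_den (Primrec.const 0)
  refine h.of_eq fun q => ?_
  unfold ofPN
  by_cases hq0 : q = 0
  · subst hq0; simp
  have hd : (q.den : ℚ) ≠ 0 := by exact_mod_cast q.den_ne_zero
  have hn : (q.num : ℚ) ≠ 0 := by
    exact_mod_cast (Rat.num_ne_zero.2 hq0)
  by_cases h : q < 0
  · rw [if_pos h, if_pos h]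
    have h' : q.num < 0 := Rat.num_neg.2 h
    have h3 : ((q.num.natAbs : ℤ)) = -q.num := by omega
    have h2 : ((q.num.natAbs : ℕ) : ℚ) = -(q.num : ℚ) := by
      rw [← Int.cast_natCast, h3, Int.cast_neg]
    rw [h2]
    conv_rhs => rw [← Rat.num_div_den q]
    field_simp
    simp
  · rw [if_neg h, if_neg h]
    have h' : 0 ≤ q.num := by
      rw [Rat.num_nonneg]; exact not_lt.1 h
    have h3 : ((q.num.natAbs : ℤ)) = q.num := by omega
    have h2 : ((q.num.natAbs : ℕ) : ℚ) = (q.num : ℚ) := by
      rw [← Int.cast_natCast, h3]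
    rw [h2]
    conv_rhs => rw [← Rat.num_div_den q]
    field_simp
    simp

/-- The order is primitive recursive. -/
theorem primrecRel_le : PrimrecRel ((· ≤ ·) : ℚ → ℚ → Prop) := by
  have hnat : PrimrecPred (fun x : ℚ × ℚ =>
      numP x.1 * x.2.den + numN x.2 * x.1.den ≤ numP x.2 * x.1.den + numN x.1 * x.2.den) := by
    have h1P : Primrec (fun x : ℚ × ℚ => numP x.1) := primrec_numP.comp Primrec.fst
    have h1N : Primrec (fun x : ℚ × ℚ => numN x.1) := primrec_numN.comp Primrec.fst
    have h1D : Primrec (fun x : ℚ × ℚ => x.1.den) := primrec_den.comp Primrec.fst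
    have h2P : Primrec (fun x : ℚ × ℚ => numP x.2) := primrec_numP.comp Primrec.snd
    have h2N : Primrec (fun x : ℚ × ℚ => numN x.2) := primrec_numN.comp Primrec.snd
    have h2D : Primrec (fun x : ℚ × ℚ => x.2.den) := primrec_den.comp Primrec.snd
    exact Primrec.nat_le.comp
      (Primrec.nat_add.comp (Primrec.nat_mul.comp h1P h2D) (Primrec.nat_mul.comp h2N h1D))
      (Primrec.nat_add.comp (Primrec.nat_mul.comp h2P h1D) (Primrec.nat_mul.comp h1N h2D))
  refine hnat.of_eq ?_
  rintro ⟨a, b⟩
  dsimp only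
  have ha : (0 : ℚ) < (a.den : ℚ) := by exact_mod_cast a.den_pos
  have hb : (0 : ℚ) < (b.den : ℚ) := by exact_mod_cast b.den_pos
  have key : a ≤ b ↔ ((numP a : ℚ) - numN a) * b.den ≤ ((numP b : ℚ) - numN b) * a.den := by
    conv_lhs => rw [q_eq_parts a, q_eq_parts b]
    rw [div_le_div_iff₀ ha hb]
  rw [key]
  constructor
  · intro h
    have : ((numP a * b.den + numN b * a.den : ℕ) : ℚ) ≤
        ((numP b * a.den + numN a * b.den : ℕ) : ℚ) := by exact_mod_cast h
    push_cast at this
    nlinarith
  · intro h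
    have : ((numP a * b.den + numN b * a.den : ℕ) : ℚ) ≤
        ((numP b * a.den + numN a * b.den : ℕ) : ℚ) := by
      push_cast
      nlinarith
    exact_mod_cast this

/-- The cast from ℕ is primitive recursive. -/
theorem primrec_natCast : Primrec (fun n : ℕ => (n : ℚ)) := by
  have h : Primrec (fun n : ℕ => ofPN n 0 1) :=
    primrec_ofPN.comp (Primrec.pair Primrec.id (Primrec.const (0, 1)))
  refine h.of_eq fun n => ?_
  simp [ofPN]

/-- The ceiling of a rational (a natural number, `0` for negative rationals). -/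
theorem primrec_ceil : Primrec (fun q : ℚ => ⌈q⌉₊) := by
  have h : Primrec (fun q : ℚ => (numP q + q.den - 1) / q.den) :=
    Primrec.nat_div.comp
      (Primrec.nat_sub.comp (Primrec.nat_add.comp primrec_numP primrec_den) (Primrec.const 1))
      primrec_den
  refine h.of_eq fun q => ?_
  by_cases hq : q < 0
  · unfold numP
    rw [if_pos hq, Nat.ceil_eq_zero.2 hq.le]
    have : q.den - 1 < q.den := Nat.sub_lt q.den_pos Nat.one_pos
    simp [Nat.div_eq_of_lt this]
  · have h0 : 0 ≤ q := not_lt.1 hq
    have hnum : (numP q : ℚ) = q * q.den := by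
      have := q_eq_parts q
      have hd : (q.den : ℚ) ≠ 0 := by exact_mod_cast q.den_ne_zero
      have hN : numN q = 0 := by unfold numN; rw [if_neg hq]
      rw [hN] at this
      field_simp at this
      push_cast at this
      linarith
    have hdpos : 0 < q.den := q.den_pos
    have hdpos' : (0 : ℚ) < (q.den : ℚ) := by exact_mod_cast hdpos
    apply le_antisymm
    · -- upper bound
      rw [Nat.div_le_iff_le_mul_add_pred hdpos]
      have h1 : q ≤ (⌈q⌉₊ : ℚ) := Nat.le_ceil q
      have h2 : (numP q : ℚ) ≤ ((q.den * ⌈q⌉₊ : ℕ) : ℚ) := by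
        push_cast; rw [hnum]; nlinarith
      have h3 : numP q ≤ q.den * ⌈q⌉₊ := by exact_mod_cast h2
      omega
    · -- lower bound
      apply Nat.ceil_le.2
      have h4 : numP q ≤ (numP q + q.den - 1) / q.den * q.den + (q.den - 1) := by
        have := Nat.div_add_mod (numP q + q.den - 1) q.den
        have h5 := Nat.mod_lt (numP q + q.den - 1) hdpos
        rw [mul_comm] at this
        omega
      -- `numP q ≤ k * den` since remainder considerations
      have h6 : numP q ≤ (numP q + q.den - 1) / q.den * q.den := by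
        have h7 : (numP q + q.den - 1) / q.den * q.den + q.den > numP q + q.den - 1 := by
          have := Nat.div_add_mod (numP q + q.den - 1) q.den
          have h5 := Nat.mod_lt (numP q + q.den - 1) hdpos
          rw [mul_comm] at this
          omega
        omega
      have h8 : (numP q : ℚ) ≤ (((numP q + q.den - 1) / q.den * q.den : ℕ) : ℚ) := by
        exact_mod_cast h6
      push_cast at h8
      rw [hnum] at h8
      exact le_of_mul_le_mul_right h8 hdpos'

end Crest.Agent.S0170Lib
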