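/-
S0170 library: effective univariate functions (helper34).
`EffFun.of_values`: values at rationals + computable bounds of all derivatives give all derivatives.
Closure: affine substitution, products, derivative, `(x - m) * P x`.
-/
import Crest.Agent.S0170Lib.Defs
import Crest.Agent.S0170Lib.RatPrim
import Crest.Agent.S0170Lib.FinDiff

set_option autoImplicit false

open scoped ContDiff
open Finset

namespace Crest.Agent.S0170Lib

section prim

theorem primrec_nat_pow : Primrec₂ (fun a b : ℕ => a ^ b) :=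
  Primrec₂.unpaired'.1 Nat.Primrec.pow

theorem primrec_factorial : Primrec Nat.factorial := by
  have : Primrec (fun n : ℕ => Nat.rec (motive := fun _ => ℕ) 1 (fun y IH => (y + 1) * IH) n) :=
    Primrec.nat_rec₁ 1 (Primrec.nat_mul.comp (Primrec.succ.comp Primrec.fst) Primrec.snd)
  refine this.of_eq fun n => ?_
  induction n with
  | zero => rfl
  | succ n ih => simp only [Nat.factorial_succ, ih]

theorem primrec_choose : Primrec₂ Nat.choose := by
  have h : Primrec (fun p : ℕ × ℕ =>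
      if p.2 ≤ p.1 then p.1.factorial / (p.2.factorial * (p.1 - p.2).factorial) else 0) := by
    refine Primrec.ite (Primrec.nat_le.comp Primrec.snd Primrec.fst) ?_ (Primrec.const 0)
    refine Primrec.nat_div.comp (primrec_factorial.comp Primrec.fst) ?_
    refine Primrec.nat_mul.comp (primrec_factorial.comp Primrec.snd) ?_
    exact primrec_factorial.comp (Primrec.nat_sub.comp Primrec.fst Primrec.snd)
  refine h.of_eq fun p => ?_
  by_cases hp : p.2 ≤ p.1
  · simp only [hp, if_true]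
    exact (Nat.choose_eq_factorial_div_factorial hp).symm
  · simp only [hp, if_false]
    exact (Nat.choose_eq_zero_of_lt (not_le.mp hp)).symm

theorem primrec_qpow : Primrec₂ (fun (q : ℚ) (k : ℕ) => q ^ k) := by
  have h : Primrec (fun p : ℚ × ℕ =>
      Nat.rec (motive := fun _ => ℚ) 1 (fun y IH => (fun (p : ℚ × ℕ) (r : ℕ × ℚ) => r.2 * p.1) p (y, IH)) p.2) := by
    refine Primrec.nat_rec' (f := fun p : ℚ × ℕ => p.2) (g := fun _ => (1 : ℚ))
      (h := fun (p : ℚ × ℕ) (r : ℕ × ℚ) => r.2 * p.1) Primrec.snd (Primrec.const (1 : ℚ)) ?_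
    exact primrec_mul.comp (Primrec.snd.comp Primrec.snd) (Primrec.fst.comp Primrec.fst)
  refine h.of_eq fun p => ?_
  rcases p with ⟨q, k⟩
  induction k with
  | zero => simp
  | succ k ih => simp only [pow_succ, ← ih]

theorem primrec_qabs : Primrec (fun q : ℚ => |q|) := by
  have h : Primrec (fun q : ℚ => if 0 ≤ q then q else -q) :=
    Primrec.ite (primrecRel_le.comp (Primrec.const 0) Primrec.id) Primrec.id primrec_neg
  refine h.of_eq fun q => ?_
  by_cases hq : 0 ≤ q
  · simp [hq, abs_of_nonneg hq]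
  · simp [hq, abs_of_neg (not_le.mp hq)]

theorem primrec_fdCoef : Primrec₂ fdCoef := by
  unfold fdCoef
  refine primrec_mul.comp ?_ ?_
  · exact primrec_qpow.comp (Primrec.const (-1 : ℚ)) (Primrec.nat_sub.comp Primrec.fst Primrec.snd)
  · exact primrec_natCast.comp (primrec_choose.comp Primrec.fst Primrec.snd)

variable {α σ : Type*} [Primcodable α] [Primcodable σ]

/-- Finite sums of a computable function are computable. -/
theorem computable_sum [AddCommMonoid σ] (hadd : Computable₂ ((· + ·) : σ → σ → σ))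
    {f : α → ℕ} {g : α → ℕ → σ} (hf : Computable f) (hg : Computable₂ g) :
    Computable (fun a => ∑ k ∈ range (f a), g a k) := by
  have h : Computable (fun a => Nat.rec (motive := fun _ => σ) 0
      (fun y IH => (fun a (p : ℕ × σ) => p.2 + g a p.1) a (y, IH)) (f a)) := by
    refine Computable.nat_rec (h := fun a (p : ℕ × σ) => p.2 + g a p.1) hf (Computable.const 0) ?_
    refine hadd.comp (Computable.snd.comp Computable.snd) ?_
    exact hg.comp Computable.fst (Computable.fst.comp Computable.snd)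
  refine h.of_eq fun a => ?_
  generalize f a = n
  induction n with
  | zero => simp
  | succ n ih => simp only [Finset.sum_range_succ, ← ih]

theorem computable_qadd : Computable₂ ((· + ·) : ℚ → ℚ → ℚ) := primrec_add.to_comp
theorem computable_qmul : Computable₂ ((· * ·) : ℚ → ℚ → ℚ) := primrec_mul.to_comp
theorem computable_qsub : Computable₂ ((· - ·) : ℚ → ℚ → ℚ) := primrec_sub.to_comp
theorem computable_natAdd : Computable₂ ((· + ·) : ℕ → ℕ → ℕ) := Primrec.nat_add.to_comp
theorem computable_natMul : Computable₂ ((· * ·) : ℕ → ℕ → ℕ) := Primrec.nat_mul.to_comp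
theorem computable_natCast : Computable (fun n : ℕ => (n : ℚ)) := primrec_natCast.to_comp
theorem computable_natPow : Computable₂ (fun a b : ℕ => a ^ b) := primrec_nat_pow.to_comp

end prim

/-- The step parameter of numerical differentiation. -/
def ndH (B : ℕ → ℕ) (m n : ℕ) : ℕ := 2 * (m + 1) * (B (m + 1) + 1) * (n + 1)

/-- The precision for the values in numerical differentiation. -/
def ndN (B : ℕ → ℕ) (m n : ℕ) : ℕ := 2 ^ (m + 1) * (n + 1) * (ndH B m n) ^ m

/-- Numerical differentiation. -/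
def ndA (A : ℚ × ℕ → ℚ) (B : ℕ → ℕ) (m : ℕ) (q : ℚ) (n : ℕ) : ℚ :=
  ((ndH B m n) ^ m : ℕ) * ∑ k ∈ range (m + 1),
    fdCoef m k * A (q + (k : ℚ) * ((ndH B m n : ℕ) : ℚ)⁻¹, ndN B m n)

theorem computable_ndA {A : ℚ × ℕ → ℚ} {B : ℕ → ℕ} (hA : Computable A) (hB : Computable B) :
    Computable (fun p : ℕ × ℚ × ℕ => ndA A B p.1 p.2.1 p.2.2) := by
  have hm : Computable (fun p : ℕ × ℚ × ℕ => p.1) := Computable.fst
  have hq : Computable (fun p : ℕ × ℚ × ℕ => p.2.1) := Computable.fst.comp Computable.snd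
  have hn : Computable (fun p : ℕ × ℚ × ℕ => p.2.2) := Computable.snd.comp Computable.snd
  have hH : Computable (fun p : ℕ × ℚ × ℕ => ndH B p.1 p.2.2) := by
    unfold ndH
    refine computable_natMul.comp (computable_natMul.comp (computable_natMul.comp
      (Computable.const 2) (Computable.succ.comp hm)) ?_) (Computable.succ.comp hn)
    exact Computable.succ.comp (hB.comp (Computable.succ.comp hm))
  have hN : Computable (fun p : ℕ × ℚ × ℕ => ndN B p.1 p.2.2) := by
    unfold ndN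
    refine computable_natMul.comp (computable_natMul.comp ?_ (Computable.succ.comp hn)) ?_
    · exact computable_natPow.comp (Computable.const 2) (Computable.succ.comp hm)
    · exact computable_natPow.comp hH hm
  unfold ndA
  refine computable_qmul.comp ?_ ?_
  · exact computable_natCast.comp (computable_natPow.comp hH hm)
  · refine computable_sum computable_qadd (Computable.succ.comp hm) ?_
    have hfst : Computable (fun r : (ℕ × ℚ × ℕ) × ℕ => r.1) := Computable.fst
    have hsnd : Computable (fun r : (ℕ × ℚ × ℕ) × ℕ => r.2) := Computable.snd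
    refine computable_qmul.comp ?_ ?_
    · exact primrec_fdCoef.to_comp.comp (hm.comp hfst) hsnd
    · refine hA.comp (Computable.pair ?_ (hN.comp hfst))
      refine computable_qadd.comp (hq.comp hfst) ?_
      refine computable_qmul.comp (computable_natCast.comp hsnd) ?_
      exact primrec_inv.to_comp.comp (computable_natCast.comp (hH.comp hfst))

theorem abs_ndA_error {g : ℝ → ℝ} (hs : ContDiff ℝ ∞ g)
    {A : ℚ × ℕ → ℚ} (hA' : ∀ (q : ℚ) (n : ℕ), |g (q : ℝ) - (A (q, n) : ℝ)| ≤ 1 / ((n : ℝ) + 1))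
    {B : ℕ → ℕ} (hB' : ∀ (m : ℕ) (x : ℝ), |iteratedDeriv m g x| ≤ (B m : ℝ))
    (m : ℕ) (q : ℚ) (n : ℕ) :
    |iteratedDeriv m g (q : ℝ) - (ndA A B m q n : ℝ)| ≤ 1 / ((n : ℝ) + 1) := by
  set H : ℕ := ndH B m n with hH
  set N : ℕ := ndN B m n with hN
  have hn1 : (0 : ℝ) < (n : ℝ) + 1 := by positivity
  have hHr : (H : ℝ) = 2 * ((m : ℝ) + 1) * ((B (m + 1) : ℝ) + 1) * ((n : ℝ) + 1) := by
    rw [hH]; unfold ndH; push_cast; ring
  have hHpos : (0 : ℝ) < (H : ℝ) := by
    rw [hHr]; positivity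
  have hNr : (N : ℝ) = 2 ^ (m + 1) * ((n : ℝ) + 1) * (H : ℝ) ^ m := by
    rw [hN]; unfold ndN; push_cast; rw [← hH]
  have hNpos : (0 : ℝ) < (N : ℝ) := by rw [hNr]; positivity
  set h : ℝ := (H : ℝ)⁻¹ with hh
  have hhpos : 0 < h := inv_pos.mpr hHpos
  have key := fd_approx hs m (C := (B (m + 1) : ℝ)) (hB' (m + 1)) hhpos (q : ℝ)
    (fun k => (A (q + (k : ℚ) * ((H : ℕ) : ℚ)⁻¹, N) : ℝ)) (ε := 1 / ((N : ℝ) + 1)) (by
      intro k
      have := hA' (q + (k : ℚ) * ((H : ℕ) : ℚ)⁻¹) N
      push_cast at this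
      exact this)
  have hval : ((ndA A B m q n : ℚ) : ℝ) =
      (∑ k ∈ range (m + 1), ((fdCoef m k : ℚ) : ℝ) *
        (A (q + (k : ℚ) * ((H : ℕ) : ℚ)⁻¹, N) : ℝ)) / h ^ m := by
    unfold ndA
    rw [← hH, ← hN]
    push_cast
    rw [hh, inv_pow, div_inv_eq_mul, mul_comm]
  rw [hval]
  refine key.trans ?_
  -- the two error terms
  have h1 : (m : ℝ) * h * (B (m + 1) : ℝ) ≤ 1 / (2 * ((n : ℝ) + 1)) := by
    rw [hh, hHr]
    have hb : (0 : ℝ) ≤ (B (m + 1) : ℝ) := by positivity
    have hm0 : (0 : ℝ) ≤ (m : ℝ) := by positivity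
    rw [inv_eq_one_div, mul_one_div, div_mul_eq_mul_div, div_le_div_iff₀ (by positivity) (by positivity)]
    have : (m : ℝ) * (B (m + 1) : ℝ) ≤ ((m : ℝ) + 1) * ((B (m + 1) : ℝ) + 1) := by nlinarith
    nlinarith [mul_le_mul_of_nonneg_right this (by positivity : (0 : ℝ) ≤ 2 * ((n : ℝ) + 1))]
  have h2 : 2 ^ m * (1 / ((N : ℝ) + 1)) / h ^ m ≤ 1 / (2 * ((n : ℝ) + 1)) := by
    have hhm : h ^ m = ((H : ℝ) ^ m)⁻¹ := by rw [hh, inv_pow]
    rw [hhm, div_inv_eq_mul]
    have hP : (0 : ℝ) < (H : ℝ) ^ m := pow_pos hHpos m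
    rw [mul_one_div, div_mul_eq_mul_div, div_le_div_iff₀ (by positivity) (by positivity)]
    rw [hNr]
    have h2m : (0 : ℝ) < 2 ^ m := by positivity
    have : (2 : ℝ) ^ m * (H : ℝ) ^ m * (2 * ((n : ℝ) + 1)) = 2 ^ (m + 1) * ((n : ℝ) + 1) * (H : ℝ) ^ m := by
      ring
    rw [this]
    linarith
  have h3 : 1 / (2 * ((n : ℝ) + 1)) + 1 / (2 * ((n : ℝ) + 1)) = 1 / ((n : ℝ) + 1) := by
    field_simp
    norm_num
  linarith

/-- Values at rationals + computable bounds of all derivatives give an effective function. -/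
theorem EffFun.of_values {g : ℝ → ℝ} (hs : ContDiff ℝ ∞ g)
    {A : ℚ × ℕ → ℚ} (hA : Computable A)
    (hA' : ∀ (q : ℚ) (n : ℕ), |g (q : ℝ) - (A (q, n) : ℝ)| ≤ 1 / ((n : ℝ) + 1))
    {B : ℕ → ℕ} (hB : Computable B) (hB' : ∀ (m : ℕ) (x : ℝ), |iteratedDeriv m g x| ≤ (B m : ℝ)) :
    EffFun g :=
  ⟨hs, ⟨fun p => ndA A B p.1 p.2.1 p.2.2, computable_ndA hA hB,
    fun m q n => abs_ndA_error hs hA' hB' m q n⟩, ⟨B, hB, hB'⟩⟩

namespace EffFun

theorem deriv' {g : ℝ → ℝ} (hg : EffFun g) : EffFun (deriv g) := by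
  obtain ⟨hs, ⟨A, hA, hA'⟩, ⟨B, hB, hB'⟩⟩ := hg
  refine ⟨(contDiff_infty_iff_deriv.mp hs).2, ⟨fun p => A (p.1 + 1, p.2), ?_, ?_⟩,
    ⟨fun m => B (m + 1), hB.comp Computable.succ, ?_⟩⟩
  · exact hA.comp (Computable.pair (Computable.succ.comp Computable.fst) Computable.snd)
  · intro m q n
    have := hA' (m + 1) q n
    rwa [iteratedDeriv_succ'] at this
  · intro m x
    have := hB' (m + 1) x
    rwa [iteratedDeriv_succ'] at this

/-- The values of an effective function. -/
theorem values {g : ℝ → ℝ} (hg : EffFun g) : ∃ A : ℚ × ℕ → ℚ, Computable A ∧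
    ∀ (q : ℚ) (n : ℕ), |g (q : ℝ) - (A (q, n) : ℝ)| ≤ 1 / ((n : ℝ) + 1) := by
  obtain ⟨_, ⟨A, hA, hA'⟩, _⟩ := hg
  refine ⟨fun p => A (0, p.1, p.2), hA.comp (Computable.pair (Computable.const 0)
    (Computable.pair Computable.fst Computable.snd)), ?_⟩
  intro q n
  simpa using hA' 0 q n

theorem comp_affine {g : ℝ → ℝ} (hg : EffFun g) (α β : ℚ) :
    EffFun (fun x => g ((α : ℝ) * x + (β : ℝ))) := by
  have hs := hg.smooth
  obtain ⟨A, hA, hA'⟩ := hg.values
  obtain ⟨B, hB, hB'⟩ := hg.bound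
  have hs' : ContDiff ℝ ∞ (fun x => g ((α : ℝ) * x + (β : ℝ))) :=
    hs.comp ((contDiff_const.mul contDiff_id).add contDiff_const)
  have hder : ∀ (m : ℕ) (x : ℝ), iteratedDeriv m (fun x => g ((α : ℝ) * x + (β : ℝ))) x =
      (α : ℝ) ^ m * iteratedDeriv m g ((α : ℝ) * x + (β : ℝ)) := by
    intro m x
    have h1 : ContDiff ℝ m (fun y => g (y + (β : ℝ))) :=
      (hs.comp (contDiff_id.add contDiff_const)).of_le (by exact_mod_cast le_top)
    have := iteratedDeriv_comp_const_mul h1 (α : ℝ)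
    have h2 := congrFun this x
    rw [h2, iteratedDeriv_comp_add_const]
  refine EffFun.of_values hs' (A := fun p => A (α * p.1 + β, p.2)) ?_ ?_
    (B := fun m => ⌈|α|⌉₊ ^ m * B m) ?_ ?_
  · refine hA.comp (Computable.pair ?_ Computable.snd)
    exact computable_qadd.comp (computable_qmul.comp (Computable.const α) Computable.fst)
      (Computable.const β)
  · intro q n
    have := hA' (α * q + β) n
    push_cast at this
    exact this
  · exact computable_natMul.comp (computable_natPow.comp (Computable.const _) Computable.id) hB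
  · intro m x
    rw [hder, abs_mul, abs_pow]
    push_cast
    have h3 : |(α : ℝ)| ≤ (⌈|α|⌉₊ : ℝ) := by
      have h4 : ((|α| : ℚ) : ℝ) ≤ ((⌈|α|⌉₊ : ℕ) : ℝ) := by
        exact_mod_cast Nat.le_ceil (|α|)
      simpa using h4
    exact mul_le_mul (pow_le_pow_left₀ (abs_nonneg _) h3 m) (hB' m _) (abs_nonneg _) (by positivity)

theorem mul {f g : ℝ → ℝ} (hf : EffFun f) (hg : EffFun g) :
    EffFun (fun x => f x * g x) := by
  have hfs := hf.smooth
  have hgs := hg.smooth
  obtain ⟨Af, hAf, hAf'⟩ := hf.values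
  obtain ⟨Ag, hAg, hAg'⟩ := hg.values
  obtain ⟨Bf, hBf, hBf'⟩ := hf.bound
  obtain ⟨Bg, hBg, hBg'⟩ := hg.bound
  set K : ℕ := Bf 0 + Bg 0 + 1 with hK
  have hKr : ((K : ℕ) : ℝ) = (Bf 0 : ℝ) + (Bg 0 : ℝ) + 1 := by rw [hK]; push_cast; ring
  refine EffFun.of_values (hfs.mul hgs)
    (A := fun p => Af (p.1, K * (p.2 + 1)) * Ag (p.1, K * (p.2 + 1))) ?_ ?_
    (B := fun m => ∑ i ∈ range (m + 1), m.choose i * (Bf i * Bg (m - i))) ?_ ?_
  · have h1 : Computable (fun p : ℚ × ℕ => K * (p.2 + 1)) :=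
      computable_natMul.comp (Computable.const K) (Computable.succ.comp Computable.snd)
    exact computable_qmul.comp (hAf.comp (Computable.pair Computable.fst h1))
      (hAg.comp (Computable.pair Computable.fst h1))
  · intro q n
    set N : ℕ := K * (n + 1) with hN
    have hNr : ((N : ℕ) : ℝ) = (K : ℝ) * ((n : ℝ) + 1) := by rw [hN]; push_cast; ring
    have h1 := hAf' q N
    have h2 := hAg' q N
    have hKpos : (0 : ℝ) < (K : ℝ) := by rw [hKr]; positivity
    have hn1 : (0 : ℝ) < (n : ℝ) + 1 := by positivity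
    have hε : 1 / ((N : ℝ) + 1) ≤ 1 / ((K : ℝ) * ((n : ℝ) + 1)) := by
      rw [hNr]
      apply one_div_le_one_div_of_le (by positivity)
      linarith
    set ε : ℝ := 1 / ((N : ℝ) + 1) with hεdef
    have hε0 : 0 ≤ ε := by positivity
    have hf0 := hBf' 0 q
    have hg0 := hBg' 0 q
    simp only [iteratedDeriv_zero] at hf0 hg0
    have h3 : |f q * g q - (Af (q, N) : ℝ) * (Ag (q, N) : ℝ)| ≤ (K : ℝ) * ε := by
      have h4 : f q * g q - (Af (q, N) : ℝ) * (Ag (q, N) : ℝ) =
          f q * (g q - Ag (q, N)) + (f q - Af (q, N)) * g q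
            - (f q - Af (q, N)) * (g q - Ag (q, N)) := by ring
      have h5 : ε ≤ 1 := by
        rw [hεdef]
        apply (div_le_one (by positivity)).mpr
        have : (0 : ℝ) ≤ (N : ℝ) := by positivity
        linarith
      rw [h4]
      refine (abs_sub _ _).trans ?_
      refine (add_le_add (abs_add_le _ _) le_rfl).trans ?_
      rw [abs_mul, abs_mul, abs_mul]
      have h6 : |f q| * |g q - Ag (q, N)| ≤ (Bf 0 : ℝ) * ε :=
        mul_le_mul hf0 h2 (abs_nonneg _) (by positivity)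
      have h7 : |f q - Af (q, N)| * |g q| ≤ ε * (Bg 0 : ℝ) :=
        mul_le_mul h1 hg0 (abs_nonneg _) hε0
      have h8 : |f q - Af (q, N)| * |g q - Ag (q, N)| ≤ ε * 1 :=
        mul_le_mul h1 (h2.trans h5) (abs_nonneg _) hε0
      rw [hKr]
      nlinarith
    push_cast
    refine h3.trans ?_
    calc (K : ℝ) * ε ≤ (K : ℝ) * (1 / ((K : ℝ) * ((n : ℝ) + 1))) :=
          mul_le_mul_of_nonneg_left hε hKpos.le
      _ = 1 / ((n : ℝ) + 1) := by field_simp
  · refine computable_sum computable_natAdd (Computable.succ) ?_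
    refine computable_natMul.comp ?_ ?_
    · exact primrec_choose.to_comp.comp Computable.fst Computable.snd
    · refine computable_natMul.comp (hBf.comp Computable.snd) ?_
      exact hBg.comp (Primrec.nat_sub.to_comp.comp Computable.fst Computable.snd)
  · intro m x
    have h1 : ContDiffAt ℝ m f x := (hfs.of_le (by exact_mod_cast le_top)).contDiffAt
    have h2 : ContDiffAt ℝ m g x := (hgs.of_le (by exact_mod_cast le_top)).contDiffAt
    rw [iteratedDeriv_fun_mul h1 h2]
    push_cast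
    refine (Finset.abs_sum_le_sum_abs _ _).trans (Finset.sum_le_sum fun i _ => ?_)
    rw [abs_mul, abs_mul, Nat.abs_cast, mul_assoc]
    apply mul_le_mul_of_nonneg_left _ (by positivity)
    exact mul_le_mul (hBf' i x) (hBg' _ x) (abs_nonneg _) (by positivity)

/-- `(x - m) * P x` for `P` vanishing for `|x| > R`. -/
theorem linear_mul {P : ℝ → ℝ} (hP : EffFun P) (m R : ℚ)
    (hsupp : ∀ x : ℝ, (R : ℝ) < |x| → P x = 0) :
    EffFun (fun x => (x - (m : ℝ)) * P x) := by
  have hs := hP.smooth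
  obtain ⟨A, hA, hA'⟩ := hP.values
  obtain ⟨B, hB, hB'⟩ := hP.bound
  -- derivatives vanish off the support
  have hzero : ∀ (k : ℕ) (x : ℝ), (R : ℝ) < |x| → iteratedDeriv k P x = 0 := by
    intro k x hx
    have hopen : IsOpen {y : ℝ | (R : ℝ) < |y|} := isOpen_lt continuous_const continuous_abs
    have h1 : Set.EqOn P (fun _ => (0 : ℝ)) {y : ℝ | (R : ℝ) < |y|} := fun y hy => hsupp y hy
    have h2 := h1.iteratedDeriv_of_isOpen hopen k hx
    rw [h2]
    simp
  have hs' : ContDiff ℝ ∞ (fun x => (x - (m : ℝ)) * P x) :=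
    (contDiff_id.sub contDiff_const).mul hs
  have hder : ∀ (k : ℕ) (x : ℝ), iteratedDeriv k (fun x => (x - (m : ℝ)) * P x) x =
      (x - (m : ℝ)) * iteratedDeriv k P x + (k : ℝ) * iteratedDeriv (k - 1) P x := by
    intro k
    induction k with
    | zero => intro x; simp
    | succ k ih =>
      intro x
      rw [iteratedDeriv_succ]
      have h1 : iteratedDeriv k (fun x => (x - (m : ℝ)) * P x) =
          fun x => (x - (m : ℝ)) * iteratedDeriv k P x + (k : ℝ) * iteratedDeriv (k - 1) P x :=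
        funext ih
      rw [h1]
      have h2 : HasDerivAt (fun x => (x - (m : ℝ)) * iteratedDeriv k P x +
          (k : ℝ) * iteratedDeriv (k - 1) P x)
          ((1 - 0) * iteratedDeriv k P x + (x - (m : ℝ)) * iteratedDeriv (k + 1) P x +
            (k : ℝ) * deriv (iteratedDeriv (k - 1) P) x) x := by
        have h3 := ((hasDerivAt_id x).sub (hasDerivAt_const x (m : ℝ))).mul
          (hasDerivAt_iteratedDeriv hs k x)
        have h4 : HasDerivAt (iteratedDeriv (k - 1) P) (deriv (iteratedDeriv (k - 1) P) x) x :=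
          (hasDerivAt_iteratedDeriv hs (k - 1) x).differentiableAt.hasDerivAt
        exact h3.add (h4.const_mul (k : ℝ))
      rw [h2.deriv]
      cases k with
      | zero => simp; ring
      | succ k =>
        simp only [Nat.add_sub_cancel]
        rw [← iteratedDeriv_succ]
        push_cast
        ring
  set K : ℕ := ⌈|R|⌉₊ + ⌈|m|⌉₊ + 1 with hK
  have hKr : ((K : ℕ) : ℝ) = (⌈|R|⌉₊ : ℝ) + (⌈|m|⌉₊ : ℝ) + 1 := by rw [hK]; push_cast; ring
  have hceil : ∀ r : ℚ, |(r : ℝ)| ≤ (⌈|r|⌉₊ : ℝ) := by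
    intro r
    have h4 : ((|r| : ℚ) : ℝ) ≤ ((⌈|r|⌉₊ : ℕ) : ℝ) := by
      exact_mod_cast Nat.le_ceil (|r|)
    simpa using h4
  have hsub : ∀ (k : ℕ) (x : ℝ), |x - (m : ℝ)| * |iteratedDeriv k P x| ≤ (K : ℝ) * (B k : ℝ) := by
    intro k x
    by_cases hx : (R : ℝ) < |x|
    · rw [hzero k x hx]
      simpa using mul_nonneg (Nat.cast_nonneg K) (Nat.cast_nonneg (B k))
    · have h1 : |x - (m : ℝ)| ≤ (K : ℝ) := by
        refine (abs_sub _ _).trans ?_
        rw [hKr]
        have h2 := hceil R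
        have h3 := hceil m
        have h4 : |x| ≤ (⌈|R|⌉₊ : ℝ) := (not_lt.mp hx).trans ((le_abs_self _).trans h2)
        linarith
      exact mul_le_mul h1 (hB' k x) (abs_nonneg _) (by positivity)
  refine EffFun.of_values hs' (A := fun p => (p.1 - m) * A (p.1, (⌈|p.1|⌉₊ + ⌈|m|⌉₊ + 1) * (p.2 + 1))) ?_ ?_
    (B := fun k => K * B k + k * B (k - 1)) ?_ ?_
  · refine computable_qmul.comp (computable_qsub.comp Computable.fst (Computable.const m)) ?_
    refine hA.comp (Computable.pair Computable.fst ?_)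
    refine computable_natMul.comp ?_ (Computable.succ.comp Computable.snd)
    refine Computable.succ.comp (computable_natAdd.comp ?_ (Computable.const _))
    refine primrec_ceil.to_comp.comp ?_
    exact primrec_qabs.to_comp.comp Computable.fst
  · intro q n
    set N : ℕ := (⌈|q|⌉₊ + ⌈|m|⌉₊ + 1) * (n + 1) with hN
    have hK0 : (0 : ℝ) < (⌈|q|⌉₊ : ℝ) + (⌈|m|⌉₊ : ℝ) + 1 := by positivity
    have hn1 : (0 : ℝ) < (n : ℝ) + 1 := by positivity
    have hNr : ((N : ℕ) : ℝ) = ((⌈|q|⌉₊ : ℝ) + (⌈|m|⌉₊ : ℝ) + 1) * ((n : ℝ) + 1) := by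
      rw [hN]; push_cast; ring
    have h1 := hA' q N
    have h2 : |(q : ℝ) - (m : ℝ)| ≤ (⌈|q|⌉₊ : ℝ) + (⌈|m|⌉₊ : ℝ) + 1 := by
      refine (abs_sub _ _).trans ?_
      have := hceil q
      have := hceil m
      linarith
    have h3 : 1 / ((N : ℝ) + 1) ≤ 1 / (((⌈|q|⌉₊ : ℝ) + (⌈|m|⌉₊ : ℝ) + 1) * ((n : ℝ) + 1)) := by
      rw [hNr]
      apply one_div_le_one_div_of_le (by positivity)
      linarith
    have h4 : ((q : ℝ) - (m : ℝ)) * P q - (((q - m) * A (q, N) : ℚ) : ℝ) =
        ((q : ℝ) - (m : ℝ)) * (P q - A (q, N)) := by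
      push_cast; ring
    simp only []
    rw [h4, abs_mul]
    calc |(q : ℝ) - (m : ℝ)| * |P q - (A (q, N) : ℝ)|
        ≤ ((⌈|q|⌉₊ : ℝ) + (⌈|m|⌉₊ : ℝ) + 1) *
            (1 / (((⌈|q|⌉₊ : ℝ) + (⌈|m|⌉₊ : ℝ) + 1) * ((n : ℝ) + 1))) :=
          mul_le_mul h2 (h1.trans h3) (abs_nonneg _) hK0.le
      _ = 1 / ((n : ℝ) + 1) := by field_simp
  · refine computable_natAdd.comp (computable_natMul.comp (Computable.const K) hB) ?_
    refine computable_natMul.comp Computable.id (hB.comp ?_)
    exact Primrec.nat_sub.to_comp.comp Computable.id (Computable.const 1)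
  · intro k x
    rw [hder]
    refine (abs_add_le _ _).trans ?_
    rw [abs_mul, abs_mul, Nat.abs_cast]
    push_cast
    exact add_le_add (hsub k x) (mul_le_mul_of_nonneg_left (hB' _ x) (by positivity))

end EffFun

end Crest.Agent.S0170Lib
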