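/-
S0170 library: `Real.smoothTransition` is effective (helper34).
Values by the exponential series; derivatives bounded via the representation of the derivatives on
`(0,1)` as combinations of monomials `s^a (1-s)^b x⁻¹^d (1-x)⁻¹^e`.
-/
import Crest.Agent.S0170Lib.EffBasics

set_option autoImplicit false

open scoped ContDiff Nat
open Finset

namespace Crest.Agent.S0170Lib

local notation "𝒮" => Real.smoothTransition

theorem st_eq {x : ℝ} (h0 : 0 < x) (h1 : x < 1) :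
    𝒮 x = (1 + Real.exp (x⁻¹ - (1 - x)⁻¹))⁻¹ := by
  unfold Real.smoothTransition expNegInvGlue
  have h2 : ¬ x ≤ 0 := not_le.mpr h0
  have h3 : ¬ (1 - x) ≤ 0 := not_le.mpr (by linarith)
  simp only [h2, h3, if_false]
  have h4 : Real.exp (x⁻¹ - (1 - x)⁻¹) = Real.exp (-(1 - x)⁻¹) / Real.exp (-x⁻¹) := by
    rw [← Real.exp_sub]; congr 1; ring
  rw [h4]
  have h5 := Real.exp_pos (-x⁻¹)
  have h6 := Real.exp_pos (-(1 - x)⁻¹)
  field_simp

theorem st_deriv {x : ℝ} (h0 : 0 < x) (h1 : x < 1) :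
    HasDerivAt 𝒮 (𝒮 x * (1 - 𝒮 x) * (x⁻¹ ^ 2 + (1 - x)⁻¹ ^ 2)) x := by
  have hx : x ≠ 0 := h0.ne'
  have hx1 : 1 - x ≠ 0 := by linarith
  have hinv : HasDerivAt (fun y : ℝ => y⁻¹) (-(x ^ 2)⁻¹) x := hasDerivAt_inv hx
  have hinv1 : HasDerivAt (fun y : ℝ => (1 - y)⁻¹) (((1 - x) ^ 2)⁻¹) x := by
    have h2 : HasDerivAt (fun y : ℝ => 1 - y) (-1) x := by
      simpa using (hasDerivAt_id x).const_sub 1
    have h3 := h2.inv hx1
    refine h3.congr_deriv ?_
    simp
  have hy := hinv.sub hinv1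
  have hexp := hy.exp
  have hden : HasDerivAt (fun y : ℝ => 1 + Real.exp (y⁻¹ - (1 - y)⁻¹))
      (Real.exp (x⁻¹ - (1 - x)⁻¹) * (-(x ^ 2)⁻¹ - ((1 - x) ^ 2)⁻¹)) x := by
    simpa using hexp.const_add 1
  have hpos : (0 : ℝ) < 1 + Real.exp (x⁻¹ - (1 - x)⁻¹) := by positivity
  have h4 := hden.inv hpos.ne'
  have h5 : 𝒮 =ᶠ[nhds x] fun y : ℝ => (1 + Real.exp (y⁻¹ - (1 - y)⁻¹))⁻¹ := by
    filter_upwards [Ioo_mem_nhds h0 h1] with y hy
    exact st_eq hy.1 hy.2
  have h6 := h4.congr_of_eventuallyEq h5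
  refine h6.congr_deriv ?_
  rw [st_eq h0 h1]
  generalize Real.exp (x⁻¹ - (1 - x)⁻¹) = E at hpos
  field_simp
  ring

/-- The monomials. -/
noncomputable def stMono (a b d e : ℕ) (x : ℝ) : ℝ :=
  𝒮 x ^ a * (1 - 𝒮 x) ^ b * x⁻¹ ^ d * (1 - x)⁻¹ ^ e

theorem stMono_deriv (a b d e : ℕ) {x : ℝ} (h0 : 0 < x) (h1 : x < 1) :
    HasDerivAt (stMono a b d e)
      ((a : ℝ) * stMono a (b + 1) (d + 2) e x + (a : ℝ) * stMono a (b + 1) d (e + 2) x
        + (-(b : ℝ)) * stMono (a + 1) b (d + 2) e x + (-(b : ℝ)) * stMono (a + 1) b d (e + 2) x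
        + (-(d : ℝ)) * stMono a b (d + 1) e x + (e : ℝ) * stMono a b d (e + 1) x) x := by
  have hx : x ≠ 0 := h0.ne'
  have hx1 : 1 - x ≠ 0 := by linarith
  have hs := st_deriv h0 h1
  have hu : HasDerivAt (fun y : ℝ => y⁻¹) (-(x⁻¹ ^ 2)) x := by
    have := hasDerivAt_inv hx
    refine this.congr_deriv ?_
    rw [inv_pow]
  have hv : HasDerivAt (fun y : ℝ => (1 - y)⁻¹) ((1 - x)⁻¹ ^ 2) x := by
    have h2 : HasDerivAt (fun y : ℝ => 1 - y) (-1) x := by
      simpa using (hasDerivAt_id x).const_sub 1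
    have h3 := h2.inv hx1
    refine h3.congr_deriv ?_
    simp
  have ht : HasDerivAt (fun y : ℝ => 1 - 𝒮 y)
      (-(𝒮 x * (1 - 𝒮 x) * (x⁻¹ ^ 2 + (1 - x)⁻¹ ^ 2))) x := hs.const_sub 1
  have h := (((hs.pow a).mul (ht.pow b)).mul (hu.pow d)).mul (hv.pow e)
  unfold stMono
  refine h.congr_deriv ?_
  simp only [Pi.mul_apply, Pi.pow_apply]
  generalize 𝒮 x = S
  generalize x⁻¹ = U
  generalize (1 - x)⁻¹ = V
  cases a <;> cases b <;> cases d <;> cases e <;>
    simp only [Nat.add_sub_cancel, Nat.cast_add, Nat.cast_one, Nat.cast_zero, zero_mul,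
      pow_zero, add_zero, zero_add, mul_one, one_mul, neg_zero, mul_zero] <;> ring

/-- The constants of the bounds. -/
def stC (D : ℕ) : ℕ := 8 * 2 ^ D * D !

theorem exp_two_le_eight : Real.exp 2 ≤ 8 := by
  have h : Real.exp 2 = Real.exp 1 ^ 2 := by
    rw [← Real.exp_nat_mul]; norm_num
  rw [h]
  have h1 := Real.exp_one_lt_d9
  have h2 := Real.exp_pos 1
  nlinarith

theorem st_mono_bound_aux (d e : ℕ) {U V : ℝ} (hU : 0 < U) (hV0 : 0 ≤ V) (hV : V ≤ 2) :
    Real.exp (-(U - V)) * U ^ d * V ^ e ≤ (stC (d + e) : ℝ) := by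
  have h1 : U ^ d / (d ! : ℝ) ≤ Real.exp U := Real.pow_div_factorial_le_exp U hU.le d
  have hd : (0 : ℝ) < (d ! : ℝ) := by positivity
  have h2 : U ^ d ≤ Real.exp U * (d ! : ℝ) := (div_le_iff₀ hd).mp h1
  have h3 : V ^ e ≤ 2 ^ e := pow_le_pow_left₀ hV0 hV e
  have h4 : Real.exp (-(U - V)) = Real.exp V * Real.exp (-U) := by
    rw [← Real.exp_add]; congr 1; ring
  have h5 : Real.exp V ≤ 8 := (Real.exp_le_exp.mpr hV).trans exp_two_le_eight
  have h6 : Real.exp (-U) * Real.exp U = 1 := by rw [← Real.exp_add]; simp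
  have h7 : Real.exp (-U) * U ^ d ≤ (d ! : ℝ) := by
    calc Real.exp (-U) * U ^ d ≤ Real.exp (-U) * (Real.exp U * (d ! : ℝ)) :=
          mul_le_mul_of_nonneg_left h2 (Real.exp_pos _).le
      _ = (d ! : ℝ) := by rw [← mul_assoc, h6, one_mul]
  unfold stC
  push_cast
  rw [h4]
  have h8 : (d ! : ℝ) ≤ ((d + e)! : ℝ) := by
    exact_mod_cast Nat.factorial_le (Nat.le_add_right d e)
  have h9 : (2 : ℝ) ^ e ≤ 2 ^ (d + e) := by
    exact pow_le_pow_right₀ (by norm_num) (Nat.le_add_left e d)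
  calc Real.exp V * Real.exp (-U) * U ^ d * V ^ e
      = Real.exp V * (Real.exp (-U) * U ^ d) * V ^ e := by ring
    _ ≤ 8 * (d ! : ℝ) * 2 ^ e := by
        apply mul_le_mul _ h3 (pow_nonneg hV0 e) (by positivity)
        apply mul_le_mul h5 h7 _ (by norm_num)
        exact mul_nonneg (Real.exp_pos _).le (pow_nonneg hU.le d)
    _ ≤ 8 * ((d + e)! : ℝ) * 2 ^ (d + e) := by
        apply mul_le_mul _ h9 (by positivity) (by positivity)
        apply mul_le_mul_of_nonneg_left h8 (by norm_num)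
    _ = 8 * 2 ^ (d + e) * ((d + e)! : ℝ) := by ring

theorem stMono_bound {a b d e : ℕ} (ha : 1 ≤ a) (hb : 1 ≤ b) {x : ℝ} (h0 : 0 < x) (h1 : x < 1) :
    |stMono a b d e x| ≤ (stC (d + e) : ℝ) := by
  have hs0 : 0 < 𝒮 x := Real.smoothTransition.pos_of_pos h0
  have hs1 : 𝒮 x < 1 := Real.smoothTransition.lt_one_of_lt_one h1
  have ht0 : 0 < 1 - 𝒮 x := by linarith
  have hu : 0 < x⁻¹ := inv_pos.mpr h0
  have hv : 0 < (1 - x)⁻¹ := inv_pos.mpr (by linarith)
  have hnn : 0 ≤ stMono a b d e x := by unfold stMono; positivity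
  rw [abs_of_nonneg hnn]
  have hE := Real.exp_pos (x⁻¹ - (1 - x)⁻¹)
  have hS := st_eq h0 h1
  -- simplify the powers of s and t
  have hsa : 𝒮 x ^ a ≤ 𝒮 x := by
    calc 𝒮 x ^ a ≤ 𝒮 x ^ 1 := pow_le_pow_of_le_one hs0.le hs1.le ha
      _ = 𝒮 x := pow_one _
  have htb : (1 - 𝒮 x) ^ b ≤ 1 - 𝒮 x := by
    calc (1 - 𝒮 x) ^ b ≤ (1 - 𝒮 x) ^ 1 := pow_le_pow_of_le_one ht0.le (by linarith) hb
      _ = 1 - 𝒮 x := pow_one _
  have hmain : stMono a b d e x ≤ 𝒮 x * (1 - 𝒮 x) * (x⁻¹ ^ d * (1 - x)⁻¹ ^ e) := by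
    unfold stMono
    have : 𝒮 x ^ a * (1 - 𝒮 x) ^ b ≤ 𝒮 x * (1 - 𝒮 x) := mul_le_mul hsa htb (by positivity) hs0.le
    calc _ = 𝒮 x ^ a * (1 - 𝒮 x) ^ b * (x⁻¹ ^ d * (1 - x)⁻¹ ^ e) := by ring
      _ ≤ _ := mul_le_mul_of_nonneg_right this (by positivity)
  refine hmain.trans ?_
  rcases le_total x (1 / 2) with hx | hx
  · -- `s ≤ exp (-(u - v))`, `v ≤ 2`
    have hv2 : (1 - x)⁻¹ ≤ 2 := by
      rw [inv_le_comm₀ (by linarith) (by norm_num)]
      linarith
    have h2 := st_mono_bound_aux d e hu hv.le hv2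
    have h3 : 𝒮 x ≤ Real.exp (-(x⁻¹ - (1 - x)⁻¹)) := by
      rw [hS, Real.exp_neg]
      apply inv_anti₀ hE
      linarith
    calc 𝒮 x * (1 - 𝒮 x) * (x⁻¹ ^ d * (1 - x)⁻¹ ^ e)
        ≤ Real.exp (-(x⁻¹ - (1 - x)⁻¹)) * 1 * (x⁻¹ ^ d * (1 - x)⁻¹ ^ e) := by
          apply mul_le_mul_of_nonneg_right _ (by positivity)
          exact mul_le_mul h3 (by linarith) ht0.le (Real.exp_pos _).le
      _ = Real.exp (-(x⁻¹ - (1 - x)⁻¹)) * x⁻¹ ^ d * (1 - x)⁻¹ ^ e := by ring
      _ ≤ _ := h2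
  · have hu2 : x⁻¹ ≤ 2 := by
      rw [inv_le_comm₀ h0 (by norm_num)]
      linarith
    have h2 := st_mono_bound_aux e d hv hu.le hu2
    have h3 : 1 - 𝒮 x ≤ Real.exp (-((1 - x)⁻¹ - x⁻¹)) := by
      rw [hS]
      have h4 : -((1 - x)⁻¹ - x⁻¹) = x⁻¹ - (1 - x)⁻¹ := by ring
      rw [h4]
      generalize Real.exp (x⁻¹ - (1 - x)⁻¹) = E at hE
      have h5 : 1 - (1 + E)⁻¹ = E / (1 + E) := by field_simp; ring
      rw [h5]
      exact div_le_self hE.le (by linarith)
    have h6 : e + d = d + e := Nat.add_comm e d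
    rw [h6] at h2
    calc 𝒮 x * (1 - 𝒮 x) * (x⁻¹ ^ d * (1 - x)⁻¹ ^ e)
        ≤ 1 * Real.exp (-((1 - x)⁻¹ - x⁻¹)) * (x⁻¹ ^ d * (1 - x)⁻¹ ^ e) := by
          apply mul_le_mul_of_nonneg_right _ (by positivity)
          exact mul_le_mul hs1.le h3 ht0.le (by norm_num)
      _ = Real.exp (-((1 - x)⁻¹ - x⁻¹)) * (1 - x)⁻¹ ^ e * x⁻¹ ^ d := by ring
      _ ≤ _ := h2

/-- Combinations of monomials with `ℓ¹` weight at most `W`. -/
inductive StRep (A D : ℕ) : ℝ → (ℝ → ℝ) → Prop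
  | zero : StRep A D 0 (fun _ => 0)
  | mono (c : ℝ) (a b d e : ℕ) (ha : 1 ≤ a) (hb : 1 ≤ b) (hab : a + b ≤ A) (hde : d + e ≤ D) :
      StRep A D |c| (fun x => c * stMono a b d e x)
  | add {W W' : ℝ} {f g : ℝ → ℝ} : StRep A D W f → StRep A D W' g →
      StRep A D (W + W') (fun x => f x + g x)
  | weaken {W W' : ℝ} {f : ℝ → ℝ} : StRep A D W f → W ≤ W' → StRep A D W' f

theorem stC_mono {D D' : ℕ} (h : D ≤ D') : stC D ≤ stC D' := by
  unfold stC
  apply Nat.mul_le_mul (Nat.mul_le_mul_left 8 (Nat.pow_le_pow_right (by norm_num) h))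
  exact Nat.factorial_le h

theorem StRep.bound {A D : ℕ} {W : ℝ} {f : ℝ → ℝ} (hf : StRep A D W f) {x : ℝ} (h0 : 0 < x)
    (h1 : x < 1) : |f x| ≤ W * (stC D : ℝ) := by
  induction hf with
  | zero => simp
  | mono c a b d e ha hb hab hde =>
    rw [abs_mul]
    apply mul_le_mul_of_nonneg_left _ (abs_nonneg _)
    refine (stMono_bound ha hb h0 h1).trans ?_
    exact_mod_cast stC_mono hde
  | add _ _ ih1 ih2 =>
    refine (abs_add_le _ _).trans ?_
    rw [add_mul]
    exact add_le_add ih1 ih2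
  | weaken _ hle ih =>
    exact ih.trans (mul_le_mul_of_nonneg_right hle (by positivity))

theorem StRep.nonneg {A D : ℕ} {W : ℝ} {f : ℝ → ℝ} (hf : StRep A D W f) : 0 ≤ W := by
  induction hf with
  | zero => exact le_rfl
  | mono c a b d e ha hb hab hde => exact abs_nonneg _
  | add _ _ ih1 ih2 => exact add_nonneg ih1 ih2
  | weaken _ hle ih => exact ih.trans hle

theorem StRep.deriv_rep {A D : ℕ} {W : ℝ} {f : ℝ → ℝ} (hf : StRep A D W f) :
    ∃ f' : ℝ → ℝ, StRep (A + 1) (D + 2) (W * ((2 * A + D : ℕ) : ℝ)) f' ∧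
      ∀ x, 0 < x → x < 1 → HasDerivAt f (f' x) x := by
  induction hf with
  | zero =>
    refine ⟨fun _ => 0, ?_, fun x _ _ => hasDerivAt_const x 0⟩
    simpa using StRep.zero
  | @mono c a b d e ha hb hab hde =>
    refine ⟨fun x => c * ((a : ℝ) * stMono a (b + 1) (d + 2) e x + (a : ℝ) * stMono a (b + 1) d (e + 2) x
        + (-(b : ℝ)) * stMono (a + 1) b (d + 2) e x + (-(b : ℝ)) * stMono (a + 1) b d (e + 2) x
        + (-(d : ℝ)) * stMono a b (d + 1) e x + (e : ℝ) * stMono a b d (e + 1) x), ?_, ?_⟩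
    · have h1 := StRep.mono (A := A + 1) (D := D + 2) (c * a) a (b + 1) (d + 2) e ha (by omega) (by omega) (by omega)
      have h2 := StRep.mono (A := A + 1) (D := D + 2) (c * a) a (b + 1) d (e + 2) ha (by omega) (by omega) (by omega)
      have h3 := StRep.mono (A := A + 1) (D := D + 2) (c * (-(b : ℝ))) (a + 1) b (d + 2) e (by omega) hb (by omega) (by omega)
      have h4 := StRep.mono (A := A + 1) (D := D + 2) (c * (-(b : ℝ))) (a + 1) b d (e + 2) (by omega) hb (by omega) (by omega)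
      have h5 := StRep.mono (A := A + 1) (D := D + 2) (c * (-(d : ℝ))) a b (d + 1) e ha hb (by omega) (by omega)
      have h6 := StRep.mono (A := A + 1) (D := D + 2) (c * (e : ℝ)) a b d (e + 1) ha hb (by omega) (by omega)
      have h7 := (((((h1.add h2).add h3).add h4).add h5).add h6)
      refine StRep.weaken (W := (|c * ↑a| + |c * ↑a| + |c * -↑b| + |c * -↑b| + |c * -↑d| + |c * ↑e|)) ?_ ?_
      · convert h7 using 1
        funext x
        ring
      · simp only [abs_mul, abs_neg, Nat.abs_cast]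
        have h8 : (2 * (a : ℝ) + 2 * b + d + e) ≤ ((2 * A + D : ℕ) : ℝ) := by
          have : 2 * a + 2 * b + d + e ≤ 2 * A + D := by omega
          exact_mod_cast this
        have h9 := mul_le_mul_of_nonneg_left h8 (abs_nonneg c)
        nlinarith
    · intro x h0 h1
      exact (stMono_deriv a b d e h0 h1).const_mul c
  | add _ _ ih1 ih2 =>
    obtain ⟨f1, hf1, hd1⟩ := ih1
    obtain ⟨f2, hf2, hd2⟩ := ih2
    refine ⟨fun x => f1 x + f2 x, ?_, fun x h0 h1 => (hd1 x h0 h1).add (hd2 x h0 h1)⟩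
    rw [add_mul]
    exact hf1.add hf2
  | weaken _ hle ih =>
    obtain ⟨f1, hf1, hd1⟩ := ih
    exact ⟨f1, hf1.weaken (mul_le_mul_of_nonneg_right hle (by positivity)), hd1⟩

/-- The weights of the derivatives. -/
def stW : ℕ → ℕ
  | 0 => 2
  | k + 1 => stW k * (2 * (k + 2) + (2 * k + 2))

theorem st_iter_rep (k : ℕ) : ∃ f : ℝ → ℝ, StRep (k + 2) (2 * k + 2) (stW k : ℝ) f ∧
    ∀ x, 0 < x → x < 1 → iteratedDeriv (k + 1) 𝒮 x = f x := by
  induction k with
  | zero =>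
    refine ⟨fun x => (1 : ℝ) * stMono 1 1 2 0 x + (1 : ℝ) * stMono 1 1 0 2 x, ?_, ?_⟩
    · have h1 := StRep.mono (A := 0 + 2) (D := 2 * 0 + 2) (1 : ℝ) 1 1 2 0 le_rfl le_rfl (by omega) (by omega)
      have h2 := StRep.mono (A := 0 + 2) (D := 2 * 0 + 2) (1 : ℝ) 1 1 0 2 le_rfl le_rfl (by omega) (by omega)
      have h3 := h1.add h2
      simp only [abs_one] at h3
      refine h3.weaken (by simp [stW]; norm_num)
    · intro x h0 h1
      rw [iteratedDeriv_one, (st_deriv h0 h1).deriv]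
      unfold stMono
      ring
  | succ k ih =>
    obtain ⟨f, hf, hfd⟩ := ih
    obtain ⟨f', hf', hd⟩ := hf.deriv_rep
    refine ⟨f', ?_, ?_⟩
    · have h1 : (k + 1 + 2) = (k + 2 + 1) := by omega
      have h2 : (2 * (k + 1) + 2) = (2 * k + 2 + 2) := by omega
      rw [h1, h2]
      convert hf' using 1
      simp only [stW]
      push_cast
      ring
    · intro x h0 h1
      rw [iteratedDeriv_succ]
      have h2 : iteratedDeriv (k + 1) 𝒮 =ᶠ[nhds x] f := by
        filter_upwards [Ioo_mem_nhds h0 h1] with y hy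
        exact hfd y hy.1 hy.2
      rw [h2.deriv_eq]
      exact (hd x h0 h1).deriv

/-- The bounds of the derivatives. -/
def stB : ℕ → ℕ
  | 0 => 1
  | k + 1 => stW k * stC (2 * k + 2)

theorem st_smooth : ContDiff ℝ ∞ 𝒮 := Real.smoothTransition.contDiff

theorem st_bound (k : ℕ) (x : ℝ) : |iteratedDeriv k 𝒮 x| ≤ (stB k : ℝ) := by
  cases k with
  | zero =>
    simp only [iteratedDeriv_zero, stB, Nat.cast_one]
    rw [abs_of_nonneg (Real.smoothTransition.nonneg x)]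
    exact Real.smoothTransition.le_one x
  | succ k =>
    obtain ⟨f, hf, hfd⟩ := st_iter_rep k
    have hcont : Continuous (iteratedDeriv (k + 1) 𝒮) :=
      st_smooth.continuous_iteratedDeriv (k + 1) (by exact_mod_cast le_top)
    have hclosed : IsClosed {y : ℝ | |iteratedDeriv (k + 1) 𝒮 y| ≤ (stB (k + 1) : ℝ)} :=
      isClosed_le hcont.abs continuous_const
    have hdense : Dense ({0, 1} : Set ℝ)ᶜ :=
      Set.Countable.dense_compl ℝ (Set.toFinite _).countable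
    have hsub : ({0, 1} : Set ℝ)ᶜ ⊆ {y : ℝ | |iteratedDeriv (k + 1) 𝒮 y| ≤ (stB (k + 1) : ℝ)} := by
      intro y hy
      simp only [Set.mem_compl_iff, Set.mem_insert_iff, Set.mem_singleton_iff, not_or] at hy
      change |iteratedDeriv (k + 1) 𝒮 y| ≤ (stB (k + 1) : ℝ)
      rcases lt_or_gt_of_ne hy.1 with hy0 | hy0
      · -- left of 0
        have h1 : Set.EqOn 𝒮 (fun _ => (0 : ℝ)) (Set.Iio 0) :=
          fun z hz => Real.smoothTransition.zero_of_nonpos (le_of_lt hz)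
        have h2 := h1.iteratedDeriv_of_isOpen isOpen_Iio (k + 1) hy0
        rw [h2]
        simp
      · rcases lt_or_gt_of_ne hy.2 with hy1 | hy1
        · rw [hfd y hy0 hy1]
          have := hf.bound hy0 hy1
          simpa [stB] using this
        · have h1 : Set.EqOn 𝒮 (fun _ => (1 : ℝ)) (Set.Ioi 1) :=
            fun z hz => Real.smoothTransition.one_of_one_le (le_of_lt hz)
          have h2 := h1.iteratedDeriv_of_isOpen isOpen_Ioi (k + 1) hy1
          rw [h2, iteratedDeriv_const]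
          simp
    have h3 := hclosed.closure_subset_iff.mpr hsub
    rw [hdense.closure_eq] at h3
    exact h3 (Set.mem_univ x)

theorem primrec_stW : Primrec stW := by
  have h : Primrec (fun n : ℕ => Nat.rec (motive := fun _ => ℕ) 2
      (fun y IH => IH * (2 * (y + 2) + (2 * y + 2))) n) := by
    refine Primrec.nat_rec₁ 2 ?_
    refine Primrec.nat_mul.comp Primrec.snd ?_
    refine Primrec.nat_add.comp ?_ ?_
    · exact Primrec.nat_mul.comp (Primrec.const 2) (Primrec.nat_add.comp Primrec.fst (Primrec.const 2))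
    · exact Primrec.nat_add.comp (Primrec.nat_mul.comp (Primrec.const 2) Primrec.fst) (Primrec.const 2)
  refine h.of_eq fun n => ?_
  induction n with
  | zero => rfl
  | succ n ih => simp only [stW, ih]

theorem primrec_stC : Primrec stC := by
  unfold stC
  exact Primrec.nat_mul.comp (Primrec.nat_mul.comp (Primrec.const 8)
    (primrec_nat_pow.comp (Primrec.const 2) Primrec.id)) primrec_factorial

theorem primrec_stB : Primrec stB := by
  have h : Primrec (fun n : ℕ => Nat.casesOn (motive := fun _ => ℕ) n 1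
      (fun k => stW k * stC (2 * k + 2))) := by
    refine Primrec.nat_casesOn Primrec.id (Primrec.const 1) ?_
    refine Primrec.nat_mul.comp (primrec_stW.comp Primrec.snd) (primrec_stC.comp ?_)
    exact Primrec.nat_add.comp (Primrec.nat_mul.comp (Primrec.const 2) Primrec.snd) (Primrec.const 2)
  refine h.of_eq fun n => ?_
  cases n <;> rfl

/-! ### Values -/

/-- Partial sums of the exponential series. -/
def expS (y : ℚ) (K : ℕ) : ℚ := ∑ i ∈ range K, y ^ i * ((i ! : ℕ) : ℚ)⁻¹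

theorem computable_expS : Computable₂ expS := by
  unfold expS
  refine computable_sum computable_qadd Computable.snd ?_
  refine computable_qmul.comp ?_ ?_
  · exact primrec_qpow.to_comp.comp (Computable.fst.comp Computable.fst) Computable.snd
  · refine primrec_inv.to_comp.comp (computable_natCast.comp ?_)
    exact primrec_factorial.to_comp.comp Computable.snd

theorem expS_cast (y : ℚ) (K : ℕ) :
    ((expS y K : ℚ) : ℝ) = ∑ i ∈ range K, (y : ℝ) ^ i / (i ! : ℝ) := by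
  unfold expS
  push_cast
  rfl

theorem expS_nonneg {y : ℚ} (hy : 0 ≤ y) (K : ℕ) : 0 ≤ expS y K := by
  unfold expS
  exact Finset.sum_nonneg fun i _ => by positivity

/-- The number of terms. -/
def expK (y : ℚ) (n : ℕ) : ℕ := 4 * ⌈y⌉₊ + n + 2

theorem exp_approx {y : ℚ} (hy : 0 ≤ y) (n : ℕ) :
    |Real.exp (y : ℝ) - (expS y (expK y n) : ℝ)| ≤ 1 / ((n : ℝ) + 1) := by
  set Y : ℕ := ⌈y⌉₊ with hY
  set K : ℕ := expK y n with hK
  have hy0 : (0 : ℝ) ≤ (y : ℝ) := by exact_mod_cast hy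
  have hyY : (y : ℝ) ≤ (Y : ℝ) := by
    have : y ≤ (Y : ℚ) := Nat.le_ceil y
    exact_mod_cast this
  have hKr : (K : ℝ) = 4 * (Y : ℝ) + (n : ℝ) + 2 := by
    rw [hK]; unfold expK; push_cast; ring
  have hn0 : (0 : ℝ) ≤ (n : ℝ) := by positivity
  have hY0 : (0 : ℝ) ≤ (Y : ℝ) := by positivity
  have h1 : ‖Complex.exp ((y : ℝ) : ℂ) - ∑ m ∈ range K, ((y : ℝ) : ℂ) ^ m / (m.factorial : ℂ)‖ ≤
      ‖((y : ℝ) : ℂ)‖ ^ K / K.factorial * 2 := by
    apply Complex.exp_bound'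
    rw [Complex.norm_real, Real.norm_eq_abs, abs_of_nonneg hy0]
    apply (div_le_iff₀ (by positivity)).mpr
    push_cast
    rw [hKr]
    linarith
  have h2 : Complex.exp ((y : ℝ) : ℂ) - ∑ m ∈ range K, ((y : ℝ) : ℂ) ^ m / (m.factorial : ℂ) =
      ((Real.exp (y : ℝ) - ∑ m ∈ range K, (y : ℝ) ^ m / (m ! : ℝ) : ℝ) : ℂ) := by
    push_cast
    rfl
  rw [h2, Complex.norm_real, Real.norm_eq_abs, Complex.norm_real, Real.norm_eq_abs,
    abs_of_nonneg hy0] at h1
  rw [expS_cast]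
  refine h1.trans ?_
  -- the tail
  have h3 : (2 * (y : ℝ)) ^ K / (K ! : ℝ) ≤ Real.exp (2 * (y : ℝ)) :=
    Real.pow_div_factorial_le_exp _ (by positivity) K
  have h4 : Real.exp (2 * (y : ℝ)) ≤ 16 ^ Y := by
    have h5 : Real.exp (2 * (y : ℝ)) ≤ Real.exp (2 * (Y : ℝ)) :=
      Real.exp_le_exp.mpr (by linarith)
    have h6 : Real.exp (2 * (Y : ℝ)) = (Real.exp 2) ^ Y := by
      rw [← Real.exp_nat_mul]; congr 1; ring
    rw [h6] at h5
    refine h5.trans (pow_le_pow_left₀ (Real.exp_pos _).le ?_ Y)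
    exact exp_two_le_eight.trans (by norm_num)
  have hfac : (0 : ℝ) < (K ! : ℝ) := by positivity
  have h7 : (y : ℝ) ^ K / (K ! : ℝ) * 2 ^ K ≤ 16 ^ Y := by
    have : (2 * (y : ℝ)) ^ K / (K ! : ℝ) = (y : ℝ) ^ K / (K ! : ℝ) * 2 ^ K := by
      rw [mul_pow]; ring
    rw [← this]
    exact h3.trans h4
  have h8 : (2 : ℝ) ^ K = 16 ^ Y * 2 ^ n * 4 := by
    have : K = 4 * Y + n + 2 := by rw [hK]; rfl
    rw [this, pow_add, pow_add, pow_mul]
    norm_num
  have h16 : (0 : ℝ) < 16 ^ Y := by positivity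
  have h2n : (0 : ℝ) < 2 ^ n := by positivity
  rw [h8] at h7
  have h9 : (y : ℝ) ^ K / (K ! : ℝ) * 2 ^ n * 4 ≤ 1 := by
    have h10 : (y : ℝ) ^ K / (K ! : ℝ) * (16 ^ Y * 2 ^ n * 4) = 16 ^ Y * ((y : ℝ) ^ K / (K ! : ℝ) * 2 ^ n * 4) := by
      ring
    rw [h10] at h7
    exact le_of_mul_le_mul_left (by simpa using h7) h16
  have h11 : ((n : ℝ) + 1) ≤ 2 ^ n * 2 := by
    have h12 : n + 1 ≤ 2 ^ n * 2 := by
      have := Nat.lt_two_pow_self (n := n)
      omega
    exact_mod_cast h12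
  rw [le_div_iff₀ (by positivity)]
  have h13 : 0 ≤ (y : ℝ) ^ K / (K ! : ℝ) := by positivity
  calc (y : ℝ) ^ K / (K ! : ℝ) * 2 * ((n : ℝ) + 1)
      ≤ (y : ℝ) ^ K / (K ! : ℝ) * 2 * (2 ^ n * 2) := by
        apply mul_le_mul_of_nonneg_left h11 (by positivity)
    _ = (y : ℝ) ^ K / (K ! : ℝ) * 2 ^ n * 4 := by ring
    _ ≤ 1 := h9

/-- The approximation of the values of the smooth transition. -/
def stA (p : ℚ × ℕ) : ℚ :=
  if p.1 ≤ 0 then 0 else if 1 ≤ p.1 then 1 else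
    if 0 ≤ p.1⁻¹ - (1 - p.1)⁻¹ then
      (1 + expS (p.1⁻¹ - (1 - p.1)⁻¹) (expK (p.1⁻¹ - (1 - p.1)⁻¹) p.2))⁻¹
    else 1 - (1 + expS (-(p.1⁻¹ - (1 - p.1)⁻¹)) (expK (-(p.1⁻¹ - (1 - p.1)⁻¹)) p.2))⁻¹

theorem computable_expK : Computable₂ expK := by
  unfold expK
  refine computable_natAdd.comp (computable_natAdd.comp ?_ Computable.snd) (Computable.const 2)
  exact computable_natMul.comp (Computable.const 4) (primrec_ceil.to_comp.comp Computable.fst)

theorem computable_ite {α σ : Type*} [Primcodable α] [Primcodable σ] {c : α → Prop}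
    [DecidablePred c] (hc : PrimrecPred c) {f g : α → σ} (hf : Computable f) (hg : Computable g) :
    Computable (fun a => if c a then f a else g a) := by
  have h : Computable (fun a => cond (decide (c a)) (f a) (g a)) :=
    Computable.cond hc.decide.to_comp hf hg
  refine h.of_eq fun a => ?_
  by_cases h' : c a <;> simp [h']

theorem computable_stA : Computable stA := by
  have hq : Computable (fun p : ℚ × ℕ => p.1) := Computable.fst
  have hn : Computable (fun p : ℚ × ℕ => p.2) := Computable.snd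
  have hy : Primrec (fun p : ℚ × ℕ => p.1⁻¹ - (1 - p.1)⁻¹) := by
    refine primrec_sub.comp (primrec_inv.comp Primrec.fst) (primrec_inv.comp ?_)
    exact primrec_sub.comp (Primrec.const 1) Primrec.fst
  have h1 : Computable (fun p : ℚ × ℕ =>
      (1 + expS (p.1⁻¹ - (1 - p.1)⁻¹) (expK (p.1⁻¹ - (1 - p.1)⁻¹) p.2))⁻¹) := by
    refine primrec_inv.to_comp.comp (computable_qadd.comp (Computable.const 1) ?_)
    exact computable_expS.comp hy.to_comp (computable_expK.comp hy.to_comp hn)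
  have hy' : Primrec (fun p : ℚ × ℕ => -(p.1⁻¹ - (1 - p.1)⁻¹)) := primrec_neg.comp hy
  have h2 : Computable (fun p : ℚ × ℕ =>
      1 - (1 + expS (-(p.1⁻¹ - (1 - p.1)⁻¹)) (expK (-(p.1⁻¹ - (1 - p.1)⁻¹)) p.2))⁻¹) := by
    refine computable_qsub.comp (Computable.const 1) ?_
    refine primrec_inv.to_comp.comp (computable_qadd.comp (Computable.const 1) ?_)
    exact computable_expS.comp hy'.to_comp (computable_expK.comp hy'.to_comp hn)
  unfold stA
  refine computable_ite (primrecRel_le.comp Primrec.fst (Primrec.const 0)) (Computable.const 0) ?_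
  refine computable_ite (primrecRel_le.comp (Primrec.const 1) Primrec.fst) (Computable.const 1) ?_
  exact computable_ite (primrecRel_le.comp (Primrec.const 0) hy) h1 h2

theorem inv_one_add_approx {E : ℝ} {S : ℚ} (hE : 0 ≤ E) (hS : 0 ≤ S) {ε : ℝ}
    (h : |E - (S : ℝ)| ≤ ε) : |(1 + E)⁻¹ - (((1 + S)⁻¹ : ℚ) : ℝ)| ≤ ε := by
  have hS' : (0 : ℝ) ≤ (S : ℝ) := by exact_mod_cast hS
  push_cast
  have h1 : (1 + E)⁻¹ - (1 + (S : ℝ))⁻¹ = ((S : ℝ) - E) / ((1 + E) * (1 + (S : ℝ))) := by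
    field_simp
    ring
  rw [h1, abs_div, abs_of_pos (by positivity : 0 < (1 + E) * (1 + (S : ℝ))), abs_sub_comm]
  refine (div_le_self (abs_nonneg _) ?_).trans h
  nlinarith

theorem st_values (q : ℚ) (n : ℕ) :
    |𝒮 (q : ℝ) - (stA (q, n) : ℝ)| ≤ 1 / ((n : ℝ) + 1) := by
  have hpos : (0 : ℝ) ≤ 1 / ((n : ℝ) + 1) := by positivity
  unfold stA
  simp only
  by_cases h0 : q ≤ 0
  · simp only [h0, if_true]
    have : (q : ℝ) ≤ 0 := by exact_mod_cast h0
    rw [Real.smoothTransition.zero_of_nonpos this]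
    simpa using hpos
  · simp only [h0, if_false]
    by_cases h1 : 1 ≤ q
    · simp only [h1, if_true]
      have : (1 : ℝ) ≤ q := by exact_mod_cast h1
      rw [Real.smoothTransition.one_of_one_le this]
      simpa using hpos
    · simp only [h1, if_false]
      have hq0 : (0 : ℝ) < q := by exact_mod_cast not_le.mp h0
      have hq1 : (q : ℝ) < 1 := by exact_mod_cast not_le.mp h1
      set y : ℚ := q⁻¹ - (1 - q)⁻¹ with hy
      have hyr : (y : ℝ) = (q : ℝ)⁻¹ - (1 - (q : ℝ))⁻¹ := by rw [hy]; push_cast; rfl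
      rw [st_eq hq0 hq1, ← hyr]
      by_cases hy0 : 0 ≤ y
      · simp only [hy0, if_true]
        exact inv_one_add_approx (Real.exp_pos _).le (expS_nonneg hy0 _) (exp_approx hy0 n)
      · simp only [hy0, if_false]
        have hy1 : 0 ≤ -y := by linarith [not_le.mp hy0]
        have h2 := inv_one_add_approx (Real.exp_pos _).le (expS_nonneg hy1 _) (exp_approx hy1 n)
        have h3 : (1 + Real.exp (y : ℝ))⁻¹ = 1 - (1 + Real.exp (((-y : ℚ)) : ℝ))⁻¹ := by
          push_cast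
          rw [Real.exp_neg]
          have := Real.exp_pos (y : ℝ)
          field_simp
          ring
        rw [h3]
        push_cast at h2 ⊢
        have h4 : 1 - (1 + Real.exp (-(y : ℝ)))⁻¹ -
            (1 - (1 + (expS (-y) (expK (-y) n) : ℝ))⁻¹) =
            -((1 + Real.exp (-(y : ℝ)))⁻¹ - (1 + (expS (-y) (expK (-y) n) : ℝ))⁻¹) := by ring
        rw [h4, abs_neg]
        exact h2

/-- `Real.smoothTransition` is effective. -/
theorem EffFun.smoothTransition' : EffFun Real.smoothTransition :=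
  EffFun.of_values st_smooth computable_stA st_values primrec_stB.to_comp st_bound

end Crest.Agent.S0170Lib
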