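/-
S0170 library: tensor fields are effective (helper34).
-/
import Crest.Agent.S0170Lib.SmoothTrans
import Crest.Agent.S0170Lib.FD

set_option autoImplicit false

open scoped ContDiff
open Finset
open Crest.AnalysisR.BoxFlow

namespace Crest.Agent.S0170Lib

section approx

variable {α : Type*} [Primcodable α]

/-- Computable approximations of a family of reals. -/
def Appr (F : α → ℝ) : Prop :=
  ∃ A : α × ℕ → ℚ, Computable A ∧ ∀ (a : α) (n : ℕ), |F a - (A (a, n) : ℝ)| ≤ 1 / ((n : ℝ) + 1)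

theorem Appr.mul_of_bound {F G : α → ℝ} (hF : Appr F) (hG : Appr G) (X Y : ℕ)
    (hX : ∀ a, |F a| ≤ (X : ℝ)) (hY : ∀ a, |G a| ≤ (Y : ℝ)) : Appr (fun a => F a * G a) := by
  obtain ⟨Af, hAf, hAf'⟩ := hF
  obtain ⟨Ag, hAg, hAg'⟩ := hG
  set K : ℕ := X + Y + 1 with hK
  have hKr : ((K : ℕ) : ℝ) = (X : ℝ) + (Y : ℝ) + 1 := by rw [hK]; push_cast; ring
  refine ⟨fun p => Af (p.1, K * (p.2 + 1)) * Ag (p.1, K * (p.2 + 1)), ?_, ?_⟩
  · have h1 : Computable (fun p : α × ℕ => K * (p.2 + 1)) :=
      computable_natMul.comp (Computable.const K) (Computable.succ.comp Computable.snd)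
    exact computable_qmul.comp (hAf.comp (Computable.pair Computable.fst h1))
      (hAg.comp (Computable.pair Computable.fst h1))
  · intro q n
    set N : ℕ := K * (n + 1) with hN
    have hNr : ((N : ℕ) : ℝ) = (K : ℝ) * ((n : ℝ) + 1) := by rw [hN]; push_cast; ring
    have h1 := hAf' q N
    have h2 := hAg' q N
    have hKpos : (0 : ℝ) < (K : ℝ) := by rw [hKr]; positivity
    have hn1 : (0 : ℝ) < (n : ℝ) + 1 := by positivity
    have hε : 1 / ((N : ℝ) + 1) ≤ 1 / ((K : ℝ) * ((n : ℝ) + 1)) := by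
      rw [hNr]
      apply one_div_le_one_div_of_le (by positivity)
      linarith
    set ε : ℝ := 1 / ((N : ℝ) + 1) with hεdef
    have hε0 : 0 ≤ ε := by positivity
    have hf0 := hX q
    have hg0 := hY q
    have h3 : |F q * G q - (Af (q, N) : ℝ) * (Ag (q, N) : ℝ)| ≤ (K : ℝ) * ε := by
      have h4 : F q * G q - (Af (q, N) : ℝ) * (Ag (q, N) : ℝ) =
          F q * (G q - Ag (q, N)) + (F q - Af (q, N)) * G q
            - (F q - Af (q, N)) * (G q - Ag (q, N)) := by ring
      have h5 : ε ≤ 1 := by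
        rw [hεdef]
        apply (div_le_one (by positivity)).mpr
        have : (0 : ℝ) ≤ (N : ℝ) := by positivity
        linarith
      rw [h4]
      refine (abs_sub _ _).trans ?_
      refine (add_le_add (abs_add_le _ _) le_rfl).trans ?_
      rw [abs_mul, abs_mul, abs_mul]
      have h6 : |F q| * |G q - Ag (q, N)| ≤ (X : ℝ) * ε :=
        mul_le_mul hf0 h2 (abs_nonneg _) (by positivity)
      have h7 : |F q - Af (q, N)| * |G q| ≤ ε * (Y : ℝ) :=
        mul_le_mul h1 hg0 (abs_nonneg _) hε0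
      have h8 : |F q - Af (q, N)| * |G q - Ag (q, N)| ≤ ε * 1 :=
        mul_le_mul h1 (h2.trans h5) (abs_nonneg _) hε0
      rw [hKr]
      nlinarith
    push_cast
    refine h3.trans ?_
    calc (K : ℝ) * ε ≤ (K : ℝ) * (1 / ((K : ℝ) * ((n : ℝ) + 1))) :=
          mul_le_mul_of_nonneg_left hε hKpos.le
      _ = 1 / ((n : ℝ) + 1) := by field_simp

theorem Appr.comp {β : Type*} [Primcodable β] {F : α → ℝ} (hF : Appr F) {f : β → α}
    (hf : Computable f) : Appr (fun b => F (f b)) := by
  obtain ⟨A, hA, hA'⟩ := hF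
  exact ⟨fun p => A (f p.1, p.2), hA.comp (Computable.pair (hf.comp Computable.fst) Computable.snd),
    fun b n => hA' (f b) n⟩

theorem CompConst.appr {c : ℝ} (hc : CompConst c) : Appr (fun _ : α => c) := by
  obtain ⟨A, hA, hA'⟩ := hc
  exact ⟨fun p => A p.2, hA.comp Computable.snd, fun _ n => hA' n⟩

theorem EffFun.appr {g : ℝ → ℝ} (hg : EffFun g) : Appr (fun q : ℚ => g (q : ℝ)) := by
  obtain ⟨A, hA, hA'⟩ := hg.values
  exact ⟨A, hA, hA'⟩

end approx

theorem CompConst.ofRat (q : ℚ) : CompConst (q : ℝ) :=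
  ⟨fun _ => q, Computable.const q, fun n => by simp; positivity⟩

theorem abs_le_ceil_abs (c : ℝ) : |c| ≤ (⌈|c|⌉₊ : ℝ) := Nat.le_ceil _

/-- The `i`-th space-time coordinate. -/
noncomputable def stCoord (i : Fin 4) : (ℝ × (Fin 3 → ℝ)) →L[ℝ] ℝ :=
  Fin.cases (ContinuousLinearMap.fst ℝ ℝ (Fin 3 → ℝ))
    (fun k : Fin 3 => (ContinuousLinearMap.proj (R := ℝ) (φ := fun _ : Fin 3 => ℝ) k).comp
      (ContinuousLinearMap.snd ℝ ℝ (Fin 3 → ℝ))) i

theorem stCoord_zero (p : ℝ × (Fin 3 → ℝ)) : stCoord 0 p = p.1 := rfl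
theorem stCoord_one (p : ℝ × (Fin 3 → ℝ)) : stCoord 1 p = p.2 0 := rfl
theorem stCoord_two (p : ℝ × (Fin 3 → ℝ)) : stCoord 2 p = p.2 1 := rfl
theorem stCoord_three (p : ℝ × (Fin 3 → ℝ)) : stCoord 3 p = p.2 2 := rfl

theorem stCoord_direction (i d : Fin 4) : stCoord i (direction d) = if i = d then 1 else 0 := by
  fin_cases i <;> fin_cases d <;> simp [stCoord, direction, Fin.cases] <;> rfl

theorem tensorField_apply (c : ℝ) (g : Fin 4 → ℝ → ℝ) (j : Fin 3) (p : ℝ × (Fin 3 → ℝ)) :
    tensorField c g j p = Pi.single j (c * (g 0 (stCoord 0 p) * g 1 (stCoord 1 p) * g 2 (stCoord 2 p)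
      * g 3 (stCoord 3 p))) := rfl

theorem tensorField_fderiv (c : ℝ) (g : Fin 4 → ℝ → ℝ) (hg : ∀ i, Differentiable ℝ (g i)) (j : Fin 3)
    (p : ℝ × (Fin 3 → ℝ)) (d : Fin 4) :
    fderiv ℝ (tensorField c g j) p (direction d) =
      tensorField c (Function.update g d (deriv (g d))) j p := by
  have hi : ∀ i : Fin 4, HasFDerivAt (fun p : ℝ × (Fin 3 → ℝ) => g i (stCoord i p))
      (deriv (g i) (stCoord i p) • stCoord i) p := fun i =>
    (hg i (stCoord i p)).hasDerivAt.comp_hasFDerivAt p (stCoord i).hasFDerivAt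
  have hprod := (((hi 0).mul (hi 1)).mul (hi 2)).mul (hi 3)
  have hc := hprod.const_mul c
  have hs := (ContinuousLinearMap.single ℝ (fun _ : Fin 3 => ℝ) j).hasFDerivAt.comp p hc
  have heq : tensorField c g j = (ContinuousLinearMap.single ℝ (fun _ : Fin 3 => ℝ) j) ∘
      (fun p => c * ((((fun p : ℝ × (Fin 3 → ℝ) => g 0 (stCoord 0 p)) * (fun p => g 1 (stCoord 1 p))) *
        (fun p => g 2 (stCoord 2 p))) * (fun p => g 3 (stCoord 3 p))) p) := by
    funext p
    rfl
  rw [heq, hs.fderiv, tensorField_apply]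
  refine congrArg (Pi.single j) ?_
  fin_cases d <;> simp [-mul_eq_mul_left_iff, -mul_eq_zero, Function.update, stCoord_direction] <;> ring

/-- The iterated derivatives according to the counts of directions. -/
noncomputable def gCount (g : Fin 4 → ℝ → ℝ) (ds : List (Fin 4)) (i : Fin 4) : ℝ → ℝ :=
  iteratedDeriv (ds.count i) (g i)

theorem mixedDeriv_tensorField (c : ℝ) (g : Fin 4 → ℝ → ℝ) (hg : ∀ i, ContDiff ℝ ∞ (g i)) (j : Fin 3)
    (ds : List (Fin 4)) : mixedDeriv ds (tensorField c g j) = tensorField c (gCount g ds) j := by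
  induction ds with
  | nil =>
    funext p
    simp only [mixedDeriv]
    have : gCount g [] = g := by
      funext i x
      simp [gCount]
    rw [this]
  | cons d ds ih =>
    funext p
    simp only [mixedDeriv]
    rw [ih]
    rw [tensorField_fderiv]
    · have : Function.update (gCount g ds) d (deriv (gCount g ds d)) = gCount g (d :: ds) := by
        funext i
        by_cases hi : i = d
        · subst hi
          simp [gCount, iteratedDeriv_succ]
        · have hne : d ≠ i := fun h => hi h.symm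
          simp [Function.update, hi, gCount, hne]
      rw [this]
    · intro i
      unfold gCount
      have := contDiff_iteratedDeriv_infty (hg i) (ds.count i)
      exact this.differentiable (by simp)

theorem computable_count (i : Fin 4) : Computable (fun ds : List (Fin 4) => ds.count i) := by
  have h : Primrec (fun ds : List (Fin 4) =>
      ds.foldr (fun b s => (fun (_ : List (Fin 4)) (r : Fin 4 × ℕ) =>
        if r.1 = i then r.2 + 1 else r.2) ds (b, s)) 0) := by
    refine Primrec.list_foldr (f := fun ds : List (Fin 4) => ds) (g := fun _ => 0)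
      (h := fun (_ : List (Fin 4)) (r : Fin 4 × ℕ) => if r.1 = i then r.2 + 1 else r.2)
      Primrec.id (Primrec.const 0) ?_
    refine Primrec.ite ?_ ?_ ?_
    · exact Primrec.eq.comp (Primrec.fst.comp Primrec.snd) (Primrec.const i)
    · exact Primrec.succ.comp (Primrec.snd.comp Primrec.snd)
    · exact Primrec.snd.comp Primrec.snd
  refine h.to_comp.of_eq fun ds => ?_
  induction ds with
  | nil => rfl
  | cons d ds ih =>
    simp only [List.foldr_cons, ih, List.count_cons]
    by_cases hd : d = i <;> simp [hd]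

theorem tensorField_contDiff (c : ℝ) (g : Fin 4 → ℝ → ℝ) (hg : ∀ i, ContDiff ℝ ∞ (g i)) (j : Fin 3) :
    ContDiff ℝ ∞ (tensorField c g j) := by
  have hi : ∀ i : Fin 4, ContDiff ℝ ∞ (fun p : ℝ × (Fin 3 → ℝ) => g i (stCoord i p)) := fun i =>
    (hg i).comp (stCoord i).contDiff
  have h := contDiff_const (c := c).mul (((hi 0).mul (hi 1)).mul (hi 2) |>.mul (hi 3))
  have h2 := (ContinuousLinearMap.single ℝ (fun _ : Fin 3 => ℝ) j).contDiff.comp h
  exact h2

theorem tensorField_effective {c : ℝ} {g : Fin 4 → ℝ → ℝ} (hc : CompConst c)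
    (hg : ∀ i, EffFun (g i)) (j : Fin 3) : Effective (tensorField c g j) := by
  have hsm : ∀ i, ContDiff ℝ ∞ (g i) := fun i => (hg i).smooth
  choose B hB hB' using fun i => (hg i).bound
  -- the values
  have hpt : ∀ k : Fin 3, Computable (fun p : ℚ × (Fin 3 → ℚ) => p.2 k) := fun k =>
    computable_app Computable.snd k
  have h0 : Appr (fun p : ℚ × (Fin 3 → ℚ) => g 0 (p.1 : ℝ)) := (hg 0).appr.comp Computable.fst
  have h1 : Appr (fun p : ℚ × (Fin 3 → ℚ) => g 1 (p.2 0 : ℝ)) := (hg 1).appr.comp (hpt 0)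
  have h2 : Appr (fun p : ℚ × (Fin 3 → ℚ) => g 2 (p.2 1 : ℝ)) := (hg 2).appr.comp (hpt 1)
  have h3 : Appr (fun p : ℚ × (Fin 3 → ℚ) => g 3 (p.2 2 : ℝ)) := (hg 3).appr.comp (hpt 2)
  have hb0 : ∀ i (x : ℝ), |g i x| ≤ (B i 0 : ℝ) := fun i x => by simpa using hB' i 0 x
  have h01 := h0.mul_of_bound h1 (B 0 0) (B 1 0) (fun _ => hb0 0 _) (fun _ => hb0 1 _)
  have h012 := h01.mul_of_bound h2 (B 0 0 * B 1 0) (B 2 0) (fun p => by
    rw [abs_mul]; push_cast
    exact mul_le_mul (hb0 0 _) (hb0 1 _) (abs_nonneg _) (by positivity)) (fun _ => hb0 2 _)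
  have h0123 := h012.mul_of_bound h3 (B 0 0 * B 1 0 * B 2 0) (B 3 0) (fun p => by
    rw [abs_mul, abs_mul]; push_cast
    exact mul_le_mul (mul_le_mul (hb0 0 _) (hb0 1 _) (abs_nonneg _) (by positivity)) (hb0 2 _)
      (abs_nonneg _) (by positivity)) (fun _ => hb0 3 _)
  have hall := (hc.appr (α := ℚ × (Fin 3 → ℚ))).mul_of_bound h0123 ⌈|c|⌉₊ (B 0 0 * B 1 0 * B 2 0 * B 3 0)
    (fun _ => abs_le_ceil_abs c) (fun p => by
    rw [abs_mul, abs_mul, abs_mul]; push_cast
    exact mul_le_mul (mul_le_mul (mul_le_mul (hb0 0 _) (hb0 1 _) (abs_nonneg _) (by positivity))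
      (hb0 2 _) (abs_nonneg _) (by positivity)) (hb0 3 _) (abs_nonneg _) (by positivity))
  obtain ⟨A, hA, hA'⟩ := hall
  refine effective_of_values (tensorField_contDiff c g hsm j)
    (fun l p => if l = j then A p else 0) ?_
    (fun ds => ⌈|c|⌉₊ * (B 0 (ds.count 0) * B 1 (ds.count 1) * B 2 (ds.count 2) * B 3 (ds.count 3)))
    ?_ ?_ ?_
  · intro l
    by_cases hl : l = j
    · simpa [hl] using hA
    · simpa [hl] using (Computable.const (0 : ℚ))
  · refine computable_natMul.comp (Computable.const _) ?_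
    refine computable_natMul.comp (computable_natMul.comp (computable_natMul.comp ?_ ?_) ?_) ?_
    · exact (hB 0).comp (computable_count 0)
    · exact (hB 1).comp (computable_count 1)
    · exact (hB 2).comp (computable_count 2)
    · exact (hB 3).comp (computable_count 3)
  · intro l p n
    by_cases hl : l = j
    · subst hl
      have := hA' p n
      simpa [tensorField, toReal, ratPoint] using this
    · have hne : l ≠ j := hl
      simp [tensorField, hne]
      positivity
  · intro ds p l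
    rw [mixedDeriv_tensorField c g hsm j ds]
    by_cases hl : l = j
    · subst hl
      simp only [tensorField, Pi.single_eq_same]
      rw [abs_mul, abs_mul, abs_mul, abs_mul]
      push_cast
      apply mul_le_mul (abs_le_ceil_abs c) _ (by positivity) (by positivity)
      exact mul_le_mul (mul_le_mul (mul_le_mul (hB' 0 _ _) (hB' 1 _ _) (abs_nonneg _) (by positivity))
        (hB' 2 _ _) (abs_nonneg _) (by positivity)) (hB' 3 _ _) (abs_nonneg _) (by positivity)
    · simp only [tensorField]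
      rw [Pi.single_eq_of_ne hl]
      simp only [abs_zero]
      positivity

theorem mixedDeriv_add (ds : List (Fin 4)) {U V : Field} (hU : ContDiff ℝ ∞ U) (hV : ContDiff ℝ ∞ V) :
    mixedDeriv ds (U + V) = mixedDeriv ds U + mixedDeriv ds V := by
  induction ds with
  | nil => rfl
  | cons d ds ih =>
    funext p
    simp only [mixedDeriv]
    rw [ih]
    have h1 := (contDiff_mixedDeriv ds hU).differentiable (by simp) p
    have h2 := (contDiff_mixedDeriv ds hV).differentiable (by simp) p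
    rw [fderiv_add h1 h2]
    rfl

theorem Effective.add' {U V : Field} (hU : ContDiff ℝ ∞ U) (hV : ContDiff ℝ ∞ V)
    (hU' : Effective U) (hV' : Effective V) : Effective (U + V) := by
  obtain ⟨E1, b1, hE1, hb1, h1, h1'⟩ := hU'
  obtain ⟨E2, b2, hE2, hb2, h2, h2'⟩ := hV'
  refine ⟨fun x j => E1 (x.1, x.2.1, 2 * x.2.2 + 1) j + E2 (x.1, x.2.1, 2 * x.2.2 + 1) j,
    fun ds => b1 ds + b2 ds, ?_, computable_natAdd.comp hb1 hb2, ?_, ?_⟩
  · have hx : Computable (fun x : List (Fin 4) × (ℚ × (Fin 3 → ℚ)) × ℕ =>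
        (x.1, x.2.1, 2 * x.2.2 + 1)) := by
      refine Computable.pair Computable.fst (Computable.pair (Computable.fst.comp Computable.snd) ?_)
      exact Primrec.nat_double_succ.to_comp.comp (Computable.snd.comp Computable.snd)
    refine computable_fin3 fun j => ?_
    exact computable_qadd.comp (computable_app (hE1.comp hx) j) (computable_app (hE2.comp hx) j)
  · intro ds t q n j
    rw [mixedDeriv_add ds hU hV]
    have h3 := h1 ds t q (2 * n + 1) j
    have h4 := h2 ds t q (2 * n + 1) j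
    have h5 : (1 : ℝ) / (((2 * n + 1 : ℕ) : ℝ) + 1) = 1 / (2 * ((n : ℝ) + 1)) := by
      push_cast; congr 1; ring
    rw [h5] at h3 h4
    have h6 : (1 : ℝ) / (2 * ((n : ℝ) + 1)) + 1 / (2 * ((n : ℝ) + 1)) = 1 / ((n : ℝ) + 1) := by
      field_simp
      norm_num
    simp only [Pi.add_apply]
    push_cast
    rw [← h6]
    have h7 : mixedDeriv ds U ((t : ℝ), ratPoint q) j + mixedDeriv ds V ((t : ℝ), ratPoint q) j -
        ((E1 (ds, (t, q), 2 * n + 1) j : ℝ) + (E2 (ds, (t, q), 2 * n + 1) j : ℝ)) =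
        (mixedDeriv ds U ((t : ℝ), ratPoint q) j - (E1 (ds, (t, q), 2 * n + 1) j : ℝ)) +
        (mixedDeriv ds V ((t : ℝ), ratPoint q) j - (E2 (ds, (t, q), 2 * n + 1) j : ℝ)) := by ring
    rw [h7]
    exact (abs_add_le _ _).trans (add_le_add h3 h4)
  · intro ds p j
    rw [mixedDeriv_add ds hU hV]
    simp only [Pi.add_apply]
    push_cast
    exact (abs_add_le _ _).trans (add_le_add (h1' ds p j) (h2' ds p j))

theorem mixedDeriv_zero (ds : List (Fin 4)) : mixedDeriv ds (0 : Field) = 0 := by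
  induction ds with
  | nil => rfl
  | cons d ds ih =>
    funext p
    simp only [mixedDeriv]
    rw [ih]
    simp

theorem Effective.zero' : Effective (0 : Field) := by
  refine ⟨fun _ _ => 0, fun _ => 0, ?_, Computable.const 0, ?_, ?_⟩
  · exact Computable.const (fun _ => 0)
  · intro ds t q n j
    rw [mixedDeriv_zero]
    simp
    positivity
  · intro ds p j
    rw [mixedDeriv_zero]
    simp

/-! ### The logarithm of a rational -/

/-- The series of `log (1 - x)`. -/
def logS (x : ℚ) (K : ℕ) : ℚ := ∑ i ∈ range K, x ^ (i + 1) * (((i + 1 : ℕ) : ℚ))⁻¹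

theorem computable_logS : Computable₂ logS := by
  unfold logS
  refine computable_sum computable_qadd Computable.snd ?_
  refine computable_qmul.comp ?_ ?_
  · exact primrec_qpow.to_comp.comp (Computable.fst.comp Computable.fst)
      (Computable.succ.comp Computable.snd)
  · exact primrec_inv.to_comp.comp (computable_natCast.comp (Computable.succ.comp Computable.snd))

theorem logS_cast (x : ℚ) (K : ℕ) :
    ((logS x K : ℚ) : ℝ) = ∑ i ∈ range K, (x : ℝ) ^ (i + 1) / ((i : ℝ) + 1) := by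
  unfold logS
  push_cast
  rfl

theorem compConst_log_aux (x : ℚ) (h0 : 0 ≤ x) (h1 : x < 1) :
    CompConst (Real.log (1 - (x : ℝ))) := by
  have hx0 : (0 : ℝ) ≤ (x : ℝ) := by exact_mod_cast h0
  have hx1 : (x : ℝ) < 1 := by exact_mod_cast h1
  -- constants
  obtain ⟨M, hM⟩ := exists_pow_lt_of_lt_one (by norm_num : (0 : ℝ) < 1 / 2) hx1
  have hpos : 0 < 1 - (x : ℝ) := by linarith
  obtain ⟨L, hL⟩ := pow_unbounded_of_one_lt (1 / (1 - (x : ℝ))) (by norm_num : (1 : ℝ) < 2)
  refine ⟨fun n => -logS x (M * (n + L)), ?_, ?_⟩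
  · refine primrec_neg.to_comp.comp (computable_logS.comp (Computable.const x) ?_)
    refine computable_natMul.comp (Computable.const M) ?_
    exact computable_natAdd.comp Computable.id (Computable.const L)
  · intro n
    have h2 := Real.abs_log_sub_add_sum_range_le (x := (x : ℝ)) (by rwa [abs_of_nonneg hx0])
      (M * (n + L))
    push_cast
    rw [logS_cast]
    have h3 : Real.log (1 - (x : ℝ)) - -(∑ i ∈ range (M * (n + L)), (x : ℝ) ^ (i + 1) / ((i : ℝ) + 1)) =
        (∑ i ∈ range (M * (n + L)), (x : ℝ) ^ (i + 1) / ((i : ℝ) + 1)) + Real.log (1 - (x : ℝ)) := by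
      ring
    rw [h3]
    refine h2.trans ?_
    rw [abs_of_nonneg hx0]
    have h4 : (x : ℝ) ^ (M * (n + L) + 1) ≤ (1 / 2) ^ (n + L) := by
      rw [pow_succ, pow_mul]
      have h5 : ((x : ℝ) ^ M) ^ (n + L) ≤ (1 / 2) ^ (n + L) :=
        pow_le_pow_left₀ (pow_nonneg hx0 M) hM.le _
      calc ((x : ℝ) ^ M) ^ (n + L) * (x : ℝ) ≤ ((x : ℝ) ^ M) ^ (n + L) * 1 :=
            mul_le_mul_of_nonneg_left hx1.le (pow_nonneg (pow_nonneg hx0 M) _)
        _ ≤ _ := by rw [mul_one]; exact h5
    rw [div_eq_mul_one_div]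
    have hL' : 1 / (1 - (x : ℝ)) ≤ 2 ^ L := hL.le
    have h6 : (x : ℝ) ^ (M * (n + L) + 1) * (1 / (1 - (x : ℝ))) ≤ (1 / 2) ^ (n + L) * 2 ^ L :=
      mul_le_mul h4 hL' (by positivity) (by positivity)
    refine h6.trans ?_
    have h7 : ((1 : ℝ) / 2) ^ (n + L) * 2 ^ L = (1 / 2) ^ n := by
      rw [pow_add, mul_assoc, ← mul_pow]
      norm_num
    rw [h7, one_div, inv_pow, one_div]
    apply inv_anti₀ (by positivity)
    have h8 : n + 1 ≤ 2 ^ n := Nat.lt_two_pow_self
    exact_mod_cast h8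

theorem CompConst.neg {c : ℝ} (hc : CompConst c) : CompConst (-c) := by
  obtain ⟨A, hA, hA'⟩ := hc
  refine ⟨fun n => -A n, primrec_neg.to_comp.comp hA, fun n => ?_⟩
  have := hA' n
  push_cast
  rw [neg_sub_neg, abs_sub_comm]
  exact this

theorem CompConst.log (r : ℚ) (hr : 0 < r) : CompConst (Real.log (r : ℝ)) := by
  have hr0 : (0 : ℝ) < (r : ℝ) := by exact_mod_cast hr
  rcases le_total r 1 with h | h
  · have h1 := compConst_log_aux (1 - r) (by linarith) (by linarith)
    have h2 : 1 - ((1 - r : ℚ) : ℝ) = (r : ℝ) := by push_cast; ring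
    rwa [h2] at h1
  · have hinv : r⁻¹ ≤ 1 := inv_le_one_of_one_le₀ h
    have hinv0 : 0 < r⁻¹ := inv_pos.mpr hr
    have h1 := compConst_log_aux (1 - r⁻¹) (by linarith) (by linarith)
    have h2 : 1 - ((1 - r⁻¹ : ℚ) : ℝ) = (r : ℝ)⁻¹ := by push_cast; ring
    rw [h2, Real.log_inv] at h1
    simpa using h1.neg

end Crest.Agent.S0170Lib
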