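/-
S0170 library: API of the computability part (module A, helper34), fully proved in
`EffBasics`, `SmoothTrans`, `TensorEff`:

* `EffFun.smoothTransition'`, `EffFun.comp_affine`, `EffFun.mul`, `EffFun.deriv'`, `EffFun.linear_mul`
* `CompConst.ofRat`, `CompConst.log`, `CompConst.neg`
* `tensorField_effective`, `tensorField_contDiff`, `Effective.add'`, `Effective.zero'`
-/
import Crest.Agent.S0170Lib.TensorEff
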