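import Crest.Agent.S0170Lib.Defs

/-!
# The motion plan (S0170 library, module D)

`reach_symm`: reachability is symmetric.
`reach_canon`: any family of pairwise separated rational boxes reaches the canonical configuration.
-/

set_option autoImplicit false

namespace Crest.Agent.S0170Lib

/-! ### Hulls -/

lemma RBox.ext' {B B' : RBox} (h1 : ∀ l, B.c l = B'.c l) (h2 : ∀ l, B.h l = B'.h l) : B = B' := by
  cases B; cases B'
  simp only [RBox.mk.injEq]
  exact ⟨funext h1, funext h2⟩

lemma hull_sep_iff (B B' D : RBox) (l : Fin 3) :
    (RBox.hull B B').h l + D.h l < |(RBox.hull B B').c l - D.c l| ↔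
      max (B.c l + B.h l) (B'.c l + B'.h l) < D.c l - D.h l ∨
        D.c l + D.h l < min (B.c l - B.h l) (B'.c l - B'.h l) := by
  simp only [RBox.hull]
  set M := max (B.c l + B.h l) (B'.c l + B'.h l)
  set m := min (B.c l - B.h l) (B'.c l - B'.h l)
  rw [lt_abs]
  constructor
  · rintro (h | h)
    · right; linarith
    · left; linarith
  · rintro (h | h)
    · right; linarith
    · left; linarith

/-- The two boxes have the same data along the coordinate `l`. -/
def Same (l : Fin 3) (B B' : RBox) : Prop := B.c l = B'.c l ∧ B.h l = B'.h l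

lemma hull_sep_of_same {l : Fin 3} {B B' D : RBox} (hS : Same l B B')
    (h : B.h l + D.h l < |B.c l - D.c l|) : (RBox.hull B B').Sep D := by
  refine ⟨l, ?_⟩
  have h1 : (RBox.hull B B').c l = B.c l := by
    simp only [RBox.hull, ← hS.1, ← hS.2, max_self, min_self]; ring
  have h2 : (RBox.hull B B').h l = B.h l := by
    simp only [RBox.hull, ← hS.1, ← hS.2, max_self, min_self]; ring
  rw [h1, h2]; exact h

lemma step_of_same {n : ℕ} {l : Fin 3} {cfg : Fin n → RBox} {a : Fin n} {B' : RBox}
    (hE : Elem (cfg a) B') (hS : Same l (cfg a) B')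
    (hsep : ∀ j, j ≠ a → (cfg a).h l + (cfg j).h l < |(cfg a).c l - (cfg j).c l|) :
    Step cfg (Function.update cfg a B') :=
  ⟨a, B', rfl, hE, fun j hj => hull_sep_of_same hS (hsep j hj)⟩

/-! ### Symmetry -/

lemma hull_comm (B B' : RBox) : RBox.hull B B' = RBox.hull B' B := by
  apply RBox.ext'
  · intro l; simp only [RBox.hull, max_comm, min_comm]
  · intro l; simp only [RBox.hull, max_comm, min_comm]

lemma translate_inv (B : RBox) (j : Fin 3) (d : ℚ) :
    (B.translate j d).translate j (-d) = B := by
  apply RBox.ext'
  · intro l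
    by_cases h : l = j
    · subst h; simp [RBox.translate]
    · simp [RBox.translate, Function.update_of_ne h]
  · intro l; rfl

lemma scale_inv (B : RBox) (j₁ j₂ : Fin 3) (r : ℚ) (hne : j₁ ≠ j₂) (hr : 0 < r) :
    (B.scale j₁ j₂ r).scale j₁ j₂ (1 / r) = B := by
  have hr' : r ≠ 0 := hr.ne'
  apply RBox.ext'
  · intro l; rfl
  · intro l
    by_cases h2 : l = j₂
    · subst h2
      simp [RBox.scale]
      field_simp
    · by_cases h1 : l = j₁
      · subst h1
        simp [RBox.scale, Function.update_of_ne h2, Function.update_of_ne hne]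
        field_simp
      · simp [RBox.scale, Function.update_of_ne h2, Function.update_of_ne h1]

lemma Elem.symm {B B' : RBox} (h : Elem B B') : Elem B' B := by
  cases h with
  | trans j d =>
    have := Elem.trans (B.translate j d) j (-d)
    rwa [translate_inv] at this
  | scale j₁ j₂ r hne hr =>
    have := Elem.scale (B.scale j₁ j₂ r) j₁ j₂ (1 / r) hne (by positivity)
    rwa [scale_inv B j₁ j₂ r hne hr] at this

lemma Step.symm {n : ℕ} {c c' : Fin n → RBox} (h : Step c c') : Step c' c := by
  obtain ⟨i, B', rfl, hE, hS⟩ := h
  refine ⟨i, c i, ?_, ?_, ?_⟩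
  · simp
  · simpa using hE.symm
  · intro j hj
    simp only [Function.update_self, Function.update_of_ne hj]
    rw [hull_comm]
    exact hS j hj

theorem reach_symm {n : ℕ} {c c' : Fin n → RBox} (h : Reach c c') : Reach c' c := by
  induction h with
  | refl => exact Relation.ReflTransGen.refl
  | tail _ hs ih => exact Relation.ReflTransGen.head hs.symm ih

/-! ### Free motions inside pairwise separated slabs -/

lemma fin3_cases {l α β : Fin 3} (h1 : l ≠ α) (h2 : l ≠ β) (h3 : α ≠ β) (j : Fin 3) :
    j = l ∨ j = α ∨ j = β := by
  revert l α β j; decide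

theorem allFree {n : ℕ} {l α β : Fin 3} (hlα : l ≠ α) (hlβ : l ≠ β) (hαβ : α ≠ β)
    (c c' : Fin n → RBox)
    (hc : ∀ i, 0 < (c i).h α) (hc' : ∀ i, 0 < (c' i).h α)
    (hβ : ∀ i, 0 < (c' i).h β)
    (hl : ∀ i, Same l (c i) (c' i))
    (hprod : ∀ i, (c' i).h α * (c' i).h β = (c i).h α * (c i).h β)
    (hsep : Pairwise fun i j => (c i).h l + (c j).h l < |(c i).c l - (c j).c l|) :
    Reach c c' := by
  classical
  -- induction over the set of boxes already moved
  have key : ∀ S : Finset (Fin n), Reach c (fun i => if i ∈ S then c' i else c i) := by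
    intro S
    induction S using Finset.induction_on with
    | empty =>
      have : (fun i => if i ∈ (∅ : Finset (Fin n)) then c' i else c i) = c := by
        funext i; simp
      rw [this]; exact Relation.ReflTransGen.refl
    | insert a S ha ih =>
      set C : Fin n → RBox := fun i => if i ∈ S then c' i else c i with hC
      have hCa : C a = c a := by simp [hC, ha]
      -- all others have the right `l`-data
      have hother : ∀ j, Same l (C j) (c j) := by
        intro j
        simp only [hC]
        split_ifs with hj
        · exact ⟨(hl j).1.symm, (hl j).2.symm⟩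
        · exact ⟨rfl, rfl⟩
      have hr : 0 < (c' a).h α / (c a).h α := div_pos (hc' a) (hc a)
      set B₀ := c a with hB₀
      set B₁ := B₀.scale α β ((c' a).h α / (c a).h α) with hB₁
      set B₂ := B₁.translate α ((c' a).c α - B₁.c α) with hB₂
      set B₃ := B₂.translate β ((c' a).c β - B₂.c β) with hB₃
      have hS₁ : Same l B₀ B₁ := by
        constructor
        · rfl
        · simp [hB₁, RBox.scale, Function.update_of_ne hlα, Function.update_of_ne hlβ]
      have hS₂ : Same l B₁ B₂ := by
        constructor
        · simp [hB₂, RBox.translate, Function.update_of_ne hlα]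
        · rfl
      have hS₃ : Same l B₂ B₃ := by
        constructor
        · simp [hB₃, RBox.translate, Function.update_of_ne hlβ]
        · rfl
      -- generic separated step
      have hgen : ∀ B B' : RBox, Elem B B' → Same l B B' → Same l B₀ B →
          Step (Function.update C a B) (Function.update C a B') := by
        intro B B' hE hS hS0
        have := step_of_same (l := l) (cfg := Function.update C a B) (a := a) (B' := B')
          (by simpa using hE) (by simpa using hS) (by
            intro j hj
            simp only [Function.update_self, Function.update_of_ne hj]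
            rw [← hS0.1, ← hS0.2, (hother j).1, (hother j).2]
            exact hsep (Ne.symm hj))
        simpa using this
      have h0 : Function.update C a B₀ = C := by
        rw [← hCa]; simp
      have hfin : Function.update C a B₃ = fun i => if i ∈ insert a S then c' i else c i := by
        have hB3 : B₃ = c' a := by
          apply RBox.ext'
          · intro j
            rcases fin3_cases hlα hlβ hαβ j with rfl | rfl | rfl
            · rw [← hS₃.1, ← hS₂.1, ← hS₁.1]; exact (hl a).1
            · simp [hB₃, hB₂, RBox.translate, Function.update_of_ne hαβ.symm,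
                Function.update_of_ne hαβ]
            · simp [hB₃, RBox.translate]
          · intro j
            have hB₁α : B₁.h α = (c' a).h α := by
              have := (hc a).ne'
              simp [hB₁, RBox.scale, Function.update_of_ne hαβ, hB₀]
              field_simp
            have hB₁β : B₁.h β = (c' a).h β := by
              have h1 := (hc a).ne'
              have h2 := (hc' a).ne'
              have h3 := hprod a
              simp [hB₁, RBox.scale, hB₀]
              field_simp
              linarith
            rcases fin3_cases hlα hlβ hαβ j with rfl | rfl | rfl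
            · rw [← hS₃.2, ← hS₂.2, ← hS₁.2]; exact (hl a).2
            · exact hB₁α
            · exact hB₁β
        funext i
        by_cases hi : i = a
        · subst hi; simp [hB3]
        · simp [Function.update_of_ne hi, hC, Finset.mem_insert, hi]
      rw [← hfin]
      refine ih.trans ?_
      have s1 : Step (Function.update C a B₀) (Function.update C a B₁) :=
        hgen B₀ B₁ (Elem.scale _ _ _ _ hαβ hr) hS₁ ⟨rfl, rfl⟩
      have s2 : Step (Function.update C a B₁) (Function.update C a B₂) :=
        hgen B₁ B₂ (Elem.trans _ _ _) hS₂ hS₁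
      have s3 : Step (Function.update C a B₂) (Function.update C a B₃) :=
        hgen B₂ B₃ (Elem.trans _ _ _) hS₃ ⟨hS₁.1.trans hS₂.1, hS₁.2.trans hS₂.2⟩
      rw [h0] at s1
      exact Relation.ReflTransGen.head s1 (Relation.ReflTransGen.head s2
        (Relation.ReflTransGen.single s3))
  have := key Finset.univ
  have e : (fun i => if i ∈ (Finset.univ : Finset (Fin n)) then c' i else c i) = c' := by
    funext i; simp
  rwa [e] at this

/-! ### Pushing apart along the axis `0` -/

section push

variable {n : ℕ} (c : Fin n → RBox) (r : Fin n → ℕ) (L : ℚ)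

/-- The box `i` after its translation along `0`. -/
def pushed (i : Fin n) : RBox := (c i).translate 0 (((r i : ℚ) + 1) * L)

/-- Stage `k`: boxes of rank at least `k` have been moved. -/
def stage (k : ℕ) (i : Fin n) : RBox := if k ≤ r i then pushed c r L i else c i

lemma pushed_c0 (i : Fin n) : (pushed c r L i).c 0 = (c i).c 0 + ((r i : ℚ) + 1) * L := by
  simp [pushed, RBox.translate]

lemma pushed_cl (i : Fin n) {l : Fin 3} (hl : l ≠ 0) : (pushed c r L i).c l = (c i).c l := by
  simp [pushed, RBox.translate, Function.update_of_ne hl]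

lemma pushed_h (i : Fin n) (l : Fin 3) : (pushed c r L i).h l = (c i).h l := rfl

variable {c r L}

lemma stage_step (hrinj : ∀ i j, r i = r j → i = j)
    (hrmono : ∀ i j, r i < r j → (c i).c 0 ≤ (c j).c 0)
    (hLbig : ∀ i j, (c i).c 0 - (c j).c 0 + (c i).h 0 + (c j).h 0 < L) (hLpos : 0 < L)
    (hs : Pairwise fun i j => (c i).Sep (c j)) (a : Fin n) :
    Step (stage c r L (r a + 1)) (stage c r L (r a)) := by
  have hCa : stage c r L (r a + 1) a = c a := by simp [stage]
  refine ⟨a, pushed c r L a, ?_, ?_, ?_⟩
  · funext i
    by_cases hi : i = a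
    · subst hi; simp [stage]
    · have hne : r i ≠ r a := fun h => hi (hrinj _ _ h)
      simp only [Function.update_of_ne hi, stage]
      by_cases h : r a ≤ r i
      · have : r a + 1 ≤ r i := by omega
        simp [h, this]
      · have : ¬ (r a + 1 ≤ r i) := by omega
        simp [h, this]
  · rw [hCa]; exact Elem.trans _ _ _
  · intro j hj
    rw [hCa]
    have hne : r j ≠ r a := fun h => hj (hrinj _ _ h)
    by_cases h : r a + 1 ≤ r j
    · -- `j` has been moved already
      have hCj : stage c r L (r a + 1) j = pushed c r L j := by simp [stage, h]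
      rw [hCj]
      refine ⟨0, (hull_sep_iff _ _ _ _).2 (Or.inl ?_)⟩
      rw [pushed_c0, pushed_c0, pushed_h, pushed_h]
      have hr1 : ((r a : ℚ) + 2) ≤ (r j : ℚ) + 1 := by
        have : ((r a + 1 : ℕ) : ℚ) ≤ (r j : ℚ) := by exact_mod_cast h
        push_cast at this
        linarith
      have hb := hLbig a j
      have hk0 : (0 : ℚ) ≤ (r a : ℚ) := by positivity
      have hmul : ((r a : ℚ) + 2) * L ≤ ((r j : ℚ) + 1) * L :=
        mul_le_mul_of_nonneg_right hr1 hLpos.le
      have hnn : 0 ≤ ((r a : ℚ) + 1) * L := by positivity
      refine max_lt ?_ ?_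
      · nlinarith
      · nlinarith
    · -- `j` has not been moved
      have hCj : stage c r L (r a + 1) j = c j := by simp [stage, h]
      rw [hCj]
      have hrj : r j < r a := by omega
      obtain ⟨l, hl⟩ := hs (Ne.symm hj)
      by_cases hl0 : l = 0
      · subst hl0
        have hle : (c j).c 0 ≤ (c a).c 0 := hrmono _ _ hrj
        rw [abs_of_nonneg (by linarith)] at hl
        refine ⟨0, (hull_sep_iff _ _ _ _).2 (Or.inr ?_)⟩
        rw [pushed_c0, pushed_h]
        have hnn : 0 ≤ ((r a : ℚ) + 1) * L := by positivity
        refine lt_min ?_ ?_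
        · linarith
        · linarith
      · exact hull_sep_of_same (l := l) ⟨(pushed_cl c r L a hl0).symm, rfl⟩ hl

lemma pushed_sep (hrinj : ∀ i j, r i = r j → i = j)
    (hLbig : ∀ i j, (c i).c 0 - (c j).c 0 + (c i).h 0 + (c j).h 0 < L) (hLpos : 0 < L) :
    Pairwise fun i j => (pushed c r L i).h 0 + (pushed c r L j).h 0 <
      |(pushed c r L i).c 0 - (pushed c r L j).c 0| := by
  -- the ordered version
  have key : ∀ i j, r j < r i → (pushed c r L i).h 0 + (pushed c r L j).h 0 <
      (pushed c r L i).c 0 - (pushed c r L j).c 0 := by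
    intro i j h
    rw [pushed_c0, pushed_c0, pushed_h, pushed_h]
    have h1 : ((r j : ℚ) + 1) ≤ (r i : ℚ) := by exact_mod_cast h
    have h2 : ((r j : ℚ) + 1) * L ≤ (r i : ℚ) * L := mul_le_mul_of_nonneg_right h1 hLpos.le
    have h3 := hLbig j i
    nlinarith
  intro i j hij
  rcases lt_trichotomy (r i) (r j) with h | h | h
  · have := key j i h
    rw [abs_sub_comm, add_comm]
    exact this.trans_le (le_abs_self _)
  · exact absurd (hrinj _ _ h) hij
  · exact (key i j h).trans_le (le_abs_self _)

end push

/-- Phase 1: after suitable translations along `0`, all boxes are separated along `0`. -/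
theorem phase1 {n : ℕ} (c : Fin n → RBox)
    (hs : Pairwise fun i j => (c i).Sep (c j)) :
    ∃ c₁ : Fin n → RBox, Reach c c₁ ∧ (∀ i l, (c₁ i).h l = (c i).h l) ∧
      Pairwise fun i j => (c₁ i).h 0 + (c₁ j).h 0 < |(c₁ i).c 0 - (c₁ j).c 0| := by
  classical
  let f : Fin n → ℚ := fun i => (c i).c 0
  let σ : Equiv.Perm (Fin n) := Tuple.sort f
  have hmono : Monotone (f ∘ σ) := Tuple.monotone_sort f
  let r : Fin n → ℕ := fun i => (σ.symm i : ℕ)
  have hrlt : ∀ i, r i < n := fun i => (σ.symm i).isLt
  have hrinj : ∀ i j, r i = r j → i = j := by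
    intro i j h
    exact σ.symm.injective (Fin.ext h)
  have hrmono : ∀ i j, r i < r j → (c i).c 0 ≤ (c j).c 0 := by
    intro i j h
    have := hmono (a := σ.symm i) (b := σ.symm j) (le_of_lt h)
    simpa using this
  -- the large constant
  let T : ℚ := ∑ i, (|(c i).c 0| + |(c i).h 0|)
  have hTi : ∀ i, |(c i).c 0| + |(c i).h 0| ≤ T := fun i =>
    Finset.single_le_sum (f := fun i => |(c i).c 0| + |(c i).h 0|)
      (fun i _ => by positivity) (Finset.mem_univ i)
  have hT0 : 0 ≤ T := Finset.sum_nonneg fun i _ => by positivity
  let L : ℚ := 2 * T + 1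
  have hLbig : ∀ i j, (c i).c 0 - (c j).c 0 + (c i).h 0 + (c j).h 0 < L := by
    intro i j
    have h1 := hTi i
    have h2 := hTi j
    have h3 := le_abs_self ((c i).c 0)
    have h4 := neg_abs_le ((c j).c 0)
    have h5 := le_abs_self ((c i).h 0)
    have h6 := le_abs_self ((c j).h 0)
    show _ < 2 * T + 1
    linarith
  have hLpos : 0 < L := by
    show 0 < 2 * T + 1
    linarith
  -- the stages
  have hCn : stage c r L n = c := by
    funext i; simp [stage, not_le.2 (hrlt i)]
  have hC0 : stage c r L 0 = pushed c r L := by
    funext i; simp [stage]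
  have hreach : ∀ k, k ≤ n → Reach c (stage c r L (n - k)) := by
    intro k
    induction k with
    | zero =>
      intro _
      rw [Nat.sub_zero, hCn]
      exact Relation.ReflTransGen.refl
    | succ k ih =>
      intro hk
      refine (ih (by omega)).tail ?_
      have hlt : n - (k + 1) < n := by omega
      let a : Fin n := σ ⟨n - (k + 1), hlt⟩
      have hra : r a = n - (k + 1) := by simp [r, a]
      have := stage_step hrinj hrmono hLbig hLpos hs a
      rw [hra] at this
      have e : n - (k + 1) + 1 = n - k := by omega
      rwa [e] at this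
  refine ⟨pushed c r L, ?_, fun i l => rfl, pushed_sep hrinj hLbig hLpos⟩
  have := hreach n le_rfl
  simpa [hC0] using this

/-! ### The canonical configuration -/

/-- Intermediate target. -/
def midTarget {n : ℕ} (c : Fin n → RBox) : Fin n → RBox := fun i =>
  ⟨![(c i).c 0, 3 * (i.val : ℚ), 0], ![(c i).h 0, 1, (c i).h 1 * (c i).h 2]⟩

theorem reach_canon {n : ℕ} (c : Fin n → RBox) (hh : ∀ i l, 0 < (c i).h l)
    (hs : Pairwise fun i j => (c i).Sep (c j)) :
    Reach c (canon fun i => ∏ l, (c i).h l) := by
  obtain ⟨c₁, h1, hh1, hsep1⟩ := phase1 c hs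
  have hh1' : ∀ i l, 0 < (c₁ i).h l := fun i l => by rw [hh1]; exact hh i l
  -- phase 2
  have h2 : Reach c₁ (midTarget c₁) := by
    refine allFree (l := 0) (α := 1) (β := 2) (by decide) (by decide) (by decide) _ _ ?_ ?_ ?_ ?_ ?_
      hsep1
    · intro i; exact hh1' i 1
    · intro i; simp [midTarget]
    · intro i
      have := mul_pos (hh1' i 1) (hh1' i 2)
      simpa [midTarget] using this
    · intro i; simp [midTarget, Same]
    · intro i; simp [midTarget]
  -- phase 3
  have h3 : Reach (midTarget c₁) (canon fun i => ∏ l, (c i).h l) := by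
    refine allFree (l := 1) (α := 0) (β := 2) (by decide) (by decide) (by decide) _ _ ?_ ?_ ?_ ?_ ?_ ?_
    · intro i; simpa [midTarget] using hh1' i 0
    · intro i
      have : 0 < ∏ l, (c i).h l := Finset.prod_pos fun l _ => hh i l
      simpa [canon] using this
    · intro i; simp [canon]
    · intro i; simp [midTarget, canon, Same]
    · intro i
      simp [midTarget, canon, Fin.prod_univ_three, hh1]
      ring
    · intro i j hij
      have hij' : (i.val : ℚ) ≠ j.val := by
        intro h
        exact hij (Fin.ext (by exact_mod_cast h))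
      have hint : (1 : ℚ) ≤ |(i.val : ℚ) - j.val| := by
        have h1 : (i.val : ℤ) - j.val ≠ 0 := by
          intro h
          apply hij'
          have : (i.val : ℤ) = j.val := by linarith
          exact_mod_cast this
        have h2 : (1 : ℤ) ≤ |(i.val : ℤ) - j.val| := Int.one_le_abs h1
        exact_mod_cast h2
      simp only [midTarget, Matrix.cons_val_one, Matrix.cons_val_zero]
      rw [← mul_sub, abs_mul]
      norm_num
      linarith
  exact h1.trans (h2.trans h3)

end Crest.Agent.S0170Lib
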