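import Crest.Agent.S0170Lib.Flow
import Crest.Agent.S0170Lib.Plan
import Crest.Agent.S0170Lib.EffApi

/-!
# Assembly of the S0170 proof from `realize_step`
-/

set_option autoImplicit false

open scoped ContDiff
open Set
open Crest.AnalysisR.BoxFlow

namespace Crest.Agent.S0170Lib

/-- Positivity is preserved by the elementary moves. -/
lemma Elem.pos {B B' : RBox} (h : Elem B B') (hB : ∀ l, 0 < B.h l) : ∀ l, 0 < B'.h l := by
  cases h with
  | trans j d => exact hB
  | scale j₁ j₂ r hne hr =>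
    intro l
    by_cases h2 : l = j₂
    · subst h2
      simp only [RBox.scale, Function.update_self]
      exact div_pos (hB _) hr
    · by_cases h1 : l = j₁
      · subst h1
        simp only [RBox.scale, Function.update_of_ne h2, Function.update_self]
        exact mul_pos hr (hB _)
      · simp only [RBox.scale, Function.update_of_ne h2, Function.update_of_ne h1]
        exact hB _

lemma Step.pos {n : ℕ} {c c' : Fin n → RBox} (h : Step c c') (hc : ∀ i l, 0 < (c i).h l) :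
    ∀ i l, 0 < (c' i).h l := by
  obtain ⟨i, B', rfl, hE, -⟩ := h
  intro j l
  by_cases hj : j = i
  · subst hj
    simpa using hE.pos (hc j) l
  · simpa [Function.update_of_ne hj] using hc j l

lemma Reach.pos {n : ℕ} {c c' : Fin n → RBox} (h : Reach c c') (hc : ∀ i l, 0 < (c i).h l) :
    ∀ i l, 0 < (c' i).h l := by
  induction h with
  | refl => exact hc
  | tail _ hs ih => exact hs.pos ih

lemma spaceDiv_add {U V : Field} (hU : ContDiff ℝ ∞ U) (hV : ContDiff ℝ ∞ V)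
    (p : ℝ × (Fin 3 → ℝ)) : spaceDiv (U + V) p = spaceDiv U p + spaceDiv V p := by
  have h1 : DifferentiableAt ℝ U p := (hU.differentiable (by simp)) p
  have h2 : DifferentiableAt ℝ V p := (hV.differentiable (by simp)) p
  simp only [spaceDiv]
  rw [← Finset.sum_add_distrib]
  refine Finset.sum_congr rfl fun j _ => ?_
  rw [fderiv_add h1 h2]
  rfl

/-- The sum of two fields supported in consecutive windows. -/
theorem FieldOK.add {U V : Field} {t₀ t₁ t₂ : ℝ} (h01 : t₀ ≤ t₁) (h12 : t₁ ≤ t₂)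
    (hU : FieldOK U t₀ t₁) (hV : FieldOK V t₁ t₂) : FieldOK (U + V) t₀ t₂ where
  smooth := hU.smooth.add hV.smooth
  compact := hU.compact.add hV.compact
  eff := Effective.add' hU.smooth hV.smooth hU.eff hV.eff
  div := fun p => by rw [spaceDiv_add hU.smooth hV.smooth, hU.div, hV.div, add_zero]
  time := fun p hp => by
    have h1 : U p = 0 := hU.time p fun h => hp ⟨h.1, h.2.trans_le h12⟩
    have h2 : V p = 0 := hV.time p fun h => hp ⟨h01.trans_lt h.1, h.2⟩
    simp [h1, h2]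

lemma FieldOK.eq_zero_Icc_left {U : Field} {t₀ t₁ : ℝ} (hU : FieldOK U t₀ t₁)
    (p : ℝ × (Fin 3 → ℝ)) (hp : t₁ ≤ p.1) : U p = 0 :=
  hU.time p fun h => absurd h.2 (not_lt.2 hp)

lemma FieldOK.eq_zero_Icc_right {U : Field} {t₀ t₁ : ℝ} (hU : FieldOK U t₀ t₁)
    (p : ℝ × (Fin 3 → ℝ)) (hp : p.1 ≤ t₀) : U p = 0 :=
  hU.time p fun h => absurd h.1 (not_lt.2 hp)

/-- The zero field. -/
theorem FieldOK.zero (t₀ t₁ : ℝ) : FieldOK (0 : Field) t₀ t₁ where
  smooth := contDiff_const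
  compact := HasCompactSupport.zero
  eff := Effective.zero'
  div := fun p => by
    have : fderiv ℝ (0 : Field) p = 0 := by
      show fderiv ℝ (fun _ => (0 : Fin 3 → ℝ)) p = 0
      simp
    simp [spaceDiv, this]
  time := fun _ _ => rfl

lemma aff_self (B : RBox) (hB : ∀ l, B.h l ≠ 0) (x : Fin 3 → ℝ) : aff B B x = x := by
  funext j
  simp only [aff]
  rw [div_self (hB j)]
  simp

/-- The zero field is good for the constant plan. -/
theorem good_zero {ι : Type*} (t₀ t₁ : ℝ) (h01 : t₀ ≤ t₁) (c : ι → RBox)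
    (hc : ∀ i l, 0 < (c i).h l) : Good (0 : Field) t₀ t₁ c c := by
  intro i
  refine ⟨univ, isOpen_univ, subset_univ _, fun y hy _ => ?_⟩
  have := constant_on_window (U := 0) hy (fun _ _ => rfl) t₁ ⟨h01, le_rfl⟩
  rw [this, aff_self _ (fun l => (hc i l).ne')]

/-- From single steps to plans. -/
theorem reach_realize
    (hstep : ∀ {n : ℕ} {c c' : Fin n → RBox}, (∀ i l, 0 < (c i).h l) → Step c c' →
      ∀ t₀ t₁ : ℚ, t₀ < t₁ → ∃ U : Field, FieldOK U t₀ t₁ ∧ Good U t₀ t₁ c c')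
    {n : ℕ} {c c' : Fin n → RBox} (hc : ∀ i l, 0 < (c i).h l) (hr : Reach c c') :
    ∀ t₀ t₁ : ℚ, t₀ < t₁ → ∃ U : Field, FieldOK U t₀ t₁ ∧ Good U t₀ t₁ c c' := by
  induction hr with
  | refl =>
    intro t₀ t₁ h
    have h' : (t₀ : ℝ) ≤ t₁ := by exact_mod_cast h.le
    exact ⟨0, FieldOK.zero _ _, good_zero _ _ h' c hc⟩
  | @tail d e hcd hde ih =>
    intro t₀ t₁ h
    have hd : ∀ i l, 0 < (d i).h l := Reach.pos hcd hc
    have hm0 : t₀ < (t₀ + t₁) / 2 := by linarith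
    have hm1 : (t₀ + t₁) / 2 < t₁ := by linarith
    obtain ⟨U, hU, hU'⟩ := ih t₀ ((t₀ + t₁) / 2) hm0
    obtain ⟨V, hV, hV'⟩ := hstep hd hde ((t₀ + t₁) / 2) t₁ hm1
    have hm0' : (t₀ : ℝ) ≤ (((t₀ + t₁) / 2 : ℚ) : ℝ) := by exact_mod_cast hm0.le
    have hm1' : (((t₀ + t₁) / 2 : ℚ) : ℝ) ≤ t₁ := by exact_mod_cast hm1.le
    refine ⟨U + V, FieldOK.add hm0' hm1' hU hV, ?_⟩
    refine Good.comp hm0' hm1' hc hd (hU'.congr ?_) (hV'.congr ?_)
    · intro p hp
      have := hV.eq_zero_Icc_right p hp.2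
      simp [this]
    · intro p hp
      have := hU.eq_zero_Icc_left p hp.1
      simp [this]

/-- Disjoint closed boxes with positive half-widths are separated along a coordinate. -/
lemma sep_of_disjoint {B B' : RBox} (hB : ∀ l, 0 < B.h l) (hB' : ∀ l, 0 < B'.h l)
    (hd : Disjoint (box B.c B.h) (box B'.c B'.h)) : B.Sep B' := by
  by_contra hne
  have hle : ∀ l, |B.c l - B'.c l| ≤ B.h l + B'.h l := by
    intro l
    by_contra hl
    exact hne ⟨l, not_le.1 hl⟩
  -- the common point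
  let x : Fin 3 → ℝ := fun l =>
    (B.c l : ℝ) + ((B'.c l : ℝ) - B.c l) * (B.h l / (B.h l + B'.h l))
  have hx : ∀ l, |x l - (B.c l : ℝ)| ≤ B.h l ∧ |x l - (B'.c l : ℝ)| ≤ B'.h l := by
    intro l
    have h1 : (0 : ℝ) < B.h l := by exact_mod_cast hB l
    have h2 : (0 : ℝ) < B'.h l := by exact_mod_cast hB' l
    have h3 : |(B.c l : ℝ) - B'.c l| ≤ (B.h l : ℝ) + B'.h l := by exact_mod_cast hle l
    have hs : (0 : ℝ) < (B.h l : ℝ) + B'.h l := by positivity
    have e1 : x l - (B.c l : ℝ) = ((B'.c l : ℝ) - B.c l) * (B.h l / (B.h l + B'.h l)) := by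
      simp only [x]; ring
    have e2 : x l - (B'.c l : ℝ) = ((B.c l : ℝ) - B'.c l) * (B'.h l / (B.h l + B'.h l)) := by
      simp only [x]; field_simp; ring
    constructor
    · rw [e1, abs_mul, abs_of_pos (div_pos h1 hs), abs_sub_comm]
      calc _ ≤ ((B.h l : ℝ) + B'.h l) * (B.h l / (B.h l + B'.h l)) := by gcongr
        _ = B.h l := by field_simp
    · rw [e2, abs_mul, abs_of_pos (div_pos h2 hs)]
      calc _ ≤ ((B.h l : ℝ) + B'.h l) * (B'.h l / (B.h l + B'.h l)) := by gcongr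
        _ = B'.h l := by field_simp
  exact Set.disjoint_left.1 hd (show x ∈ box B.c B.h from fun l => (hx l).1) (fun l => (hx l).2)

/-- **The final assembly**: the S0170 statement from `realize_step`. -/
theorem final_of_step
    (hstep : ∀ {n : ℕ} {c c' : Fin n → RBox}, (∀ i l, 0 < (c i).h l) → Step c c' →
      ∀ t₀ t₁ : ℚ, t₀ < t₁ → ∃ U : Field, FieldOK U t₀ t₁ ∧ Good U t₀ t₁ c c')
    (n : ℕ) (a b h k : Fin n → Fin 3 → ℚ)
    (hh : ∀ i j, 0 < h i j) (hk : ∀ i j, 0 < k i j)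
    (ha : Pairwise fun i i' => Disjoint (box (a i) (h i)) (box (a i') (h i')))
    (hb : Pairwise fun i i' => Disjoint (box (b i) (k i)) (box (b i') (k i')))
    (hvol : ∀ i, ∏ j : Fin 3, k i j / h i j = 1) :
    ∃ (U : Field) (Φ : ℝ → (Fin 3 → ℝ) → (Fin 3 → ℝ)),
      ContDiff ℝ ∞ U ∧ HasCompactSupport U ∧ Effective U ∧
      (∀ p : ℝ × (Fin 3 → ℝ), p.1 ∉ Set.Icc (1 / 4 : ℝ) (3 / 4) → U p = 0) ∧
      (∀ p : ℝ × (Fin 3 → ℝ), spaceDiv U p = 0) ∧ IsFlow U Φ ∧
      ∀ i : Fin n, ∃ O : Set (Fin 3 → ℝ), IsOpen O ∧ box (a i) (h i) ⊆ O ∧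
        ∀ x ∈ O, Φ 1 x = fun j => (b i j : ℝ) + ((k i j / h i j : ℚ) : ℝ) * (x j - (a i j : ℝ)) := by
  -- configurations
  let c : Fin n → RBox := fun i => ⟨a i, h i⟩
  let c' : Fin n → RBox := fun i => ⟨b i, k i⟩
  have hc : ∀ i l, 0 < (c i).h l := hh
  have hc' : ∀ i l, 0 < (c' i).h l := hk
  have hs : Pairwise fun i j => (c i).Sep (c j) := fun i j hij =>
    sep_of_disjoint (hc i) (hc j) (ha hij)
  have hs' : Pairwise fun i j => (c' i).Sep (c' j) := fun i j hij =>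
    sep_of_disjoint (hc' i) (hc' j) (hb hij)
  have hw : (fun i => ∏ l, (c' i).h l) = fun i => ∏ l, (c i).h l := by
    funext i
    have h1 := hvol i
    rw [Finset.prod_div_distrib, div_eq_one_iff_eq
      (Finset.prod_ne_zero_iff.2 fun l _ => (hh i l).ne')] at h1
    exact h1
  have hR : Reach c c' := by
    have r1 := reach_canon c hc hs
    have r2 := reach_canon c' hc' hs'
    rw [hw] at r2
    exact r1.trans (reach_symm r2)
  obtain ⟨U, hU, hG⟩ := reach_realize hstep hc hR (1 / 4) (3 / 4) (by norm_num)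
  have e1 : (((1 / 4 : ℚ)) : ℝ) = 1 / 4 := by norm_num
  have e2 : (((3 / 4 : ℚ)) : ℝ) = 3 / 4 := by norm_num
  rw [e1, e2] at hU hG
  obtain ⟨Φ, hΦ⟩ := exists_flow hU.smooth hU.compact
  refine ⟨U, Φ, hU.smooth, hU.compact, hU.eff, ?_, hU.div, hΦ, ?_⟩
  · intro p hp
    exact hU.time p fun h => hp (Ioo_subset_Icc_self h)
  · intro i
    obtain ⟨O, hO, hsub, hg⟩ := hG i
    refine ⟨O, hO, hsub, fun x hx => ?_⟩
    have hy : ∀ t, HasDerivAt (fun s => Φ s x) (U (t, Φ t x)) t := fun t => hΦ.2 t x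
    have h0 : Φ (1 / 4) x = x := by
      have := constant_on_window (U := U) (y := fun s => Φ s x) (t₀ := 0) (t₁ := 1 / 4)
        (fun t _ => hy t) (fun p hp => hU.eq_zero_Icc_right p hp.2) (1 / 4)
        ⟨by norm_num, le_rfl⟩
      simpa [hΦ.1 x] using this
    have h1 : Φ 1 x = Φ (3 / 4) x := by
      have := constant_on_window (U := U) (y := fun s => Φ s x) (t₀ := 3 / 4) (t₁ := 1)
        (fun t _ => hy t) (fun p hp => hU.eq_zero_Icc_left p hp.1) 1
        ⟨by norm_num, le_rfl⟩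
      simpa using this
    have h2 : Φ (3 / 4) x = aff (c i) (c' i) (Φ (1 / 4) x) :=
      hg (fun s => Φ s x) (fun t _ => hy t) (by show Φ (1 / 4) x ∈ O; rw [h0]; exact hx)
    rw [h1, h2, h0]
    rfl

end Crest.Agent.S0170Lib
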