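/-
S0170 library, module C (helper71): realisation of one step of a plan by a field.

The field of a step is a curl of a product:
`U = c₀ T(t) (F₁(x_{j₁}) F₂'(x_{j₂}) F₃(x_{j₃}) e_{j₁} - F₁'(x_{j₁}) F₂(x_{j₂}) F₃(x_{j₃}) e_{j₂})`.
-/
import Crest.Agent.S0170Lib.EffApi
import Crest.Agent.S0170Lib.Plan

set_option autoImplicit false

open scoped ContDiff
open Crest.AnalysisR.BoxFlow
open Set

namespace Crest.Agent.S0170Lib
namespace StepC

/-! ### Three distinct indices -/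

/-- Three distinct indices of `Fin 3`. -/
structure Perm3 (j₁ j₂ j₃ : Fin 3) : Prop where
  h12 : j₁ ≠ j₂
  h13 : j₁ ≠ j₃
  h23 : j₂ ≠ j₃

lemma Perm3.cases {j₁ j₂ j₃ : Fin 3} (h : Perm3 j₁ j₂ j₃) (l : Fin 3) :
    l = j₁ ∨ l = j₂ ∨ l = j₃ := by
  obtain ⟨h12, h13, h23⟩ := h
  revert l j₁ j₂ j₃
  decide

lemma Perm3.prod {j₁ j₂ j₃ : Fin 3} (h : Perm3 j₁ j₂ j₃) (f : Fin 3 → ℝ) :
    f 0 * f 1 * f 2 = f j₁ * f j₂ * f j₃ := by
  have hl : (j₁, j₂, j₃) ∈ ([(0, 1, 2), (0, 2, 1), (1, 0, 2), (1, 2, 0), (2, 0, 1), (2, 1, 0)] :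
      List (Fin 3 × Fin 3 × Fin 3)) := by
    obtain ⟨h12, h13, h23⟩ := h
    revert j₁ j₂ j₃
    decide
  simp only [List.mem_cons, Prod.mk.injEq, List.not_mem_nil, or_false] at hl
  rcases hl with ⟨rfl, rfl, rfl⟩ | ⟨rfl, rfl, rfl⟩ | ⟨rfl, rfl, rfl⟩ | ⟨rfl, rfl, rfl⟩ |
    ⟨rfl, rfl, rfl⟩ | ⟨rfl, rfl, rfl⟩ <;> ring

lemma Perm3.sum {j₁ j₂ j₃ : Fin 3} (h : Perm3 j₁ j₂ j₃) (f : Fin 3 → ℝ) :
    ∑ l, f l = f j₁ + f j₂ + f j₃ := by
  have hl : (j₁, j₂, j₃) ∈ ([(0, 1, 2), (0, 2, 1), (1, 0, 2), (1, 2, 0), (2, 0, 1), (2, 1, 0)] :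
      List (Fin 3 × Fin 3 × Fin 3)) := by
    obtain ⟨h12, h13, h23⟩ := h
    revert j₁ j₂ j₃
    decide
  rw [Fin.sum_univ_three]
  simp only [List.mem_cons, Prod.mk.injEq, List.not_mem_nil, or_false] at hl
  rcases hl with ⟨rfl, rfl, rfl⟩ | ⟨rfl, rfl, rfl⟩ | ⟨rfl, rfl, rfl⟩ | ⟨rfl, rfl, rfl⟩ |
    ⟨rfl, rfl, rfl⟩ | ⟨rfl, rfl, rfl⟩ <;> ring

lemma exists_perm3_of_ne {j₁ j₂ : Fin 3} (h : j₁ ≠ j₂) : ∃ j₃, Perm3 j₁ j₂ j₃ := by
  have : ∃ j₃, j₁ ≠ j₃ ∧ j₂ ≠ j₃ := by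
    revert j₁ j₂; decide
  obtain ⟨j₃, h1, h2⟩ := this
  exact ⟨j₃, h, h1, h2⟩

lemma exists_perm3 (j₁ : Fin 3) : ∃ j₂ j₃, Perm3 j₁ j₂ j₃ := by
  have : ∃ j₂, j₁ ≠ j₂ := by
    revert j₁; decide
  obtain ⟨j₂, h⟩ := this
  obtain ⟨j₃, h3⟩ := exists_perm3_of_ne h
  exact ⟨j₂, j₃, h3⟩

/-! ### The step field -/

/-- Distribute three factors on the three coordinates. -/
def sel (j₁ j₂ : Fin 3) (A₁ A₂ A₃ : ℝ → ℝ) : Fin 3 → ℝ → ℝ :=
  fun l => if l = j₁ then A₁ else if l = j₂ then A₂ else A₃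

/-- The four factors of a tensor field. -/
def facs (T : ℝ → ℝ) (j₁ j₂ : Fin 3) (A₁ A₂ A₃ : ℝ → ℝ) : Fin 4 → ℝ → ℝ :=
  ![T, sel j₁ j₂ A₁ A₂ A₃ 0, sel j₁ j₂ A₁ A₂ A₃ 1, sel j₁ j₂ A₁ A₂ A₃ 2]

lemma facs_forall {P : (ℝ → ℝ) → Prop} {T : ℝ → ℝ} {j₁ j₂ : Fin 3} {A₁ A₂ A₃ : ℝ → ℝ}
    (hT : P T) (h1 : P A₁) (h2 : P A₂) (h3 : P A₃) (i : Fin 4) : P (facs T j₁ j₂ A₁ A₂ A₃ i) := by
  have hsel : ∀ l, P (sel j₁ j₂ A₁ A₂ A₃ l) := by
    intro l
    unfold sel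
    split_ifs <;> assumption
  fin_cases i
  · exact hT
  · exact hsel 0
  · exact hsel 1
  · exact hsel 2

lemma tensorField_facs {j₁ j₂ j₃ : Fin 3} (h : Perm3 j₁ j₂ j₃) (c : ℝ) (T A₁ A₂ A₃ : ℝ → ℝ)
    (j : Fin 3) (p : ℝ × (Fin 3 → ℝ)) :
    tensorField c (facs T j₁ j₂ A₁ A₂ A₃) j p =
      Pi.single j (c * (T p.1 * (A₁ (p.2 j₁) * A₂ (p.2 j₂) * A₃ (p.2 j₃)))) := by
  have key := h.prod (fun l => sel j₁ j₂ A₁ A₂ A₃ l (p.2 l))
  have e1 : sel j₁ j₂ A₁ A₂ A₃ j₁ = A₁ := by simp [sel]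
  have e2 : sel j₁ j₂ A₁ A₂ A₃ j₂ = A₂ := by simp [sel, h.h12.symm]
  have e3 : sel j₁ j₂ A₁ A₂ A₃ j₃ = A₃ := by simp [sel, h.h13.symm, h.h23.symm]
  simp only [e1, e2, e3] at key
  rw [← key]
  simp only [tensorField, facs, Matrix.cons_val_zero, Matrix.cons_val_one, Matrix.cons_val]
  congr 2
  ring

/-- The field of a step. -/
noncomputable def stepField (c₀ : ℝ) (T F₁ F₂ F₃ : ℝ → ℝ) (j₁ j₂ : Fin 3) : Field :=
  tensorField c₀ (facs T j₁ j₂ F₁ (deriv F₂) F₃) j₁ +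
    tensorField (-c₀) (facs T j₁ j₂ (deriv F₁) F₂ F₃) j₂

section field
variable {j₁ j₂ j₃ : Fin 3} {c₀ : ℝ} {T F₁ F₂ F₃ : ℝ → ℝ}

lemma stepField_apply₁ (h : Perm3 j₁ j₂ j₃) (p : ℝ × (Fin 3 → ℝ)) :
    stepField c₀ T F₁ F₂ F₃ j₁ j₂ p j₁ =
      c₀ * (T p.1 * (F₁ (p.2 j₁) * deriv F₂ (p.2 j₂) * F₃ (p.2 j₃))) := by
  simp only [stepField, Pi.add_apply, tensorField_facs h]
  simp [h.h12]

lemma stepField_apply₂ (h : Perm3 j₁ j₂ j₃) (p : ℝ × (Fin 3 → ℝ)) :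
    stepField c₀ T F₁ F₂ F₃ j₁ j₂ p j₂ =
      -c₀ * (T p.1 * (deriv F₁ (p.2 j₁) * F₂ (p.2 j₂) * F₃ (p.2 j₃))) := by
  simp only [stepField, Pi.add_apply, tensorField_facs h]
  simp [h.h12.symm]

lemma stepField_apply₃ (h : Perm3 j₁ j₂ j₃) (p : ℝ × (Fin 3 → ℝ)) :
    stepField c₀ T F₁ F₂ F₃ j₁ j₂ p j₃ = 0 := by
  simp only [stepField, Pi.add_apply, tensorField_facs h]
  simp [h.h13.symm, h.h23.symm]

/-- A function and its derivative vanish at a point. -/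
def VanAt (F : ℝ → ℝ) (x : ℝ) : Prop := F x = 0 ∧ deriv F x = 0

lemma stepField_eq_zero (h : Perm3 j₁ j₂ j₃) {p : ℝ × (Fin 3 → ℝ)}
    (hv : T p.1 = 0 ∨ VanAt F₁ (p.2 j₁) ∨ VanAt F₂ (p.2 j₂) ∨ F₃ (p.2 j₃) = 0) :
    stepField c₀ T F₁ F₂ F₃ j₁ j₂ p = 0 := by
  funext l
  rcases h.cases l with rfl | rfl | rfl
  · rw [stepField_apply₁ h]
    rcases hv with hv | ⟨hv, _⟩ | ⟨_, hv⟩ | hv <;> simp [hv]
  · rw [stepField_apply₂ h]
    rcases hv with hv | ⟨_, hv⟩ | ⟨hv, _⟩ | hv <;> simp [hv]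
  · rw [stepField_apply₃ h]; rfl

lemma stepField_contDiff (hT : ContDiff ℝ ∞ T) (h1 : ContDiff ℝ ∞ F₁) (h2 : ContDiff ℝ ∞ F₂)
    (h3 : ContDiff ℝ ∞ F₃) (hd1 : ContDiff ℝ ∞ (deriv F₁)) (hd2 : ContDiff ℝ ∞ (deriv F₂)) :
    ContDiff ℝ ∞ (stepField c₀ T F₁ F₂ F₃ j₁ j₂) := by
  unfold stepField
  exact (tensorField_contDiff _ _ (facs_forall (P := fun f => ContDiff ℝ ∞ f) hT h1 hd2 h3) j₁).add
    (tensorField_contDiff _ _ (facs_forall (P := fun f => ContDiff ℝ ∞ f) hT hd1 h2 h3) j₂)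

lemma stepField_effective (hc : CompConst c₀) (hc' : CompConst (-c₀)) (hT : EffFun T)
    (h1 : EffFun F₁) (h2 : EffFun F₂) (h3 : EffFun F₃) :
    Effective (stepField c₀ T F₁ F₂ F₃ j₁ j₂) := by
  have hd1 : EffFun (deriv F₁) := h1.deriv'
  have hd2 : EffFun (deriv F₂) := h2.deriv'
  unfold stepField
  exact Effective.add'
    (tensorField_contDiff _ _ (facs_forall (P := fun f => ContDiff ℝ ∞ f) hT.smooth h1.smooth hd2.smooth
      h3.smooth) j₁)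
    (tensorField_contDiff _ _ (facs_forall (P := fun f => ContDiff ℝ ∞ f) hT.smooth hd1.smooth h2.smooth
      h3.smooth) j₂)
    (tensorField_effective hc (facs_forall (P := EffFun) hT h1 hd2 h3) j₁)
    (tensorField_effective hc' (facs_forall (P := EffFun) hT hd1 h2 h3) j₂)

/-- Derivative of a component along a line, from the derivative of the restriction. -/
lemma fderiv_line_apply {U : Field} (hU : Differentiable ℝ U) (p v : ℝ × (Fin 3 → ℝ)) (l : Fin 3)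
    {d : ℝ} (h : HasDerivAt (fun s : ℝ => U (p + s • v) l) d 0) : fderiv ℝ U p v l = d := by
  have hline : HasDerivAt (fun s : ℝ => p + s • v) v 0 := by
    simpa using ((hasDerivAt_id (0 : ℝ)).smul_const v).const_add p
  have hp : DifferentiableAt ℝ U (p + (0 : ℝ) • v) := hU _
  have h1 := (hp.hasFDerivAt).comp_hasDerivAt (0 : ℝ) hline
  have h2 := (hasDerivAt_pi.1 h1) l
  simp only [zero_smul, add_zero] at h2
  exact h2.unique h

lemma line_fst (p : ℝ × (Fin 3 → ℝ)) (j : Fin 3) (s : ℝ) :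
    (p + s • ((0 : ℝ), (Pi.single j (1 : ℝ) : Fin 3 → ℝ))).1 = p.1 := by simp

lemma line_snd_same (p : ℝ × (Fin 3 → ℝ)) (j : Fin 3) (s : ℝ) :
    (p + s • ((0 : ℝ), (Pi.single j (1 : ℝ) : Fin 3 → ℝ))).2 j = p.2 j + s := by simp

lemma line_snd_ne (p : ℝ × (Fin 3 → ℝ)) {j l : Fin 3} (h : l ≠ j) (s : ℝ) :
    (p + s • ((0 : ℝ), (Pi.single j (1 : ℝ) : Fin 3 → ℝ))).2 l = p.2 l := by
  simp [h]

lemma stepField_spaceDiv (h : Perm3 j₁ j₂ j₃)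
    (hd : Differentiable ℝ (stepField c₀ T F₁ F₂ F₃ j₁ j₂))
    (h1 : Differentiable ℝ F₁) (h2 : Differentiable ℝ F₂)
    (p : ℝ × (Fin 3 → ℝ)) :
    spaceDiv (stepField c₀ T F₁ F₂ F₃ j₁ j₂) p = 0 := by
  unfold spaceDiv
  rw [h.sum (fun l => fderiv ℝ (stepField c₀ T F₁ F₂ F₃ j₁ j₂) p ((0 : ℝ), Pi.single l (1 : ℝ)) l)]
  have e1 : fderiv ℝ (stepField c₀ T F₁ F₂ F₃ j₁ j₂) p ((0 : ℝ), Pi.single j₁ (1 : ℝ)) j₁ =
      c₀ * (T p.1 * (deriv F₁ (p.2 j₁) * deriv F₂ (p.2 j₂) * F₃ (p.2 j₃))) := by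
    apply fderiv_line_apply hd
    simp only [stepField_apply₁ h, line_fst, line_snd_same, line_snd_ne _ h.h12.symm,
      line_snd_ne _ h.h13.symm]
    have h0 : HasDerivAt (fun s => F₁ (p.2 j₁ + s)) (deriv F₁ (p.2 j₁)) 0 := by
      have := (h1 (p.2 j₁ + 0)).hasDerivAt.comp_const_add (p.2 j₁) 0
      simpa using this
    exact (((h0.mul_const _).mul_const _).const_mul _).const_mul _
  have e2 : fderiv ℝ (stepField c₀ T F₁ F₂ F₃ j₁ j₂) p ((0 : ℝ), Pi.single j₂ (1 : ℝ)) j₂ =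
      -c₀ * (T p.1 * (deriv F₁ (p.2 j₁) * deriv F₂ (p.2 j₂) * F₃ (p.2 j₃))) := by
    apply fderiv_line_apply hd
    simp only [stepField_apply₂ h, line_fst, line_snd_same, line_snd_ne _ h.h12,
      line_snd_ne _ h.h23.symm]
    have h0 : HasDerivAt (fun s => F₂ (p.2 j₂ + s)) (deriv F₂ (p.2 j₂)) 0 := by
      have := (h2 (p.2 j₂ + 0)).hasDerivAt.comp_const_add (p.2 j₂) 0
      simpa using this
    exact (((h0.const_mul _).mul_const _).const_mul _).const_mul _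
  have e3 : fderiv ℝ (stepField c₀ T F₁ F₂ F₃ j₁ j₂) p ((0 : ℝ), Pi.single j₃ (1 : ℝ)) j₃ = 0 := by
    apply fderiv_line_apply hd
    simp only [stepField_apply₃ h]
    exact hasDerivAt_const _ _
  rw [e1, e2, e3]
  ring

end field

/-! ### Uniqueness of solutions -/

lemma step_curve_unique {U : Field} (hU : ContDiff ℝ ∞ U) (hC : HasCompactSupport U) {t₀ t₁ : ℝ}
    (ht : t₀ ≤ t₁) {y γ : ℝ → Fin 3 → ℝ}
    (hy : ∀ t ∈ Icc t₀ t₁, HasDerivAt y (U (t, y t)) t)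
    (hγ : ∀ t ∈ Icc t₀ t₁, HasDerivAt γ (U (t, γ t)) t) (h0 : y t₀ = γ t₀) : y t₁ = γ t₁ := by
  obtain ⟨K, hK⟩ := ContDiff.lipschitzWith_of_hasCompactSupport (𝕂 := ℝ) hC hU (by simp)
  have hv : ∀ t ∈ Ico t₀ t₁, LipschitzOnWith K (fun x => U (t, x)) (univ : Set (Fin 3 → ℝ)) := by
    intro t _
    have : LipschitzWith K (fun x => U (t, x)) := by
      have h := hK.comp (LipschitzWith.prodMk_left t)
      rw [mul_one] at h
      exact h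
    exact this.lipschitzOnWith
  have hcont : ∀ {z : ℝ → Fin 3 → ℝ}, (∀ t ∈ Icc t₀ t₁, HasDerivAt z (U (t, z t)) t) →
      ContinuousOn z (Icc t₀ t₁) :=
    fun hz t ht => (hz t ht).continuousAt.continuousWithinAt
  exact ODE_solution_unique_of_mem_Icc_right (v := fun t x => U (t, x)) (s := fun _ => univ) hv
    (hcont hy) (fun t ht => (hy t (Ico_subset_Icc_self ht)).hasDerivWithinAt)
    (fun _ _ => mem_univ _) (hcont hγ) (fun t ht => (hγ t (Ico_subset_Icc_self ht)).hasDerivWithinAt)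
    (fun _ _ => mem_univ _) h0 ⟨ht, le_rfl⟩

/-! ### Local extrema -/

lemma deriv_eq_zero_of_forall_le {f : ℝ → ℝ} {x : ℝ} (h : ∀ y, f x ≤ f y) : deriv f x = 0 :=
  IsLocalMin.deriv_eq_zero (Filter.Eventually.of_forall h)

lemma deriv_eq_zero_of_forall_ge {f : ℝ → ℝ} {x : ℝ} (h : ∀ y, f y ≤ f x) : deriv f x = 0 :=
  IsLocalMax.deriv_eq_zero (Filter.Eventually.of_forall h)

/-! ### The time profile -/

/-- The smooth transition from `0` at `t₀` to `1` at `t₁`. -/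
noncomputable def prof (t₀ t₁ : ℚ) (t : ℝ) : ℝ :=
  Real.smoothTransition (((1 / (t₁ - t₀) : ℚ) : ℝ) * t + ((-t₀ / (t₁ - t₀) : ℚ) : ℝ))

section prof
variable {t₀ t₁ : ℚ}

lemma prof_eff (t₀ t₁ : ℚ) : EffFun (prof t₀ t₁) :=
  EffFun.smoothTransition'.comp_affine _ _

lemma prof_arg (ht : t₀ < t₁) (t : ℝ) :
    ((1 / (t₁ - t₀) : ℚ) : ℝ) * t + ((-t₀ / (t₁ - t₀) : ℚ) : ℝ) =
      (t - t₀) / ((t₁ : ℝ) - t₀) := by
  have h : (0 : ℝ) < (t₁ : ℝ) - t₀ := sub_pos.2 (by exact_mod_cast ht)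
  push_cast
  field_simp
  ring

lemma prof_eq_zero (ht : t₀ < t₁) {t : ℝ} (h : t ≤ t₀) : prof t₀ t₁ t = 0 := by
  have h0 : (0 : ℝ) < (t₁ : ℝ) - t₀ := sub_pos.2 (by exact_mod_cast ht)
  unfold prof
  rw [prof_arg ht]
  exact Real.smoothTransition.zero_of_nonpos (div_nonpos_of_nonpos_of_nonneg (by linarith) h0.le)

lemma prof_eq_one (ht : t₀ < t₁) {t : ℝ} (h : (t₁ : ℝ) ≤ t) : prof t₀ t₁ t = 1 := by
  have h0 : (0 : ℝ) < (t₁ : ℝ) - t₀ := sub_pos.2 (by exact_mod_cast ht)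
  unfold prof
  rw [prof_arg ht]
  apply Real.smoothTransition.one_of_one_le
  rw [le_div_iff₀ h0]
  linarith

lemma prof_nonneg (t₀ t₁ : ℚ) (t : ℝ) : 0 ≤ prof t₀ t₁ t := Real.smoothTransition.nonneg _

lemma prof_le_one (t₀ t₁ : ℚ) (t : ℝ) : prof t₀ t₁ t ≤ 1 := Real.smoothTransition.le_one _

lemma prof_differentiable (t₀ t₁ : ℚ) : Differentiable ℝ (prof t₀ t₁) :=
  (prof_eff t₀ t₁).smooth.differentiable (by simp)

lemma deriv_prof_eq_zero (ht : t₀ < t₁) {t : ℝ} (h : t ∉ Ioo (t₀ : ℝ) t₁) :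
    deriv (prof t₀ t₁) t = 0 := by
  by_cases h1 : t ≤ t₀
  · apply deriv_eq_zero_of_forall_le
    intro y
    rw [prof_eq_zero ht h1]
    exact prof_nonneg _ _ _
  · have h2 : (t₁ : ℝ) ≤ t := by
      by_contra h2
      exact h ⟨not_le.1 h1, not_le.1 h2⟩
    apply deriv_eq_zero_of_forall_ge
    intro y
    rw [prof_eq_one ht h2]
    exact prof_le_one _ _ _

end prof

/-! ### Plateau functions -/

/-- Equal to `1` on `[lo-δ, hi+δ]`, vanishing outside `[lo-2δ, hi+2δ]`. -/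
noncomputable def plat (lo hi δ : ℚ) (x : ℝ) : ℝ :=
  Real.smoothTransition (((1 / δ : ℚ) : ℝ) * x + ((-(lo - 2 * δ) / δ : ℚ) : ℝ)) *
    Real.smoothTransition (((-1 / δ : ℚ) : ℝ) * x + (((hi + 2 * δ) / δ : ℚ) : ℝ))

section plat
variable {lo hi δ : ℚ}

lemma plat_eff (lo hi δ : ℚ) : EffFun (plat lo hi δ) :=
  (EffFun.smoothTransition'.comp_affine _ _).mul (EffFun.smoothTransition'.comp_affine _ _)

lemma plat_arg₁ (hδ : 0 < δ) (x : ℝ) :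
    ((1 / δ : ℚ) : ℝ) * x + ((-(lo - 2 * δ) / δ : ℚ) : ℝ) = (x - lo + 2 * δ) / δ := by
  have h : (δ : ℝ) ≠ 0 := by exact_mod_cast hδ.ne'
  push_cast
  field_simp
  ring

lemma plat_arg₂ (hδ : 0 < δ) (x : ℝ) :
    ((-1 / δ : ℚ) : ℝ) * x + (((hi + 2 * δ) / δ : ℚ) : ℝ) = (hi + 2 * δ - x) / δ := by
  have h : (δ : ℝ) ≠ 0 := by exact_mod_cast hδ.ne'
  push_cast
  field_simp
  ring

lemma plat_eq_one (hδ : 0 < δ) {x : ℝ} (h1 : (lo : ℝ) - δ ≤ x) (h2 : x ≤ (hi : ℝ) + δ) :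
    plat lo hi δ x = 1 := by
  have h : (0 : ℝ) < δ := by exact_mod_cast hδ
  unfold plat
  rw [plat_arg₁ hδ, plat_arg₂ hδ, Real.smoothTransition.one_of_one_le,
    Real.smoothTransition.one_of_one_le, one_mul]
  · rw [le_div_iff₀ h]; linarith
  · rw [le_div_iff₀ h]; linarith

lemma plat_eq_zero (hδ : 0 < δ) {x : ℝ} (h1 : x ≤ (lo : ℝ) - 2 * δ ∨ (hi : ℝ) + 2 * δ ≤ x) :
    plat lo hi δ x = 0 := by
  have h : (0 : ℝ) < δ := by exact_mod_cast hδ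
  unfold plat
  rw [plat_arg₁ hδ, plat_arg₂ hδ]
  rcases h1 with h1 | h1
  · rw [Real.smoothTransition.zero_of_nonpos (div_nonpos_of_nonpos_of_nonneg (by linarith) h.le),
      zero_mul]
  · rw [Real.smoothTransition.zero_of_nonpos (x := (hi + 2 * δ - x) / δ)
      (div_nonpos_of_nonpos_of_nonneg (by linarith) h.le), mul_zero]

lemma plat_nonneg (lo hi δ : ℚ) (x : ℝ) : 0 ≤ plat lo hi δ x :=
  mul_nonneg (Real.smoothTransition.nonneg _) (Real.smoothTransition.nonneg _)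

lemma plat_le_one (lo hi δ : ℚ) (x : ℝ) : plat lo hi δ x ≤ 1 :=
  mul_le_one₀ (Real.smoothTransition.le_one _) (Real.smoothTransition.nonneg _)
    (Real.smoothTransition.le_one _)

lemma plat_differentiable (lo hi δ : ℚ) : Differentiable ℝ (plat lo hi δ) :=
  (plat_eff lo hi δ).smooth.differentiable (by simp)

lemma deriv_plat_eq_zero_of_one (hδ : 0 < δ) {x : ℝ} (h1 : (lo : ℝ) - δ ≤ x)
    (h2 : x ≤ (hi : ℝ) + δ) : deriv (plat lo hi δ) x = 0 := by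
  apply deriv_eq_zero_of_forall_ge
  intro y
  rw [plat_eq_one hδ h1 h2]
  exact plat_le_one _ _ _ _

lemma plat_vanAt (hδ : 0 < δ) {x : ℝ} (h1 : x ≤ (lo : ℝ) - 2 * δ ∨ (hi : ℝ) + 2 * δ ≤ x) :
    VanAt (plat lo hi δ) x := by
  refine ⟨plat_eq_zero hδ h1, ?_⟩
  apply deriv_eq_zero_of_forall_le
  intro y
  rw [plat_eq_zero hδ h1]
  exact plat_nonneg _ _ _ _

/-- `x ↦ (x - m) plat(x)`. -/
noncomputable def lin (m lo hi δ : ℚ) (x : ℝ) : ℝ := (x - m) * plat lo hi δ x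

lemma lin_eff (hδ : 0 < δ) (m lo hi : ℚ) : EffFun (lin m lo hi δ) := by
  refine (plat_eff lo hi δ).linear_mul m (|lo| + |hi| + 2 * δ) ?_
  intro x hx
  have hδ' : (0 : ℝ) < δ := by exact_mod_cast hδ
  push_cast at hx
  apply plat_eq_zero hδ
  rcases lt_abs.1 hx with h | h
  · right
    have := le_abs_self (hi : ℝ)
    have := abs_nonneg (lo : ℝ)
    linarith
  · left
    have := neg_abs_le (lo : ℝ)
    have := abs_nonneg (hi : ℝ)
    linarith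

lemma lin_hasDerivAt (m lo hi δ : ℚ) (x : ℝ) :
    HasDerivAt (lin m lo hi δ) (plat lo hi δ x + (x - m) * deriv (plat lo hi δ) x) x := by
  have h := ((hasDerivAt_id x).sub_const (m : ℝ)).mul (plat_differentiable lo hi δ x).hasDerivAt
  simp only [id, one_mul] at h
  exact h

lemma lin_eq_of_one (hδ : 0 < δ) (m : ℚ) {x : ℝ} (h1 : (lo : ℝ) - δ ≤ x)
    (h2 : x ≤ (hi : ℝ) + δ) : lin m lo hi δ x = x - m := by
  unfold lin
  rw [plat_eq_one hδ h1 h2, mul_one]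

lemma deriv_lin_eq_of_one (hδ : 0 < δ) (m : ℚ) {x : ℝ} (h1 : (lo : ℝ) - δ ≤ x)
    (h2 : x ≤ (hi : ℝ) + δ) : deriv (lin m lo hi δ) x = 1 := by
  rw [(lin_hasDerivAt m lo hi δ x).deriv, plat_eq_one hδ h1 h2,
    deriv_plat_eq_zero_of_one hδ h1 h2]
  ring

lemma lin_vanAt (hδ : 0 < δ) (m : ℚ) {x : ℝ} (h1 : x ≤ (lo : ℝ) - 2 * δ ∨ (hi : ℝ) + 2 * δ ≤ x) :
    VanAt (lin m lo hi δ) x := by
  obtain ⟨h2, h3⟩ := plat_vanAt hδ h1
  refine ⟨?_, ?_⟩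
  · unfold lin; rw [h2, mul_zero]
  · rw [(lin_hasDerivAt m lo hi δ x).deriv, h2, h3]; ring

end plat

/-! ### General properties of the field of a step -/

/-- The hypotheses on the three space factors. -/
structure Prof (lo hi : Fin 3 → ℚ) (δ : ℚ) (j₁ j₂ j₃ : Fin 3) (F₁ F₂ F₃ : ℝ → ℝ) : Prop where
  perm : Perm3 j₁ j₂ j₃
  eff₁ : EffFun F₁
  eff₂ : EffFun F₂
  eff₃ : EffFun F₃
  van₁ : ∀ x : ℝ, x ≤ (lo j₁ : ℝ) - 2 * δ ∨ (hi j₁ : ℝ) + 2 * δ ≤ x → VanAt F₁ x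
  van₂ : ∀ x : ℝ, x ≤ (lo j₂ : ℝ) - 2 * δ ∨ (hi j₂ : ℝ) + 2 * δ ≤ x → VanAt F₂ x
  van₃ : ∀ x : ℝ, x ≤ (lo j₃ : ℝ) - 2 * δ ∨ (hi j₃ : ℝ) + 2 * δ ≤ x → VanAt F₃ x

section prof'
variable {lo hi : Fin 3 → ℚ} {δ : ℚ} {j₁ j₂ j₃ : Fin 3} {F₁ F₂ F₃ : ℝ → ℝ} {c₀ : ℝ} {t₀ t₁ : ℚ}

lemma Prof.zero_off (hp : Prof lo hi δ j₁ j₂ j₃ F₁ F₂ F₃) (T : ℝ → ℝ) {p : ℝ × (Fin 3 → ℝ)}
    (h : ∃ l, p.2 l ≤ (lo l : ℝ) - 2 * δ ∨ (hi l : ℝ) + 2 * δ ≤ p.2 l) :
    stepField c₀ T F₁ F₂ F₃ j₁ j₂ p = 0 := by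
  obtain ⟨l, hl⟩ := h
  apply stepField_eq_zero hp.perm
  rcases hp.perm.cases l with rfl | rfl | rfl
  · exact Or.inr (Or.inl (hp.van₁ _ hl))
  · exact Or.inr (Or.inr (Or.inl (hp.van₂ _ hl)))
  · exact Or.inr (Or.inr (Or.inr (hp.van₃ _ hl).1))

lemma Prof.fieldOK (hp : Prof lo hi δ j₁ j₂ j₃ F₁ F₂ F₃) (hc : CompConst c₀) (hc' : CompConst (-c₀))
    (ht : t₀ < t₁) :
    FieldOK (stepField c₀ (deriv (prof t₀ t₁)) F₁ F₂ F₃ j₁ j₂) t₀ t₁ := by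
  have hT : EffFun (deriv (prof t₀ t₁)) := (prof_eff t₀ t₁).deriv'
  have hsm : ContDiff ℝ ∞ (stepField c₀ (deriv (prof t₀ t₁)) F₁ F₂ F₃ j₁ j₂) :=
    stepField_contDiff hT.smooth hp.eff₁.smooth hp.eff₂.smooth hp.eff₃.smooth
      hp.eff₁.deriv'.smooth hp.eff₂.deriv'.smooth
  refine ⟨hsm, ?_, stepField_effective hc hc' hT hp.eff₁ hp.eff₂ hp.eff₃, ?_, ?_⟩
  · apply HasCompactSupport.intro
      (K := Icc (t₀ : ℝ) t₁ ×ˢ Set.pi univ (fun l => Icc ((lo l : ℝ) - 2 * δ) ((hi l : ℝ) + 2 * δ)))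
      (isCompact_Icc.prod (isCompact_univ_pi fun l => isCompact_Icc))
    intro p hp'
    by_cases h1 : p.1 ∈ Icc (t₀ : ℝ) t₁
    · have h2 : ¬ ∀ l, p.2 l ∈ Icc ((lo l : ℝ) - 2 * δ) ((hi l : ℝ) + 2 * δ) :=
        fun h => hp' ⟨h1, fun l _ => h l⟩
      push Not at h2
      obtain ⟨l, hl⟩ := h2
      apply hp.zero_off
      refine ⟨l, ?_⟩
      by_cases h3 : (lo l : ℝ) - 2 * δ ≤ p.2 l
      · refine Or.inr (le_of_lt ?_)
        by_contra h4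
        exact hl ⟨h3, not_lt.1 h4⟩
      · exact Or.inl (not_le.1 h3).le
    · exact stepField_eq_zero hp.perm
        (Or.inl (deriv_prof_eq_zero ht fun h => h1 (Ioo_subset_Icc_self h)))
  · exact stepField_spaceDiv hp.perm (hsm.differentiable (by simp))
      (hp.eff₁.smooth.differentiable (by simp)) (hp.eff₂.smooth.differentiable (by simp))
  · intro p hp'
    exact stepField_eq_zero hp.perm (Or.inl (deriv_prof_eq_zero ht hp'))

end prof'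

/-! ### From curves to `Good` -/

lemma aff_self (B : RBox) (hB : ∀ l, 0 < B.h l) (x : Fin 3 → ℝ) : aff B B x = x := by
  funext l
  have : B.h l / B.h l = 1 := div_self (hB l).ne'
  simp only [aff, this]
  push_cast
  ring

lemma isOpen_inflated (B : RBox) (ε : ℝ) :
    IsOpen {x : Fin 3 → ℝ | ∀ l, |x l - (B.c l : ℝ)| < (B.h l : ℝ) + ε} := by
  have : {x : Fin 3 → ℝ | ∀ l, |x l - (B.c l : ℝ)| < (B.h l : ℝ) + ε} =
      ⋂ l, {x : Fin 3 → ℝ | |x l - (B.c l : ℝ)| < (B.h l : ℝ) + ε} := by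
    ext x; simp
  rw [this]
  exact isOpen_iInter_of_finite fun l => isOpen_lt (by fun_prop) continuous_const

lemma subset_inflated (B : RBox) {ε : ℝ} (hε : 0 < ε) :
    B.toSet ⊆ {x : Fin 3 → ℝ | ∀ l, |x l - (B.c l : ℝ)| < (B.h l : ℝ) + ε} := by
  intro x hx l
  have := hx l
  linarith

lemma good_of_moved_static {n : ℕ} {U : Field} (hU : ContDiff ℝ ∞ U) (hC : HasCompactSupport U)
    {t₀ t₁ : ℝ} (ht : t₀ ≤ t₁) {c : Fin n → RBox} {i : Fin n} {B' : RBox}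
    (hpos : ∀ i l, 0 < (c i).h l)
    (hstatic : ∀ m, m ≠ i → ∃ O : Set (Fin 3 → ℝ), IsOpen O ∧ (c m).toSet ⊆ O ∧
      ∀ x ∈ O, ∀ t, U (t, x) = 0)
    (hmoved : ∃ O : Set (Fin 3 → ℝ), IsOpen O ∧ (c i).toSet ⊆ O ∧
      ∀ x ∈ O, ∃ γ : ℝ → Fin 3 → ℝ, γ t₀ = x ∧ γ t₁ = aff (c i) B' x ∧
        ∀ t, HasDerivAt γ (U (t, γ t)) t) :
    Good U t₀ t₁ c (Function.update c i B') := by
  intro m
  by_cases hm : m = i
  · subst hm
    obtain ⟨O, hO, hsub, hO'⟩ := hmoved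
    refine ⟨O, hO, hsub, ?_⟩
    intro y hy hy0
    obtain ⟨γ, h0, h1, hγ⟩ := hO' _ hy0
    rw [Function.update_self, ← h1]
    exact step_curve_unique hU hC ht hy (fun t _ => hγ t) h0.symm
  · obtain ⟨O, hO, hsub, hO'⟩ := hstatic m hm
    refine ⟨O, hO, hsub, ?_⟩
    intro y hy hy0
    rw [Function.update_of_ne hm, aff_self _ (hpos m)]
    exact step_curve_unique hU hC ht hy (γ := fun _ => y t₀)
      (fun t _ => by simpa [hO' _ hy0 t] using hasDerivAt_const t (y t₀)) rfl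

/-- The lower end of the hull of two boxes. -/
def hullLo (B B' : RBox) (l : Fin 3) : ℚ := min (B.c l - B.h l) (B'.c l - B'.h l)

/-- The upper end of the hull of two boxes. -/
def hullHi (B B' : RBox) (l : Fin 3) : ℚ := max (B.c l + B.h l) (B'.c l + B'.h l)

lemma exists_clear {n : ℕ} {c : Fin n → RBox} {i : Fin n} {B' : RBox}
    (hsep : ∀ m, m ≠ i → (RBox.hull (c i) B').Sep (c m)) :
    ∃ δ : ℚ, 0 < δ ∧ ∀ m, m ≠ i → ∃ l, (hullHi (c i) B' l : ℝ) + 3 * δ < (c m).c l - (c m).h l ∨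
      ((c m).c l : ℝ) + (c m).h l + 3 * δ < hullLo (c i) B' l := by
  have h1 : ∀ m, ∃ δ : ℚ, 0 < δ ∧ (m ≠ i → ∃ l, hullHi (c i) B' l + 3 * δ < (c m).c l - (c m).h l ∨
      (c m).c l + (c m).h l + 3 * δ < hullLo (c i) B' l) := by
    intro m
    by_cases hm : m = i
    · exact ⟨1, one_pos, fun h => absurd hm h⟩
    · obtain ⟨l, hl⟩ := hsep m hm
      rw [hull_sep_iff] at hl
      rcases hl with hl | hl
      · refine ⟨((c m).c l - (c m).h l - hullHi (c i) B' l) / 4, ?_, fun _ => ⟨l, Or.inl ?_⟩⟩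
        · unfold hullHi; linarith
        · unfold hullHi at *; linarith
      · refine ⟨(hullLo (c i) B' l - ((c m).c l + (c m).h l)) / 4, ?_, fun _ => ⟨l, Or.inr ?_⟩⟩
        · unfold hullLo; linarith
        · unfold hullLo at *; linarith
  choose d hd0 hd using h1
  have hmin : ∃ δ : ℚ, 0 < δ ∧ ∀ m, δ ≤ d m := by
    by_cases hne : Nonempty (Fin n)
    · obtain ⟨m₀, hm₀⟩ := Finite.exists_min d
      exact ⟨d m₀, hd0 m₀, hm₀⟩
    · exact ⟨1, one_pos, fun m => absurd ⟨m⟩ hne⟩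
  obtain ⟨δ, hδ, hδd⟩ := hmin
  refine ⟨δ, hδ, fun m hm => ?_⟩
  obtain ⟨l, hl⟩ := hd m hm
  have hle := hδd m
  refine ⟨l, ?_⟩
  rcases hl with hl | hl
  · left
    have : hullHi (c i) B' l + 3 * δ < (c m).c l - (c m).h l := by linarith
    exact_mod_cast this
  · right
    have : (c m).c l + (c m).h l + 3 * δ < hullLo (c i) B' l := by linarith
    exact_mod_cast this

section hull
variable {B B' : RBox}

lemma hullLo_le₁ (l : Fin 3) : (hullLo B B' l : ℝ) ≤ (B.c l : ℝ) - B.h l := by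
  have : hullLo B B' l ≤ B.c l - B.h l := min_le_left _ _
  exact_mod_cast this

lemma hullLo_le₂ (l : Fin 3) : (hullLo B B' l : ℝ) ≤ (B'.c l : ℝ) - B'.h l := by
  have : hullLo B B' l ≤ B'.c l - B'.h l := min_le_right _ _
  exact_mod_cast this

lemma le_hullHi₁ (l : Fin 3) : (B.c l : ℝ) + B.h l ≤ hullHi B B' l := by
  have : B.c l + B.h l ≤ hullHi B B' l := le_max_left _ _
  exact_mod_cast this

lemma le_hullHi₂ (l : Fin 3) : (B'.c l : ℝ) + B'.h l ≤ hullHi B B' l := by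
  have : B'.c l + B'.h l ≤ hullHi B B' l := le_max_right _ _
  exact_mod_cast this

end hull

/-- Static boxes: the field vanishes near them. -/
lemma static_of_clear {n : ℕ} {c : Fin n → RBox} {i : Fin n} {B' : RBox} {δ : ℚ}
    (hδ : 0 < δ)
    (hclear : ∀ m, m ≠ i → ∃ l, (hullHi (c i) B' l : ℝ) + 3 * δ < (c m).c l - (c m).h l ∨
      ((c m).c l : ℝ) + (c m).h l + 3 * δ < hullLo (c i) B' l)
    {U : Field}
    (hzero : ∀ p : ℝ × (Fin 3 → ℝ), (∃ l, p.2 l ≤ (hullLo (c i) B' l : ℝ) - 2 * δ ∨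
      (hullHi (c i) B' l : ℝ) + 2 * δ ≤ p.2 l) → U p = 0) (m : Fin n) (hm : m ≠ i) :
    ∃ O : Set (Fin 3 → ℝ), IsOpen O ∧ (c m).toSet ⊆ O ∧ ∀ x ∈ O, ∀ t, U (t, x) = 0 := by
  have hδ' : (0 : ℝ) < δ := by exact_mod_cast hδ
  refine ⟨_, isOpen_inflated (c m) δ, subset_inflated (c m) hδ', ?_⟩
  intro x hx t
  apply hzero (t, x)
  obtain ⟨l, hl⟩ := hclear m hm
  refine ⟨l, ?_⟩
  have hxl := abs_lt.1 (hx l)
  simp only
  rcases hl with hl | hl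
  · right; linarith [hxl.1]
  · left; linarith [hxl.2]

/-! ### Translations -/

section trans
variable {lo hi : Fin 3 → ℚ} {δ : ℚ} {j₁ j₂ j₃ : Fin 3}

lemma trans_prof (hδ : 0 < δ) (hperm : Perm3 j₁ j₂ j₃) :
    Prof lo hi δ j₁ j₂ j₃ (plat (lo j₁) (hi j₁) δ) (lin 0 (lo j₂) (hi j₂) δ)
      (plat (lo j₃) (hi j₃) δ) :=
  ⟨hperm, plat_eff _ _ _, lin_eff hδ _ _ _, plat_eff _ _ _, fun _ h => plat_vanAt hδ h,
    fun _ h => lin_vanAt hδ _ h, fun _ h => plat_vanAt hδ h⟩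

lemma trans_value (hδ : 0 < δ) (hperm : Perm3 j₁ j₂ j₃) (c₀ : ℝ) (T : ℝ → ℝ) {z : Fin 3 → ℝ}
    (hz : ∀ l, (lo l : ℝ) - δ ≤ z l ∧ z l ≤ (hi l : ℝ) + δ) (t : ℝ) :
    stepField c₀ T (plat (lo j₁) (hi j₁) δ) (lin 0 (lo j₂) (hi j₂) δ)
      (plat (lo j₃) (hi j₃) δ) j₁ j₂ (t, z) = T t • Pi.single j₁ c₀ := by
  funext l
  rcases hperm.cases l with rfl | rfl | rfl
  · rw [stepField_apply₁ hperm]
    simp only
    rw [plat_eq_one hδ (hz _).1 (hz _).2, deriv_lin_eq_of_one hδ _ (hz _).1 (hz _).2,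
      plat_eq_one hδ (hz _).1 (hz _).2]
    simp
    ring
  · rw [stepField_apply₂ hperm]
    simp only
    rw [deriv_plat_eq_zero_of_one hδ (hz _).1 (hz _).2]
    simp [hperm.h12.symm]
  · rw [stepField_apply₃ hperm]
    simp [hperm.h13.symm]

lemma trans_curve (hδ : 0 < δ) (hperm : Perm3 j₁ j₂ j₃) (t₀ t₁ : ℚ) (d : ℚ) (x : Fin 3 → ℝ)
    (hin : ∀ s : ℝ, 0 ≤ s → s ≤ 1 → ∀ l,
      (lo l : ℝ) - δ ≤ (x + s • (Pi.single j₁ (d : ℝ) : Fin 3 → ℝ)) l ∧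
      (x + s • (Pi.single j₁ (d : ℝ) : Fin 3 → ℝ)) l ≤ (hi l : ℝ) + δ) (t : ℝ) :
    HasDerivAt (fun t => x + prof t₀ t₁ t • Pi.single j₁ (d : ℝ))
      (stepField (d : ℝ) (deriv (prof t₀ t₁)) (plat (lo j₁) (hi j₁) δ) (lin 0 (lo j₂) (hi j₂) δ)
        (plat (lo j₃) (hi j₃) δ) j₁ j₂ (t, x + prof t₀ t₁ t • Pi.single j₁ (d : ℝ))) t := by
  rw [trans_value hδ hperm _ _ (hin _ (prof_nonneg _ _ _) (prof_le_one _ _ _))]
  exact (((prof_differentiable t₀ t₁ t).hasDerivAt).smul_const _).const_add x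

/-- Translating a box: the curves. -/
lemma trans_moved (hperm : Perm3 j₁ j₂ j₃) {B : RBox} (hB : ∀ l, 0 < B.h l) (d : ℚ)
    (hδ : 0 < δ) {t₀ t₁ : ℚ} (ht : t₀ < t₁) :
    ∃ O : Set (Fin 3 → ℝ), IsOpen O ∧ B.toSet ⊆ O ∧
      ∀ x ∈ O, ∃ γ : ℝ → Fin 3 → ℝ, γ t₀ = x ∧ γ t₁ = aff B (B.translate j₁ d) x ∧
        ∀ t, HasDerivAt γ (stepField (d : ℝ) (deriv (prof t₀ t₁))
          (plat (hullLo B (B.translate j₁ d) j₁) (hullHi B (B.translate j₁ d) j₁) δ)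
          (lin 0 (hullLo B (B.translate j₁ d) j₂) (hullHi B (B.translate j₁ d) j₂) δ)
          (plat (hullLo B (B.translate j₁ d) j₃) (hullHi B (B.translate j₁ d) j₃) δ) j₁ j₂
          (t, γ t)) t := by
  have hδ' : (0 : ℝ) < δ := by exact_mod_cast hδ
  refine ⟨_, isOpen_inflated B δ, subset_inflated B hδ', ?_⟩
  intro x hx
  refine ⟨fun t => x + prof t₀ t₁ t • Pi.single j₁ (d : ℝ), ?_, ?_, ?_⟩
  · simp [prof_eq_zero ht le_rfl]
  · funext l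
    have hh : (B.translate j₁ d).h l / B.h l = 1 := div_self (hB l).ne'
    simp only [prof_eq_one ht le_rfl, one_smul, aff, hh]
    by_cases hl : l = j₁
    · subst hl
      simp [RBox.translate]
      ring
    · simp [RBox.translate, hl]
  · apply trans_curve (lo := hullLo B (B.translate j₁ d)) (hi := hullHi B (B.translate j₁ d))
      hδ hperm
    intro s hs0 hs1 l
    have h1 := hullLo_le₁ (B := B) (B' := B.translate j₁ d) l
    have h2 := hullLo_le₂ (B := B) (B' := B.translate j₁ d) l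
    have h3 := le_hullHi₁ (B := B) (B' := B.translate j₁ d) l
    have h4 := le_hullHi₂ (B := B) (B' := B.translate j₁ d) l
    have hxl := abs_lt.1 (hx l)
    by_cases hl : l = j₁
    · subst hl
      have hc1 : (B.translate l d).c l = B.c l + d := by simp [RBox.translate]
      have hc2 : (B.translate l d).h l = B.h l := rfl
      rw [hc1, hc2] at h2 h4
      push_cast at h2 h4
      simp only [Pi.add_apply, Pi.smul_apply, Pi.single_eq_same, smul_eq_mul]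
      have e : ∀ a b : ℝ, x l + s * d = (1 - s) * a + s * b + ((1 - s) * (x l - a) + s * (x l + d - b)) := by
        intro a b; ring
      constructor
      · rw [e (hullLo B (B.translate l d) l - δ) (hullLo B (B.translate l d) l - δ)]
        have : 0 ≤ (1 - s) * (x l - (hullLo B (B.translate l d) l - δ)) +
            s * (x l + d - (hullLo B (B.translate l d) l - δ)) :=
          add_nonneg (mul_nonneg (by linarith) (by linarith [hxl.1]))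
            (mul_nonneg hs0 (by linarith [hxl.1]))
        nlinarith
      · rw [e (hullHi B (B.translate l d) l + δ) (hullHi B (B.translate l d) l + δ)]
        have : (1 - s) * (x l - (hullHi B (B.translate l d) l + δ)) +
            s * (x l + d - (hullHi B (B.translate l d) l + δ)) ≤ 0 :=
          add_nonpos (mul_nonpos_of_nonneg_of_nonpos (by linarith) (by linarith [hxl.2]))
            (mul_nonpos_of_nonneg_of_nonpos hs0 (by linarith [hxl.2]))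
        nlinarith
    · simp only [Pi.add_apply, Pi.smul_apply, Pi.single_eq_of_ne hl, smul_zero, add_zero]
      constructor
      · linarith [hxl.1]
      · linarith [hxl.2]

end trans

/-- One translation step. -/
theorem realize_trans {n : ℕ} {c : Fin n → RBox} (hpos : ∀ i l, 0 < (c i).h l) {i : Fin n}
    (j : Fin 3) (d : ℚ) (hsep : ∀ m, m ≠ i → (RBox.hull (c i) ((c i).translate j d)).Sep (c m))
    {t₀ t₁ : ℚ} (ht : t₀ < t₁) :
    ∃ U : Field, FieldOK U t₀ t₁ ∧ Good U t₀ t₁ c (Function.update c i ((c i).translate j d)) := by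
  obtain ⟨δ, hδ, hclear⟩ := exists_clear hsep
  obtain ⟨j₂, j₃, hperm⟩ := exists_perm3 j
  set B' := (c i).translate j d with hB'
  have hp := trans_prof (lo := hullLo (c i) B') (hi := hullHi (c i) B') hδ hperm
  have hcneg : CompConst (-(d : ℝ)) := by
    have := CompConst.ofRat (-d)
    simpa using this
  have hOK := hp.fieldOK (CompConst.ofRat d) hcneg ht
  refine ⟨_, hOK, ?_⟩
  have ht' : (t₀ : ℝ) ≤ t₁ := by exact_mod_cast ht.le
  apply good_of_moved_static hOK.smooth hOK.compact ht' hpos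
  · exact static_of_clear hδ hclear (fun p hp' => hp.zero_off _ hp')
  · exact trans_moved hperm (hpos i) d hδ ht

/-! ### Scalings -/

lemma exp_mul_log_le {ρ S : ℝ} (hρ : 0 < ρ) (h0 : 0 ≤ S) (h1 : S ≤ 1) :
    Real.exp (S * Real.log ρ) ≤ max 1 ρ := by
  rcases le_total 1 ρ with h | h
  · rw [max_eq_right h]
    have hl : 0 ≤ Real.log ρ := Real.log_nonneg h
    calc Real.exp (S * Real.log ρ) ≤ Real.exp (Real.log ρ) := by
          apply Real.exp_le_exp.2; nlinarith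
      _ = ρ := Real.exp_log hρ
  · rw [max_eq_left h]
    have hl : Real.log ρ ≤ 0 := Real.log_nonpos hρ.le h
    calc Real.exp (S * Real.log ρ) ≤ Real.exp 0 := by
          apply Real.exp_le_exp.2; nlinarith
      _ = 1 := Real.exp_zero

lemma scale_coord_mem {lo hi m h ρ ε δ x S : ℝ} (hh : 0 < h) (hρ : 0 < ρ) (hS0 : 0 ≤ S) (hS1 : S ≤ 1)
    (hx : |x - m| < h + ε) (hε : 0 ≤ ε) (hQ : ε * max 1 ρ ≤ δ) (h1 : lo ≤ m - h)
    (h2 : lo ≤ m - ρ * h) (h3 : m + h ≤ hi) (h4 : m + ρ * h ≤ hi) :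
    lo - δ ≤ m + (x - m) * Real.exp (S * Real.log ρ) ∧
      m + (x - m) * Real.exp (S * Real.log ρ) ≤ hi + δ := by
  set e := Real.exp (S * Real.log ρ) with he
  have he0 : 0 < e := Real.exp_pos _
  have hle : e ≤ max 1 ρ := exp_mul_log_le hρ hS0 hS1
  have hab : |(x - m) * e| ≤ (h + ε) * e := by
    rw [abs_mul, abs_of_pos he0]
    exact mul_le_mul_of_nonneg_right hx.le he0.le
  have h5 : ε * e ≤ δ := (mul_le_mul_of_nonneg_left hle hε).trans hQ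
  have h6 : h * e ≤ h * max 1 ρ := mul_le_mul_of_nonneg_left hle hh.le
  have h7 : h * max 1 ρ ≤ hi - m ∧ h * max 1 ρ ≤ m - lo := by
    rcases le_total 1 ρ with hc | hc
    · rw [max_eq_right hc]
      constructor <;> nlinarith
    · rw [max_eq_left hc]
      constructor <;> nlinarith
  obtain ⟨h8, h9⟩ := abs_le.1 hab
  constructor <;> nlinarith [h7.1, h7.2]

section scale
variable {lo hi : Fin 3 → ℚ} {δ : ℚ} {j₁ j₂ j₃ : Fin 3}

lemma scale_prof (hδ : 0 < δ) (hperm : Perm3 j₁ j₂ j₃) (m : Fin 3 → ℚ) :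
    Prof lo hi δ j₁ j₂ j₃ (lin (m j₁) (lo j₁) (hi j₁) δ) (lin (m j₂) (lo j₂) (hi j₂) δ)
      (plat (lo j₃) (hi j₃) δ) :=
  ⟨hperm, lin_eff hδ _ _ _, lin_eff hδ _ _ _, plat_eff _ _ _, fun _ h => lin_vanAt hδ _ h,
    fun _ h => lin_vanAt hδ _ h, fun _ h => plat_vanAt hδ h⟩

lemma scale_value (hδ : 0 < δ) (hperm : Perm3 j₁ j₂ j₃) (m : Fin 3 → ℚ) (κ : Fin 3 → ℝ) (c₀ : ℝ)
    (h1 : κ j₁ = c₀) (h2 : κ j₂ = -c₀) (h3 : κ j₃ = 0) (T : ℝ → ℝ) {z : Fin 3 → ℝ}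
    (hz : ∀ l, (lo l : ℝ) - δ ≤ z l ∧ z l ≤ (hi l : ℝ) + δ) (t : ℝ) (l : Fin 3) :
    stepField c₀ T (lin (m j₁) (lo j₁) (hi j₁) δ) (lin (m j₂) (lo j₂) (hi j₂) δ)
      (plat (lo j₃) (hi j₃) δ) j₁ j₂ (t, z) l = κ l * (T t * (z l - m l)) := by
  rcases hperm.cases l with rfl | rfl | rfl
  · rw [stepField_apply₁ hperm, h1]
    simp only
    rw [lin_eq_of_one hδ _ (hz _).1 (hz _).2, deriv_lin_eq_of_one hδ _ (hz _).1 (hz _).2,
      plat_eq_one hδ (hz _).1 (hz _).2]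
    ring
  · rw [stepField_apply₂ hperm, h2]
    simp only
    rw [deriv_lin_eq_of_one hδ _ (hz _).1 (hz _).2, lin_eq_of_one hδ _ (hz _).1 (hz _).2,
      plat_eq_one hδ (hz _).1 (hz _).2]
    ring
  · rw [stepField_apply₃ hperm, h3]
    ring

lemma scale_curve (hδ : 0 < δ) (hperm : Perm3 j₁ j₂ j₃) (t₀ t₁ : ℚ) (m : Fin 3 → ℚ) (ρ : Fin 3 → ℝ)
    (c₀ : ℝ) (h1 : Real.log (ρ j₁) = c₀) (h2 : Real.log (ρ j₂) = -c₀) (h3 : Real.log (ρ j₃) = 0)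
    (x : Fin 3 → ℝ)
    (hin : ∀ s : ℝ, 0 ≤ s → s ≤ 1 → ∀ l,
      (lo l : ℝ) - δ ≤ m l + (x l - m l) * Real.exp (s * Real.log (ρ l)) ∧
      m l + (x l - m l) * Real.exp (s * Real.log (ρ l)) ≤ (hi l : ℝ) + δ) (t : ℝ) :
    HasDerivAt (fun t l => (m l : ℝ) + (x l - m l) * Real.exp (prof t₀ t₁ t * Real.log (ρ l)))
      (stepField c₀ (deriv (prof t₀ t₁)) (lin (m j₁) (lo j₁) (hi j₁) δ)
        (lin (m j₂) (lo j₂) (hi j₂) δ) (plat (lo j₃) (hi j₃) δ) j₁ j₂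
        (t, fun l => (m l : ℝ) + (x l - m l) * Real.exp (prof t₀ t₁ t * Real.log (ρ l)))) t := by
  rw [hasDerivAt_pi]
  intro l
  rw [scale_value hδ hperm m (fun l => Real.log (ρ l)) c₀ h1 h2 h3 _
    (hin _ (prof_nonneg _ _ _) (prof_le_one _ _ _))]
  have hd : HasDerivAt (prof t₀ t₁) (deriv (prof t₀ t₁) t) t :=
    (prof_differentiable t₀ t₁ t).hasDerivAt
  have := (((hd.mul_const (Real.log (ρ l))).exp).const_mul ((x l : ℝ) - m l)).const_add (m l : ℝ)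
  convert this using 1
  ring

lemma scale_moved (hperm : Perm3 j₁ j₂ j₃) {B : RBox} (hB : ∀ l, 0 < B.h l) {r : ℚ} (hr : 0 < r)
    (hδ : 0 < δ) {t₀ t₁ : ℚ} (ht : t₀ < t₁) :
    ∃ O : Set (Fin 3 → ℝ), IsOpen O ∧ B.toSet ⊆ O ∧
      ∀ x ∈ O, ∃ γ : ℝ → Fin 3 → ℝ, γ t₀ = x ∧ γ t₁ = aff B (B.scale j₁ j₂ r) x ∧
        ∀ t, HasDerivAt γ (stepField (Real.log (r : ℝ)) (deriv (prof t₀ t₁))
          (lin (B.c j₁) (hullLo B (B.scale j₁ j₂ r) j₁) (hullHi B (B.scale j₁ j₂ r) j₁) δ)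
          (lin (B.c j₂) (hullLo B (B.scale j₁ j₂ r) j₂) (hullHi B (B.scale j₁ j₂ r) j₂) δ)
          (plat (hullLo B (B.scale j₁ j₂ r) j₃) (hullHi B (B.scale j₁ j₂ r) j₃) δ) j₁ j₂
          (t, γ t)) t := by
  have hδ' : (0 : ℝ) < δ := by exact_mod_cast hδ
  have hr' : (0 : ℝ) < r := by exact_mod_cast hr
  -- the ratios
  set ρq : Fin 3 → ℚ := fun l => (B.scale j₁ j₂ r).h l / B.h l with hρq
  have hq1 : ρq j₁ = r := by
    have : (B.scale j₁ j₂ r).h j₁ = r * B.h j₁ := by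
      simp [RBox.scale, hperm.h12]
    simp only [hρq, this]
    field_simp [(hB j₁).ne']
  have hq2 : ρq j₂ = r⁻¹ := by
    have : (B.scale j₁ j₂ r).h j₂ = B.h j₂ / r := by
      simp [RBox.scale]
    simp only [hρq, this]
    field_simp [(hB j₂).ne']
  have hq3 : ρq j₃ = 1 := by
    have : (B.scale j₁ j₂ r).h j₃ = B.h j₃ := by
      simp [RBox.scale, hperm.h13.symm, hperm.h23.symm]
    simp only [hρq, this]
    exact div_self (hB j₃).ne'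
  have hρ0 : ∀ l, 0 < ρq l := by
    intro l
    rcases hperm.cases l with rfl | rfl | rfl
    · rw [hq1]; exact hr
    · rw [hq2]; exact inv_pos.2 hr
    · rw [hq3]; exact one_pos
  have hρ0' : ∀ l, (0 : ℝ) < ρq l := fun l => by exact_mod_cast hρ0 l
  have hrh : ∀ l, (B.scale j₁ j₂ r).h l = ρq l * B.h l := by
    intro l
    simp only [hρq]
    field_simp [(hB l).ne']
  have hcc : ∀ l, (B.scale j₁ j₂ r).c l = B.c l := fun l => rfl
  set Q : ℝ := 1 + r + (r : ℝ)⁻¹ with hQdef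
  have hrinv : (0 : ℝ) < (r : ℝ)⁻¹ := inv_pos.2 hr'
  have hQ : 0 < Q := by positivity
  have hmax : ∀ l, max 1 ((ρq l : ℚ) : ℝ) ≤ Q := by
    intro l
    apply max_le
    · rw [hQdef]; linarith
    · rcases hperm.cases l with rfl | rfl | rfl
      · rw [hq1, hQdef]; linarith
      · rw [hq2, hQdef]; push_cast; linarith
      · rw [hq3, hQdef]; push_cast; linarith
  set ε : ℝ := δ / Q with hε
  have hε0 : 0 < ε := div_pos hδ' hQ
  refine ⟨_, isOpen_inflated B ε, subset_inflated B hε0, ?_⟩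
  intro x hx
  refine ⟨fun t l => (B.c l : ℝ) + (x l - B.c l) * Real.exp (prof t₀ t₁ t * Real.log (ρq l)),
    ?_, ?_, ?_⟩
  · funext l
    simp [prof_eq_zero ht le_rfl]
  · funext l
    simp only [prof_eq_one ht le_rfl, one_mul, aff, Real.exp_log (hρ0' l), hcc]
    ring
  · have h1 : Real.log ((ρq j₁ : ℚ) : ℝ) = Real.log r := by rw [hq1]
    have h2 : Real.log ((ρq j₂ : ℚ) : ℝ) = -Real.log r := by
      rw [hq2]; push_cast; exact Real.log_inv _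
    have h3 : Real.log ((ρq j₃ : ℚ) : ℝ) = 0 := by
      rw [hq3]; simp
    apply scale_curve (lo := hullLo B (B.scale j₁ j₂ r)) (hi := hullHi B (B.scale j₁ j₂ r))
      hδ hperm t₀ t₁ B.c (fun l => (ρq l : ℝ)) (Real.log r) h1 h2 h3 x
    intro s hs0 hs1 l
    have ha := hullLo_le₁ (B := B) (B' := B.scale j₁ j₂ r) l
    have hb := hullLo_le₂ (B := B) (B' := B.scale j₁ j₂ r) l
    have hc := le_hullHi₁ (B := B) (B' := B.scale j₁ j₂ r) l
    have hd := le_hullHi₂ (B := B) (B' := B.scale j₁ j₂ r) l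
    rw [hrh l, hcc l] at hb hd
    push_cast at hb hd
    refine scale_coord_mem (hh := by exact_mod_cast hB l) (hρ0' l) hs0 hs1 (hx l) hε0.le ?_ ha hb hc hd
    calc ε * max 1 ((ρq l : ℚ) : ℝ) ≤ ε * Q := mul_le_mul_of_nonneg_left (hmax l) hε0.le
      _ = δ := by rw [hε]; field_simp

end scale

/-- One scaling step. -/
theorem realize_scale {n : ℕ} {c : Fin n → RBox} (hpos : ∀ i l, 0 < (c i).h l) {i : Fin n}
    {j₁ j₂ : Fin 3} (hne : j₁ ≠ j₂) {r : ℚ} (hr : 0 < r)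
    (hsep : ∀ m, m ≠ i → (RBox.hull (c i) ((c i).scale j₁ j₂ r)).Sep (c m))
    {t₀ t₁ : ℚ} (ht : t₀ < t₁) :
    ∃ U : Field, FieldOK U t₀ t₁ ∧ Good U t₀ t₁ c (Function.update c i ((c i).scale j₁ j₂ r)) := by
  obtain ⟨δ, hδ, hclear⟩ := exists_clear hsep
  obtain ⟨j₃, hperm⟩ := exists_perm3_of_ne hne
  have hp := scale_prof (lo := hullLo (c i) ((c i).scale j₁ j₂ r))
    (hi := hullHi (c i) ((c i).scale j₁ j₂ r)) hδ hperm (c i).c
  have hcneg : CompConst (-Real.log (r : ℝ)) := by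
    have := CompConst.log r⁻¹ (inv_pos.2 hr)
    simpa [Real.log_inv] using this
  have hOK := hp.fieldOK (CompConst.log r hr) hcneg ht
  refine ⟨_, hOK, ?_⟩
  have ht' : (t₀ : ℝ) ≤ t₁ := by exact_mod_cast ht.le
  apply good_of_moved_static hOK.smooth hOK.compact ht' hpos
  · exact static_of_clear hδ hclear (fun p hp' => hp.zero_off _ hp')
  · exact scale_moved hperm (hpos i) hr hδ ht

/-- **Module C**: one step of a plan is realised by a field. -/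
theorem realize_step {n : ℕ} {c c' : Fin n → RBox} (hpos : ∀ i l, 0 < (c i).h l)
    (hs : Step c c') (t₀ t₁ : ℚ) (ht : t₀ < t₁) :
    ∃ U : Field, FieldOK U t₀ t₁ ∧ Good U t₀ t₁ c c' := by
  obtain ⟨i, B', rfl, hE, hsep⟩ := hs
  cases hE with
  | trans j d => exact realize_trans hpos j d hsep ht
  | scale j₁ j₂ r hne hr => exact realize_scale hpos hne hr hsep ht

end StepC
end Crest.Agent.S0170Lib
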