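import Crest.Agent.S0170Lib.Defs

/-!
# Global flows and uniqueness of solutions (S0170 library, module B)

* `exists_flow`: a smooth compactly supported field has a global flow.
* `curve_unique`: uniqueness of solutions on `[t₀, t₁]` for globally Lipschitz fields.
* `Good.comp`, `Good.congr`.
-/

set_option autoImplicit false

open scoped ContDiff NNReal
open Set Metric
open Crest.AnalysisR.BoxFlow

namespace Crest.Agent.S0170Lib

/-- Slices of a Lipschitz field are Lipschitz. -/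
lemma lipschitz_slice {U : Field} {K : ℝ≥0} (hL : LipschitzWith K U) (t : ℝ) :
    LipschitzWith K (fun x => U (t, x)) := by
  intro x y
  have := hL (t, x) (t, y)
  refine this.trans ?_
  gcongr
  simp [Prod.edist_eq]

/-- **Uniqueness** of solutions: right version with one-sided derivatives. -/
theorem curve_unique' {U : Field} {K : ℝ≥0} (hL : LipschitzWith K U) {t₀ t₁ : ℝ}
    {y z : ℝ → Fin 3 → ℝ}
    (hyc : ContinuousOn y (Icc t₀ t₁)) (hzc : ContinuousOn z (Icc t₀ t₁))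
    (hy : ∀ t ∈ Ico t₀ t₁, HasDerivWithinAt y (U (t, y t)) (Ici t) t)
    (hz : ∀ t ∈ Ico t₀ t₁, HasDerivWithinAt z (U (t, z t)) (Ici t) t)
    (h : y t₀ = z t₀) : ∀ t ∈ Icc t₀ t₁, y t = z t := by
  have := ODE_solution_unique_of_mem_Icc_right (v := fun t x => U (t, x)) (s := fun _ => univ)
    (K := K) (a := t₀) (b := t₁) (f := y) (g := z)
    (fun t _ => (lipschitz_slice hL t).lipschitzOnWith) hyc hy (fun _ _ => mem_univ _) hzc hz
    (fun _ _ => mem_univ _) h
  exact this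

/-- **Uniqueness** of solutions on a closed interval. -/
theorem curve_unique {U : Field} {K : ℝ≥0} (hL : LipschitzWith K U) {t₀ t₁ : ℝ}
    {y z : ℝ → Fin 3 → ℝ}
    (hy : ∀ t ∈ Icc t₀ t₁, HasDerivAt y (U (t, y t)) t)
    (hz : ∀ t ∈ Icc t₀ t₁, HasDerivAt z (U (t, z t)) t)
    (h : y t₀ = z t₀) : ∀ t ∈ Icc t₀ t₁, y t = z t :=
  curve_unique' hL (fun t ht => (hy t ht).continuousAt.continuousWithinAt)
    (fun t ht => (hz t ht).continuousAt.continuousWithinAt)
    (fun t ht => (hy t ⟨ht.1, ht.2.le⟩).hasDerivWithinAt)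
    (fun t ht => (hz t ⟨ht.1, ht.2.le⟩).hasDerivWithinAt) h

/-- Uniqueness on a closed interval: for curves with derivatives within the interval, agreeing at
an interior point. -/
lemma curve_unique_within {U : Field} {K : ℝ≥0} (hL : LipschitzWith K U) {a b t₀ : ℝ}
    (ht₀ : t₀ ∈ Ioo a b) {y z : ℝ → Fin 3 → ℝ}
    (hy : ∀ t ∈ Icc a b, HasDerivWithinAt y (U (t, y t)) (Icc a b) t)
    (hz : ∀ t ∈ Icc a b, HasDerivWithinAt z (U (t, z t)) (Icc a b) t)
    (h : y t₀ = z t₀) : ∀ t ∈ Icc a b, y t = z t := by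
  have := ODE_solution_unique_of_mem_Icc (v := fun t x => U (t, x)) (s := fun _ => univ)
    (K := K) (a := a) (b := b) (t₀ := t₀) (f := y) (g := z)
    (fun t _ => (lipschitz_slice hL t).lipschitzOnWith) ht₀
    (fun t ht => (hy t ht).continuousWithinAt)
    (fun t ht => (hy t (Ioo_subset_Icc_self ht)).hasDerivAt (Icc_mem_nhds ht.1 ht.2))
    (fun _ _ => mem_univ _)
    (fun t ht => (hz t ht).continuousWithinAt)
    (fun t ht => (hz t (Ioo_subset_Icc_self ht)).hasDerivAt (Icc_mem_nhds ht.1 ht.2))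
    (fun _ _ => mem_univ _) h
  exact this

/-- Smooth compactly supported fields are bounded. -/
lemma exists_bound_field {U : Field} (hU : ContDiff ℝ ∞ U) (hC : HasCompactSupport U) :
    ∃ L : ℝ≥0, ∀ p, ‖U p‖ ≤ L := by
  obtain ⟨C, hC'⟩ := hC.exists_bound_of_continuous hU.continuous
  refine ⟨⟨max C 0, le_max_right _ _⟩, fun p => ?_⟩
  exact (hC' p).trans (le_max_left _ _)

/-- Smooth compactly supported fields are Lipschitz. -/
lemma exists_lipschitz_field {U : Field} (hU : ContDiff ℝ ∞ U) (hC : HasCompactSupport U) :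
    ∃ K : ℝ≥0, LipschitzWith K U :=
  ContDiff.lipschitzWith_of_hasCompactSupport hC hU (by simp)

/-- Solutions on `[-T, T]`. -/
lemma exists_solution {U : Field} (hU : ContDiff ℝ ∞ U) {K L : ℝ≥0} (hL : LipschitzWith K U)
    (hB : ∀ p, ‖U p‖ ≤ L) (T : ℝ≥0) (hT : 0 < T) (x : Fin 3 → ℝ) :
    ∃ α : ℝ → Fin 3 → ℝ, α 0 = x ∧
      ∀ t ∈ Icc (-(T : ℝ)) T, HasDerivWithinAt α (U (t, α t)) (Icc (-(T : ℝ)) T) t := by
  have hT' : (0 : ℝ) < T := hT
  let t₀ : Icc (-(T : ℝ)) T := ⟨0, by constructor <;> linarith⟩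
  have hPL : IsPicardLindelof (fun t x => U (t, x)) t₀ x (L * T) 0 L K := by
    refine ⟨fun t _ => (lipschitz_slice hL t).lipschitzOnWith, ?_, fun t _ y _ => hB _, ?_⟩
    · intro y _
      exact (hU.continuous.comp (continuous_id.prodMk continuous_const)).continuousOn
    · simp only [t₀, sub_zero, zero_sub, neg_neg, max_self, NNReal.coe_mul, NNReal.coe_zero,
        le_refl]
  obtain ⟨α, h0, hα⟩ := hPL.exists_eq_forall_mem_Icc_hasDerivWithinAt (x := x) (by simp)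
  exact ⟨α, h0, hα⟩

/-- **Global flows** of smooth compactly supported fields. -/
theorem exists_flow {U : Field} (hU : ContDiff ℝ ∞ U) (hC : HasCompactSupport U) :
    ∃ Φ : ℝ → (Fin 3 → ℝ) → (Fin 3 → ℝ), IsFlow U Φ := by
  obtain ⟨K, hK⟩ := exists_lipschitz_field hU hC
  obtain ⟨L, hL⟩ := exists_bound_field hU hC
  have h1 := fun (T : ℝ≥0) (hT : 0 < T) (x : Fin 3 → ℝ) => exists_solution hU hK hL T hT x
  choose α hα0 hα using h1
  -- time parameter
  let τ : ℝ → ℝ≥0 := fun t => ⟨|t| + 1, by positivity⟩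
  have hτ : ∀ t, 0 < τ t := fun t => by
    show (0 : ℝ) < |t| + 1
    positivity
  have hτ' : ∀ t, ((τ t : ℝ≥0) : ℝ) = |t| + 1 := fun t => rfl
  let Φ : ℝ → (Fin 3 → ℝ) → (Fin 3 → ℝ) := fun t x => α (τ t) (hτ t) x t
  -- independence of the time window
  have hagree : ∀ (S T : ℝ≥0) (hS : 0 < S) (hT : 0 < T) (x : Fin 3 → ℝ), S ≤ T →
      ∀ t ∈ Icc (-(S : ℝ)) S, α S hS x t = α T hT x t := by
    intro S T hS hT x hST
    have hS' : (0 : ℝ) < S := hS
    have hST' : (S : ℝ) ≤ T := hST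
    have hsub : Icc (-(S : ℝ)) S ⊆ Icc (-(T : ℝ)) T := Icc_subset_Icc (by linarith) hST'
    refine curve_unique_within hK (a := -(S : ℝ)) (b := S) (t₀ := 0)
      ⟨by linarith, hS'⟩ (hα S hS x) ?_ ?_
    · intro t ht
      exact (hα T hT x t (hsub ht)).mono hsub
    · rw [hα0, hα0]
  refine ⟨Φ, ?_, ?_⟩
  · intro x
    exact hα0 _ _ _
  · intro t x
    have hT0 : (0 : ℝ) < (τ t : ℝ) := hτ t
    have ht : t ∈ Ioo (-(τ t : ℝ)) (τ t) := by
      rw [hτ']
      constructor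
      · linarith [neg_abs_le t]
      · linarith [le_abs_self t]
    have h2 : HasDerivAt (α (τ t) (hτ t) x) (U (t, α (τ t) (hτ t) x t)) t :=
      (hα (τ t) (hτ t) x t (Ioo_subset_Icc_self ht)).hasDerivAt (Icc_mem_nhds ht.1 ht.2)
    -- near `t`, the flow coincides with the solution on the big window
    refine h2.congr_of_eventuallyEq ?_
    have hnhds : Ioo (-(τ t : ℝ)) (τ t) ∈ nhds t := Ioo_mem_nhds ht.1 ht.2
    filter_upwards [hnhds] with s hs
    -- compare windows for `s`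
    have hsτ : |s| < (τ t : ℝ) := abs_lt.2 hs
    show α (τ s) (hτ s) x s = α (τ t) (hτ t) x s
    rcases le_total (τ s) (τ t) with hle | hle
    · apply hagree (τ s) (τ t) (hτ s) (hτ t) x hle
      rw [hτ']
      constructor
      · linarith [neg_abs_le s]
      · linarith [le_abs_self s]
    · symm
      apply hagree (τ t) (τ s) (hτ t) (hτ s) x hle
      exact ⟨hs.1.le, hs.2.le⟩

/-- A solution of a field vanishing on the time window is constant on this window. -/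
lemma constant_on_window {U : Field} {t₀ t₁ : ℝ} {y : ℝ → Fin 3 → ℝ}
    (hy : ∀ t ∈ Icc t₀ t₁, HasDerivAt y (U (t, y t)) t)
    (h0 : ∀ p : ℝ × (Fin 3 → ℝ), p.1 ∈ Icc t₀ t₁ → U p = 0) :
    ∀ t ∈ Icc t₀ t₁, y t = y t₀ := by
  refine constant_of_has_deriv_right_zero
    (fun t ht => (hy t ht).continuousAt.continuousWithinAt) ?_
  intro t ht
  have := (hy t ⟨ht.1, ht.2.le⟩).hasDerivWithinAt (s := Ici t)
  rwa [h0 (t, y t) ⟨ht.1, ht.2.le⟩] at this

/-! ### `aff` and `Good` -/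

lemma aff_comp (B B' B'' : RBox) (hB' : ∀ l, B'.h l ≠ 0) (x : Fin 3 → ℝ) :
    aff B' B'' (aff B B' x) = aff B B'' x := by
  funext j
  simp only [aff]
  have h := hB' j
  push_cast
  have h' : (B'.h j : ℝ) ≠ 0 := by exact_mod_cast h
  by_cases hBj : (B.h j : ℝ) = 0
  · simp [hBj]
  · field_simp
    ring

lemma continuous_aff (B B' : RBox) : Continuous (aff B B') := by
  unfold aff
  fun_prop

lemma aff_mem_toSet (B B' : RBox) (hB : ∀ l, 0 < B.h l) (hB' : ∀ l, 0 < B'.h l)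
    {x : Fin 3 → ℝ} (hx : x ∈ B.toSet) : aff B B' x ∈ B'.toSet := by
  intro j
  have hj := hx j
  have h1 : (0 : ℝ) < B.h j := by exact_mod_cast hB j
  have h2 : (0 : ℝ) < B'.h j := by exact_mod_cast hB' j
  simp only [aff]
  push_cast
  rw [add_sub_cancel_left, abs_mul, abs_of_pos (div_pos h2 h1)]
  calc (B'.h j : ℝ) / B.h j * |x j - B.c j| ≤ (B'.h j : ℝ) / B.h j * B.h j := by
        gcongr
    _ = B'.h j := by field_simp

/-- Composition of `Good` fields. -/
theorem Good.comp {ι : Type*} {U : Field} {t₀ t₁ t₂ : ℝ} (h01 : t₀ ≤ t₁) (h12 : t₁ ≤ t₂)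
    {c c' c'' : ι → RBox}
    (hc : ∀ i l, 0 < (c i).h l) (hc' : ∀ i l, 0 < (c' i).h l)
    (h1 : Good U t₀ t₁ c c') (h2 : Good U t₁ t₂ c' c'') : Good U t₀ t₂ c c'' := by
  intro i
  obtain ⟨O₁, hO₁, hs₁, hg₁⟩ := h1 i
  obtain ⟨O₂, hO₂, hs₂, hg₂⟩ := h2 i
  refine ⟨O₁ ∩ aff (c i) (c' i) ⁻¹' O₂, hO₁.inter (hO₂.preimage (continuous_aff _ _)), ?_, ?_⟩
  · intro x hx
    exact ⟨hs₁ hx, hs₂ (aff_mem_toSet _ _ (hc i) (hc' i) hx)⟩
  · intro y hy hy0
    have e1 := hg₁ y (fun t ht => hy t ⟨ht.1, ht.2.trans h12⟩) hy0.1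
    have e2 := hg₂ y (fun t ht => hy t ⟨h01.trans ht.1, ht.2⟩) (by rw [e1]; exact hy0.2)
    rw [e2, e1, aff_comp _ _ _ (fun l => (hc' i l).ne')]

/-- `Good` only depends on the field on the time window. -/
theorem Good.congr {ι : Type*} {U V : Field} {t₀ t₁ : ℝ} {c c' : ι → RBox}
    (h : Good U t₀ t₁ c c') (hUV : ∀ p : ℝ × (Fin 3 → ℝ), p.1 ∈ Icc t₀ t₁ → U p = V p) :
    Good V t₀ t₁ c c' := by
  intro i
  obtain ⟨O, hO, hs, hg⟩ := h i
  refine ⟨O, hO, hs, fun y hy hy0 => hg y (fun t ht => ?_) hy0⟩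
  rw [hUV (t, y t) ht]
  exact hy t ht

end Crest.Agent.S0170Lib
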